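import Vale.Agent.P014Y.Kp.St
import Vale.Agent.P014T.Kx.Tw

/-! # P014Y, block Kp: the action (row `ACT`) -/

set_option autoImplicit false
set_option linter.all false

noncomputable section

namespace Vale.Agent.P014Y.Kp

open Matrix
open scoped Classical
open Vale.Agent.P022 (Qb GQ)
open Vale.Agent.P004K (Hc x_rc1)
open Vale.Agent.P014U
open X4F.Rc (mq)
open P004M.TE (Pt ga ga_mul ga_one ev_ga)
open P004F (sd hq)
open P014T.Ki (Fx)
open P014T.Kx.Tw (sd_or sd_sq sd_mul sd_one sd_lc sd_eq_one)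
open P014Y.F (Crv Fld)
open Mu

variable [Pp]

namespace Act

section

variable {s : ℕ} {G : Type} [AddCommGroup G] (x : Mq s G) (i : Zq s)

theorem vp_apply : vp x i = x (i - 1) - x (i + 1) := by
  rw [← sub_neg_eq_add]; rfl

theorem vp_eq : vp x = sh 1 x - sh (-1) x := rfl

theorem op_eq (c : Zq s → ℤ) : op c x = ∑ k, c k • sh k x := by
  exact map_sum (AddMonoidHom.eval x) _ _

theorem nm_eq : Nm x = ∑ j ∈ Finset.range pp, sh ((j * pp ^ s : ℕ) : Zq s) x := by
  exact map_sum (AddMonoidHom.eval x) _ _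

theorem vp_op : vp x = op (Pi.single 1 1 - Pi.single (-1) 1) x := by
  simp [op_eq, vp_eq, sub_smul, Finset.sum_sub_distrib, Pi.single_apply]

theorem mem_A : x ∈ (Aq : AddSubgroup (Mq s G)) ↔ ∀ i, ∑ j ∈ Finset.range pp,
    x (i - ((j * pp ^ s : ℕ) : Zq s)) = 0 := by
  change Nm x = 0 ↔ _
  rw [nm_eq, funext_iff]
  simp only [Finset.sum_apply, sh_apply, Pi.zero_apply]

/-- the sum over a coset is symmetric -/
theorem sum_neg : ∑ j ∈ Finset.range pp, x (i + ((j * pp ^ s : ℕ) : Zq s)) =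
    ∑ j ∈ Finset.range pp, x (i - ((j * pp ^ s : ℕ) : Zq s)) := by
  have z : ((pp * pp ^ s : ℕ) : Zq s) = 0 := by rw [← pow_succ', ZMod.natCast_self]
  have a := Finset.sum_range_succ (fun j => x (i + ((j * pp ^ s : ℕ) : Zq s))) pp
  rw [← Finset.sum_range_reflect, Finset.sum_range_succ, z, add_zero, Nat.add_sub_cancel, Nat.sub_self,
    zero_mul, Nat.cast_zero, add_zero, add_left_inj] at a
  rw [← a]
  refine Finset.sum_congr rfl fun j h => ?_
  rw [Nat.sub_mul, Nat.cast_sub (Nat.mul_le_mul_right _ (Finset.mem_range.1 h).le), z, zero_sub,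
    sub_eq_add_neg]

end

variable {e : Crv} {b : Fld e} (k : Ch b)

theorem sq (g : GQ) : (sd (-b.δ') g : Zq k.s) * sd (-b.δ') g = 1 := by
  rw [← Int.cast_mul, sd_sq, Int.cast_one]

theorem chi_one : k.χ 1 = 0 := k.ker 1 (one_mem _)

theorem chi_lc (g : GQ) : ∀ᶠ h in nhds g, k.χ h = k.χ g := by
  filter_upwards [((x_rc1 _ b.j b.iq _ (pow_pos pp_pos k.t)).2.1.preimage
    (continuous_const_mul g⁻¹)).mem_nhds (show g⁻¹ * g ∈ Hc b.j (pp ^ k.t) by simp)] with h m
  rw [← mul_inv_cancel_left g h, k.mul, k.ker _ m, mul_zero, add_zero]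

/-- the affine map -/
def af (g : GQ) : Zq k.s ≃ Zq k.s where
  toFun i := sd (-b.δ') g * (i - k.χ g)
  invFun i := sd (-b.δ') g * i + k.χ g
  left_inv i := by simp only [← mul_assoc, sq, one_mul, sub_add_cancel]
  right_inv i := by simp only [add_sub_cancel_right, ← mul_assoc, sq, one_mul]

theorem rmul (n : ℕ) (g h : GQ) (x : k.M) : k.ρ n (g * h) x = k.ρ n g (k.ρ n h x) := funext fun i => by
  simp only [Ch.ρ_apply, sd_mul, k.mul, ga_mul, map_zsmul, smul_smul, mul_pow, Int.cast_mul]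
  congr 4
  linear_combination (-sd (-b.δ') h * k.χ h : Zq k.s) * sq k g

theorem rone (n : ℕ) (x : k.M) : k.ρ n 1 x = x := funext fun i => by
  simp [Ch.ρ_apply, sd_one, chi_one, ga_one]

theorem pr (n : ℕ) : Ki.Pr (k.ρ n) k.w := by
  have p := Ki.pr_of (hq e.par.disc) (fun g => sd (-b.δ') g ^ n) (fun g h => by rw [sd_mul, mul_pow])
    (fun g => by rw [← mul_pow, sd_sq, one_pow]) ((sd_lc _).comp (· ^ n))
  refine ⟨rmul k n, fun x => (IsLocallyConstant.iff_eventually_eq _).2 fun g => ?_,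
    fun y => ⟨fun i => (p.dv (y i)).choose, funext fun i => (p.dv (y i)).choose_spec⟩,
    fun a a' c => ?_, fun a c => ?_, fun {m x y} g a c => ?_, fun a c => ?_⟩
  · filter_upwards [(sd_lc (-b.δ')).eventually_eq g, chi_lc k g,
      Filter.eventually_all.2 fun i => ev_ga g (x i)] with h u v t
    exact funext fun i => by simp only [Ch.ρ_apply, u, v, t]
  · simp only [Ch.w, map_sum, ← Finset.sum_add_distrib]
    exact Finset.sum_congr rfl fun i _ => p.addl (congrFun a i) (congrFun a' i) (congrFun c i)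
  · simp only [Ch.w, map_sum, ← Finset.sum_neg_distrib]
    exact Finset.sum_congr rfl fun i _ => p.skew (congrFun a i) (congrFun c i)
  · simp only [Ch.w, map_sum, Finset.mul_sum]
    rw [← (af k g).sum_comp]
    exact Finset.sum_congr rfl fun i _ => p.act g (congrFun a _) (congrFun c _)
  · simp only [Ch.w, map_sum]
    exact Finset.sum_congr rfl fun i _ => p.lev (congrFun a i) (congrFun c i)

theorem succ (n : ℕ) (g : GQ) (x : k.M) : k.ρ (n + 1) g x = sd (-b.δ') g • k.ρ n g x :=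
  funext fun i => by simp only [Ch.ρ_apply, Pi.smul_apply, smul_smul, pow_succ']

theorem rsh (n : ℕ) (g : GQ) (x : k.M) (i : Zq k.s) :
    k.ρ n g (sh i x) = sh ((sd (-b.δ') g : Zq k.s) * i) (k.ρ n g x) := funext fun j => by
  simp only [Ch.ρ_apply, sh_apply]
  congr 3
  linear_combination (i : Zq k.s) * sq k g

theorem rv (n : ℕ) (g : GQ) (x : k.M) : k.v (k.ρ (n + 1) g x) = k.ρ n g (k.v x) := by
  rw [succ, map_zsmul, vp_eq, vp_eq, map_sub, rsh, rsh]
  rcases sd_or (-b.δ') g with h | h <;> simp [h]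

theorem rA (n : ℕ) (g : GQ) {x : k.M} (h : x ∈ k.A) : k.ρ n g x ∈ k.A := (mem_A _).2 fun i => by
  simp only [Ch.ρ_apply, ← Finset.smul_sum, ← map_sum]
  rcases sd_or (-b.δ') g with u | u
  · simp only [u, Int.cast_one, one_mul, sub_right_comm i _ (k.χ g), (mem_A _).1 h, map_zero, smul_zero]
  · simp only [u, Int.cast_neg, Int.cast_one, sub_right_comm i _ (k.χ g), mul_sub (-1 : Zq k.s) (_ - _),
      neg_one_mul, sub_neg_eq_add, sum_neg, (mem_A _).1 h, map_zero, smul_zero]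

theorem rop (n : ℕ) {g : GQ} (u : sd (-b.δ') g = 1) (x : k.M) (c : Zq k.s → ℤ) :
    k.ρ n g (op c x) = op c (k.ρ n g x) := by
  simp only [op_eq, map_sum, map_zsmul, rsh, u, Int.cast_one, one_mul]

theorem rem (n : ℕ) (g : GQ) (v : L2.W) : k.ρ n g (k.em v) = k.em (aa b n g *ᵥ v) := funext fun i => by
  change sd (-b.δ') g ^ n • ga g (Cp.vv _ v) = Cp.vv _ _
  rw [Cp.ga_vv, aa]
  split_ifs with h
  · rw [show sd (-b.δ') g ^ n = 1 by rcases sd_or (-b.δ') g with u | u <;> simp [u, h.neg_one_pow],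
      one_smul]
    rfl
  · change _ = Cp.vv _ (((if P004S.nu _ g = 0 then 1 else -1 : F) • rb e g) *ᵥ v)
    rw [sd]
    split_ifs
    · rw [one_pow, one_smul, one_smul]
      rfl
    · rw [(Nat.not_even_iff_odd.1 h).neg_one_pow, neg_one_smul, neg_one_smul, neg_mulVec, map_neg]
      rfl

end Act

open Act in
/-- **the action** -/
theorem act (cyc : CYC) (rse : RSE) : ACT := fun e b k => by
  have γ {g : GQ} : g ∈ b.Γ ↔ sd (-b.δ') g = 1 := (((rse e).2.2 b).2.2.1 g).trans sd_eq_one.symm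
  have r0 (n : ℕ) {g : GQ} (m : g ∈ b.Γ) (x : k.M) : k.ρ n g x = k.ρ 0 g x :=
    funext fun i => by simp only [Ch.ρ_apply, γ.1 m, one_pow]
  obtain ⟨-, cA, -, c4, -⟩ := (cyc k.s).1 (Pt e.A e.B)
  refine ⟨fun n => ⟨pr k n, rone k n⟩, succ k, rv k, fun n g x => rA k n g, fun n g m x =>
    ⟨r0 n m x, fun i => by rw [rsh, γ.1 m, Int.cast_one, one_mul], rop k n (γ.1 m) x⟩,
    fun n g m x i => by rw [rsh, (sd_or _ g).resolve_left (mt γ.2 m), Int.cast_neg, Int.cast_one,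
      neg_one_mul], fun n c c0 g m x i => ?_, fun n c g c0 x h => ?_, rem k,
    fun v v' h => Cp.vv_inj _ (congrFun h 0), fun x => (c4 x).trans ⟨fun ⟨y, a, t⟩ =>
      ⟨_, (congrArg cs (Cp.vv_uv' _ a)).trans t.symm⟩, fun ⟨v, t⟩ => ⟨_, Cp.vv_pp _ v, t.symm⟩⟩,
    fun n i x y => ?_⟩
  · rw [Ch.ρ_apply, γ.1 m.1, k.ker g ((x_rc1 _ b.j b.iq _ (pow_pos pp_pos k.t)).2.2.2.2.2 c c0 m)]
    simp
  · have o (r : Zq k.s → ℤ) : op r x ∈ k.AH c :=
      ⟨cA r x h.1, fun u m => by rw [rop k 0 (γ.1 m.1), h.2 u m]⟩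
    refine ⟨⟨rA k n g h.1, fun u m => ?_⟩, vp_op x ▸ o _, o⟩
    have m' := (x_rc1 _ b.j b.iq _ (Nat.mul_pos (pow_pos pp_pos k.t) c0)).2.2.1.conj_mem' u m g
    rw [← r0 n m.1, ← rmul, show u * g = g * (g⁻¹ * u * g) by group, rmul, r0 n m'.1, h.2 _ m']
  · rw [Ch.w, Ch.w, ← Equiv.sum_comp (Equiv.addRight i)]
    simp only [sh_apply, Equiv.coe_addRight, add_sub_cancel_right, sub_neg_eq_add]

end Vale.Agent.P014Y.Kp
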