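import Vale.Agent.P014Y.Kp.Kc0

/-! # P014Y, block Kp: the point of Kolyvagin at places which split in the layers -/

set_option autoImplicit false
set_option linter.all false

noncomputable section

namespace Vale.Agent.P014Y.Kp.Kc

open Finset Vale.Agent.P004F.Es

variable {G E O : Type} [Group G] [AddCommGroup E] [DistribMulAction G E] [CommRing O] [Module O E]

variable (E) in
/-- the derivative with other weights -/
def Dw (f : ℕ → ℕ) (t : G) (d : ℕ) : AddMonoid.End E := ∑ i ∈ range d, f i • ge E (t ^ i)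

theorem Dw_apply (f : ℕ → ℕ) (t : G) (d : ℕ) (y : E) :
    Dw E f t d y = ∑ i ∈ range d, f i • t ^ i • y := by
  induction d with
  | zero => rfl
  | succ d ih => rw [sum_range_succ, ← ih, Dw, sum_range_succ]; rfl

theorem Dw_op {Γ : Subgroup G} {t : G} (ht : t ∈ Γ) (f : ℕ → ℕ) (d : ℕ) : Dw E f t d ∈ Op E Γ :=
  sum_mem fun i _ => nsmul_mem (ge_op (pow_mem ht i)) _

theorem mul_ap (f g : AddMonoid.End E) (x : E) : (f * g) x = f (g x) := rfl

theorem Dd_eq (n : ℕ) (t : G) (d : ℕ) (y : E) :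
    Dd E t d y = Dw E (· % n) t d y + n • Dw E (· / n) t d y := by
  rw [Dd_apply, Dw_apply, Dw_apply, smul_sum, ← sum_add_distrib]
  exact sum_congr rfl fun i _ => by rw [← mul_nsmul', ← add_nsmul, Nat.mod_add_div]

theorem Dw_fix {n d : ℕ} {t : G} {y : E} (h : n ∣ d) (e : t ^ d • y = y) :
    t ^ n • Dw E (· % n) t d y = Dw E (· % n) t d y := by
  have a := sum_range_add (fun i => (i % n) • t ^ i • y) n d
  rw [add_comm n d, sum_range_add] at a
  obtain ⟨c, rfl⟩ := h
  simp only [Nat.mul_add_mod, Nat.add_mod_left, pow_add, mul_smul, pow_mul_comm' t] at a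
  simp only [← mul_smul (t ^ (n * c)), (Commute.pow_pow_self t _ _).eq (a := t ^ (n * c)), mul_smul,
    e] at a
  rw [Dw_apply, smul_sum, add_comm, add_right_inj] at *
  rw [a]
  exact sum_congr rfl fun i _ => smul_comm _ _ _

variable {κ : Type} [DecidableEq κ] {Γ N D D' : Subgroup G} [N.Normal] {M m : Finset κ}
  {Hm : Finset κ → Subgroup G} {t : κ → G} {r : κ → ℕ} {a : κ → ℤ} {y : Finset κ → E}
  {U U' : Finset G} {n : ℕ}

/-- **the point is fixed modulo `n`, uniformly** -/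
theorem X_cob {A : AddSubgroup E} (S : Sy n Γ N M Hm t r a A y) (hm : m ⊆ M) (hU : ∀ v ∈ U, v ∈ Γ) :
    ∃ x ∈ A, ∃ T : Subgroup G, Hm m ≤ T ∧ (∀ l ∈ m, t l ^ n ∈ T) ∧
      ∀ g ∈ T, g • Xk U t r y m = Xk U t r y m + n • (g • x - x) := by
  let f : κ → AddMonoid.End E := fun i => Dw E (· % n) (t i) (r i)
  have op : ∀ L : List κ, ∀ z ∈ L.map f, z ∈ Op E Γ := fun L z h => by
    obtain ⟨i, -, rfl⟩ := List.mem_map.1 h
    exact Dw_op (S.tm i) _ _
  have k : ∀ L : List κ, ∃ x ∈ A, (L.map fun i => Dd E (t i) (r i)).prod (y m) =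
      (L.map f).prod (y m) + n • x := fun L => by
    induction L with
    | nil => exact ⟨0, zero_mem _, by simp⟩
    | cons i L ih =>
      obtain ⟨x, hx, e⟩ := ih
      refine ⟨Dw E (· / n) (t i) (r i) ((L.map f).prod (y m)) + Dd E (t i) (r i) x, add_mem
        (op_one (Dw_op (S.tm i) _ _) S.st (op_one (Subring.list_prod_mem _ (op L)) S.st (S.mem m hm)))
        (op_one (Dd_op (S.tm i) _) S.st hx), ?_⟩
      rw [List.map_cons, List.map_cons, List.prod_cons, List.prod_cons, mul_ap,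
        mul_ap, e, map_add, map_nsmul, Dd_eq n, smul_add, add_assoc]
  obtain ⟨x, hx, e⟩ := k m.toList
  have nm := S.nrm m
  have z1 := Subring.list_prod_mem _ (op m.toList)
  refine ⟨∑ v ∈ U, v • x, sum_mem fun v hv => S.st v (hU v hv) x hx,
    MulAction.stabilizer G (∑ v ∈ U, v • (m.toList.map f).prod (y m)), fun g hg => ?_,
    fun l hl => ?_, fun g hg => ?_⟩
  · rw [MulAction.mem_stabilizer_iff, smul_sum]
    exact sum_congr rfl fun v _ => fx_smul v (fx_op z1 (S.fix m hm)) g hg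
  · rw [MulAction.mem_stabilizer_iff, smul_sum]
    refine sum_congr rfl fun v hv => ?_
    have e3 := insert_erase hl
    have p := (toList_insert (notMem_erase l m)).map f
    rw [e3] at p
    rw [S.cm.smul (pow_mem (S.tm l) n) (hU v hv) (fx_op z1 (S.fxN hm)),
      S.cm.perm p (op _) (S.fxN hm), List.map_cons, List.prod_cons, mul_ap,
      Dw_fix ((dvd_mul_left n 2).trans (S.dd l)) (fx_op (Subring.list_prod_mem _ (op _)) (S.fix m hm) _
        (by simpa only [e3] using S.t1 _ l (notMem_erase l m) (e3.symm ▸ hm)))]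
  · have : Xk U t r y m = ∑ v ∈ U, v • (m.toList.map f).prod (y m) + n • ∑ v ∈ U, v • x := by
      rw [Xk, Dm, e, smul_sum, ← sum_add_distrib]
      exact sum_congr rfl fun v _ => by rw [smul_add, smul_comm v n]
    rw [this, smul_add, MulAction.mem_stabilizer_iff.1 hg, smul_comm g n, smul_sub]
    abel

/-- **the class is a Kummer class at such a place** -/
theorem X_loc {π u v : O} {s k j i a' : ℕ} {A F : Submodule O E} {R : E} {w d : G → E}
    (S : Sy n Γ N M Hm t r a F.toAddSubgroup y) (T : Tw Γ π u n s A F)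
    (c : Rc Γ π u s k A F (Xk U t r y m) j i R w d) (hm : m ⊆ M) (hU : ∀ v ∈ U, v ∈ Γ)
    (hD : D ≤ Γ) {R₀ : Type} [CommRing R₀] {ψ : G → R₀} (fr : Fr D D' U' ψ)
    (h : ∀ T : Subgroup G, Hm m ≤ T → (∀ l ∈ m, t l ^ n ∈ T) → D' ≤ T) (ha : a' + k ≤ s)
    (hv : ∃ v' : O, ∀ x ∈ A, π • x = 0 → v' • v • x = x)
    (hc : ∀ z ∈ A, U'.card • z = (π ^ a' * v) • z) : ∃ z ∈ A, ∀ g ∈ D, d g = g • z - z := by
  obtain ⟨x, hx, T', h1, h2, h3⟩ := X_cob (U := U) S hm hU
  have k1 : ∀ g ∈ D', u • w g = g • u • x - u • x := fun g hg => by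
    have m := hD (fr.le hg)
    have m1 := sub_mem (T.stF g m x hx) hx
    refine sub_eq_zero.1 (T.tfp (sub_mem (F.smul_mem u (c.wF g m)) (sub_mem
      (T.stF g m _ (F.smul_mem u hx)) (F.smul_mem u hx))) s ?_)
    have := (c.inv g m).symm.trans (h3 g (h T' h1 h2 hg))
    rw [T.eq _ (T.le m1), add_right_inj] at this
    rw [T.lin g m]
    generalize g • x = z at this ⊢
    linear_combination (norm := module) this
  have k2 := cob_idx (w := fun g => u • w g) fr (fun g a h b => T.uw c (hD a) (hD b)) k1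
  have ux := T.le (F.smul_mem u hx)
  refine T.loc c hD ha hv (sub_mem (nsmul_mem ux U'.card) (sum_mem fun z hz => ?_)) fun g hg => by
    rw [← k2 g hg, hc _ (A.smul_mem u (T.le (c.wF g (hD hg)))), mul_smul _ u]
  have m := hD (fr.mem z hz)
  exact sub_mem (A.smul_mem u (T.le (c.wF z m))) (sub_mem (T.stA z m _ ux) ux)

end Vale.Agent.P014Y.Kp.Kc
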