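import Vale.Agent.P014Y.Kp.Cb1
import Vale.Agent.P014Y.Kp.Spt0
import Vale.Agent.P014Y.Nv.Pair
import Vale.Agent.P014Y.Nv.Glue
import Vale.Agent.P004K.Hg.Bd
import Vale.Agent.P004K.Rc.All
import Vale.Agent.P004F.Pt.Pert

/-! # P014Y, block Kp: the bad primes split in the layers of the primes of Kolyvagin -/

set_option autoImplicit false
set_option linter.all false

noncomputable section

namespace Vale.Agent.P014Y.Kp.Sq

open NumberField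
open scoped nonZeroDivisors Classical
open Vale.Agent.P022 (Qb GQ GK below)
open Vale.Agent.P004K Vale.Agent.P014U
open Vale.Agent.P022D.W (dec)
open Vale.Agent.P022E.GW (Ov Fb)
open Vale.Agent.P022K.G2 (In)
open P014Y.F (Crv Fld)
open P014Y.Mu (rb Sd)

theorem fix_pow {p : ℕ} (hp : 0 < p) {g : GQ} (h : ∀ z : Qb, z ^ p = 1 → g z = z) (i : ℕ) :
    ∀ y : Qb, g (y ^ p ^ i) = y ^ p ^ i → (g ^ p ^ i) y = y := by
  induction i with
  | zero => simp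
  | succ i ih =>
    intro y hy
    by_cases y0 : y = 0
    · simp [y0]
    have a := ih (y ^ p) (by rwa [← pow_mul, ← pow_succ'])
    obtain ⟨z, hz⟩ : ∃ z, (g ^ p ^ i) y = z * y := ⟨_, (div_mul_cancel₀ _ y0).symm⟩
    have z1 : z ^ p = 1 := mul_right_cancel₀ (pow_ne_zero p y0) (by
      rw [← mul_pow, ← hz, ← map_pow, a, one_mul])
    have z2 : (g ^ p ^ i) z = z := (MulAction.stabilizer GQ z).pow_mem (h z z1) _
    have k : ∀ n : ℕ, ((g ^ p ^ i) ^ n) y = z ^ n * y := fun n => by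
      induction n with
      | zero => simp
      | succ n ih => rw [pow_succ', AlgEquiv.mul_apply, ih, map_mul, map_pow, z2, hz, pow_succ, mul_assoc]
    rw [pow_succ, pow_mul, k, z1, one_mul]

theorem cn_norm {O : Type} [CommRing O] [IsDedekindDomain O] [Module.Free ℤ O] {p : ℕ} {L : Ideal O}
    (h : Cn p L) : Ideal.absNorm L = p := by
  have s : Function.Surjective (Int.castRingHom (O ⧸ L)) := fun x => by
    obtain ⟨x, rfl⟩ := Ideal.Quotient.mk_surjective x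
    obtain ⟨k, hk⟩ := h.2 x
    exact ⟨k, by rwa [eq_comm, eq_intCast, ← map_intCast (Ideal.Quotient.mk L), Ideal.Quotient.eq]⟩
  have e : RingHom.ker (Int.castRingHom (O ⧸ L)) = Ideal.span {(p : ℤ)} := by
    ext k
    rw [RingHom.mem_ker, Ideal.mem_span_singleton, ← h.1, eq_intCast,
      ← map_intCast (Ideal.Quotient.mk L), Ideal.Quotient.eq_zero_iff_mem]
  rw [Ideal.absNorm_apply, Submodule.cardQuot_apply,
    ← Nat.card_congr (RingHom.quotientKerEquivOfSurjective s).toEquiv, e,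
    Nat.card_congr (Int.quotientSpanNatEquivZMod p).toEquiv, Nat.card_zmod]

theorem ex_gen {K : Type} [Field K] [NumberField K] {I : Ideal (𝓞 K)} (h : I ≠ ⊥) :
    ∃ (o : ℕ) (π : 𝓞 K), I ^ o = Ideal.span {π} ∧ ∀ k x, I ^ k = Ideal.span {x} → o ∣ k := by
  let J : (Ideal (𝓞 K))⁰ := ⟨I, mem_nonZeroDivisors_iff_ne_zero.2 h⟩
  have k : ∀ k : ℕ, orderOf (ClassGroup.mk0 J) ∣ k ↔ (I ^ k).IsPrincipal := fun k => by
    rw [orderOf_dvd_iff_pow_eq_one, ← map_pow]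
    exact ClassGroup.mk0_eq_one_iff (J ^ k).2
  obtain ⟨π, e⟩ := (k _).1 dvd_rfl
  exact ⟨_, π, e, fun n x e => (k n).2 ⟨x, e⟩⟩

theorem ind {K : Type} [Field K] [NumberField K] {j : K →+* Qb} (q : Iq K) (up : Upm K) {n : ℕ}
    {t : ℕ → GQ} {T : Subgroup GQ} (Q : Finset ℕ) : ∀ c, 0 < c → (∀ l ∈ Q, l.Prime ∧ ¬ l ∣ c ∧
      t l ^ n ∈ T ∧ ∀ c', 0 < c' → ¬ l ∣ c' → t l ∈ Hc j c') → Hc j (c * ∏ l ∈ Q, l) ≤ T →
      ∀ g ∈ Hc j c, (∀ l ∈ Q, ∃ i : ℕ, g⁻¹ * (t l ^ n) ^ i ∈ Hc j l) → g ∈ T := by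
  induction Q using Finset.induction_on with
  | empty => exact fun c _ _ h g a _ => h (by simpa using a)
  | insert l Q hl ih =>
    intro c c0 h1 h2 g a h3
    obtain ⟨p, nd, m, ge⟩ := h1 l (Finset.mem_insert_self _ _)
    obtain ⟨i, hi⟩ := h3 l (Finset.mem_insert_self _ _)
    have nd' : ∀ l' ∈ Q, ¬ l ∣ l' := fun l' k d => hl (((Nat.prime_dvd_prime_iff_eq p
      (h1 l' (Finset.mem_insert_of_mem k)).1).1 d) ▸ k)
    refine (mul_mem_cancel_left (inv_mem (pow_mem m i))).1 (ih (c * l) (mul_pos c0 p.pos)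
      (fun l' k => ?_) (by rwa [Finset.prod_insert hl, ← mul_assoc] at h2) _ ?_ fun l' k => ?_)
    · obtain ⟨p', nd1, m', ge'⟩ := h1 l' (Finset.mem_insert_of_mem k)
      exact ⟨p', fun d => (p'.dvd_mul.1 d).elim nd1 fun d => nd' l' k
        (((Nat.prime_dvd_prime_iff_eq p' p).1 d) ▸ dvd_rfl), m', ge'⟩
    · rw [(x_rc3 K j q up).1 c l c0 p.pos (p.coprime_iff_not_dvd.2 nd).symm]
      exact Subgroup.mem_inf.2 ⟨mul_mem (inv_mem (pow_mem (pow_mem (ge c c0 nd) n) i)) a,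
        by simpa using inv_mem hi⟩
    · obtain ⟨i', hi'⟩ := h3 l' (Finset.mem_insert_of_mem k)
      have p' := (h1 l' (Finset.mem_insert_of_mem k)).1.pos
      refine ⟨i', ?_⟩
      simpa [mul_assoc] using mul_mem hi' ((x_rc1 K j q l' p').2.2.1.conj_mem' _
        (pow_mem (pow_mem (ge l' p' (nd' l' k)) n) i) ((t l' ^ n) ^ i'))

variable [Pp] {e : Crv} (b : Fld e)

theorem cong {n l e' : ℕ} {P : Ideal (𝓞 Qb)} {φ s w : GQ} (n0 : n ≠ 0) (o : Ov l P) (f : Fb l P φ)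
    (nd : ¬ l ∣ b.δ') (h : φ = s * (b.c * w) * s⁻¹) (he : l + 1 = n * e') (π : 𝓞 b.K)
    (hw : ∀ (y : Qb) (k : GQ), y ^ n = k (b.j π) → w y = y) :
    ∃ (k : ℤ) (a : 𝓞 b.K), π ^ e' = k + l * a := by
  obtain ⟨ω, B⟩ := Hg.bs Rc.iq b.iq b.j
  have B := B.eta b.adm.sq b.th b.im b.eta
  let J := RingOfIntegers.mapRingHom b.j
  obtain ⟨y, hy⟩ := IsAlgClosed.exists_pow_nat_eq (b.j π) (Nat.pos_of_ne_zero n0)
  obtain ⟨Y, rfl, hY⟩ := P004R.Xt.ex_int n0 (w := J π) hy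
  have cc := Es.c_sq b
  have w1 : w • Y = Y := RingOfIntegers.ext (hw _ 1 hy)
  have w2 : w • b.c • Y = b.c • Y := RingOfIntegers.ext (hw _ b.c (by rw [← hy, map_pow]; rfl))
  have a1 := f (s • Y)
  have a2 := f (s • b.c • Y)
  rw [h, mul_smul, inv_smul_smul, mul_smul, mul_smul] at a1 a2
  rw [w1] at a1
  rw [w2, ← mul_smul b.c, cc, one_smul] at a2
  have a3 := sub_mem (P.mul_mem_left (s • b.c • Y) a2) (P.mul_mem_left (s • Y) a1)
  rw [show s • b.c • Y * (s • Y - (s • b.c • Y) ^ l) - s • Y * (s • b.c • Y - (s • Y) ^ l) =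
    (s • Y) ^ (l + 1) - (s • b.c • Y) ^ (l + 1) by ring, ← smul_pow', ← smul_pow', ← smul_pow', he,
    pow_mul, hY, ← map_pow] at a3
  obtain ⟨u, v, uv⟩ := B.bas (π ^ e')
  have t2 : J b.θ ^ 2 = -(b.δ' : 𝓞 Qb) := by simpa using congrArg J b.th
  have ct0 : b.c (b.j b.θ) = -b.j b.θ :=
    (sq_eq_sq_iff_eq_or_eq_neg.1 (by rw [← map_pow, b.jθ, map_intCast])).resolve_left
      fun k => b.c_out ((b.kd.gk _).2 ((P004S.nu_eq_zero b.jθ).2 k))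
  have ct : b.c • J b.θ = -J b.θ := RingOfIntegers.ext ct0
  have ic : ∀ (g : GQ) (k : ℤ), g • (k : 𝓞 Qb) = k := fun g k =>
    map_intCast (MulSemiringAction.toRingHom GQ (𝓞 Qb) g) k
  have e1 : 2 * J b.η = J b.θ - b.β := by simpa [map_ofNat] using congrArg J b.eta
  have e2 : 2 * b.c • J b.η = -J b.θ - b.β := by
    have := congrArg (b.c • ·) e1
    simp only [two_mul, smul_add, smul_sub, ct, ic] at this
    rwa [two_mul]
  have e3 : J b.η - b.c • J b.η = J b.θ := mul_left_cancel₀ (by norm_num : (2 : 𝓞 Qb) ≠ 0)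
    (by linear_combination e1 - e2)
  have a4 : (v : 𝓞 Qb) * s • J b.θ ∈ P := by
    rw [uv, map_add, map_mul, map_intCast, map_intCast] at a3
    simp only [smul_add, smul_mul', ic] at a3
    rwa [← e3, smul_sub, mul_sub, ← add_sub_add_left_eq_sub _ _ (u : 𝓞 Qb)]
  have a5 := P004S.ov_dvd o (a := v ^ 2 * -b.δ') (by
    have := P.mul_mem_left (v * s • J b.θ) a4
    rw [← sq, mul_pow, ← smul_pow', t2, ← Int.cast_natCast, ← Int.cast_neg, ic] at this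
    exact_mod_cast this)
  have pr := Nat.prime_iff_prime_int.1 o.1
  obtain ⟨r, rfl⟩ := pr.dvd_of_dvd_pow ((pr.dvd_or_dvd a5).resolve_right fun d =>
    nd (Int.natCast_dvd_natCast.1 (dvd_neg.1 d)))
  exact ⟨u, r * b.η, by rw [uv]; push_cast; ring⟩

theorem one {n l v o : ℕ} {P : Ideal (𝓞 Qb)} {φ s w t g : GQ} (n0 : n ≠ 0) (ov : Ov l P)
    (f : Fb l P φ) (nd : l ∉ Sd b) (h : φ = s * (b.c * w) * s⁻¹) (he : n ∣ l + 1) (hv : v ∈ e.S)
    {π : 𝓞 b.K} (p1 : below b.j (e.P v) ^ o = Ideal.span {π})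
    (p2 : ∀ k x, below b.j (e.P v) ^ k = Ideal.span {x} → o ∣ k)
    (hw : ∀ (y : Qb) (k : GQ), y ^ n = k (b.j π) → w y = y) (G : Gen b.j 1 l (l + 1) t)
    (g1 : g ∈ dec (e.P v)) (g2 : g ∈ Hc b.j 1) : ∃ i : ℕ, g⁻¹ * (t ^ n) ^ i ∈ Hc b.j l := by
  obtain ⟨e', he⟩ := he
  obtain ⟨k₀, a₀, e0⟩ := cong b n0 ov f (fun d => nd (Finset.mem_union_right _
    (Nat.mem_primeFactors.2 ⟨ov.1, d, b.pos.ne'⟩))) h he π hw
  have o' := e.ov v hv
  obtain ⟨-, op, nm, -⟩ := x_rc1 b.K b.j b.iq l ov.1.pos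
  have le : Hc b.j l ≤ Hc b.j 1 := one_mul l ▸ (x_rc1 b.K b.j b.iq 1 one_pos).2.2.2.2.2 l ov.1.pos
  obtain ⟨k, σ, u, hσ, hu, rfl⟩ := P022D.W.dec_gen o'.1 o'.2.1 o'.2.2 (b.ch.frb v hv) g1 _ op
  rw [mul_assoc] at g2 ⊢
  have g3 := (mul_mem_cancel_left (le hu)).1 g2
  have cn := (b.ch.spl v hv).cn
  have ne : l ≠ v := fun d => nd (Finset.mem_union_left _ (List.mem_toFinset.2 (d ▸ hv)))
  have ar : ∀ c : ℕ, 0 < c → ¬ v ∣ c → Ar b.j c (below b.j (e.P v) ^ k) (b.φ v ^ k * σ) ∧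
      Cop c (below b.j (e.P v) ^ k) := fun c c0 d => ⟨(x_rc2 b.K b.j b.iq c c0).2.2.2.2.2.2 _ o'.2.1
        (fun z => o'.1.ne_zero (by simpa [z] using o'.2.2))
        (fun z => d (Int.natCast_dvd_natCast.1 (P004S.ov_dvd o' (by simpa using z)))) _ g3.1 k
        fun x => by
          rw [cn_norm cn, mul_smul, ← sub_add_sub_cancel _ ((σ • x) ^ v ^ k)]
          exact add_mem (P022D.W.phi_pow o'.1 o'.2.1 (b.ch.frb v hv) k _)
            (Ideal.mem_of_dvd _ (sub_dvd_pow_sub_pow _ _ _) (hσ x)), by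
      have := Nv.Gl.cop cn o'.1.pos (o'.1.coprime_iff_not_dvd.2 d)
      exact ⟨pow_ne_zero k this.1, Ideal.pow_sup_eq_top this.2⟩⟩
  obtain ⟨a1, c1⟩ := ar 1 one_pos o'.1.not_dvd_one
  obtain ⟨a2, c2⟩ := ar l ov.1.pos fun d => ne ((Nat.prime_dvd_prime_iff_eq o'.1 ov.1).1 d).symm
  obtain ⟨k₁, x₁, e1⟩ := ((x_rc2 b.K b.j b.iq 1 one_pos).2.2.2.2.1 _ _ c1 a1).1 g3
  obtain ⟨r, rfl⟩ := p2 _ _ e1
  obtain ⟨m, rfl⟩ := Nat.exists_eq_succ_of_ne_zero (n := e') fun z => by simp [z] at he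
  obtain ⟨c3, a3⟩ := Nv.Pa.ar_pow x_rc2 b.iq ov.1.pos c2 a2 m
  obtain ⟨d, hd⟩ := (dvd_mul_right (l : 𝓞 b.K) a₀).trans
    (by simpa using sub_dvd_pow_sub_pow (k₀ + l * a₀ : 𝓞 b.K) k₀ r)
  have g4 := ((x_rc2 b.K b.j b.iq l ov.1.pos).2.2.2.2.1 _ _ c3 a3).2 ⟨k₀ ^ r, d, by
    rw [← pow_mul, mul_assoc, pow_mul, p1, Ideal.span_singleton_pow, mul_comm r, pow_mul, e0,
      eq_add_of_sub_eq' hd, Int.cast_pow]⟩
  obtain ⟨i, hi⟩ := G.2.2 _ g3
  rw [one_mul, ← QuotientGroup.eq] at hi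
  have g5 := (G.2.1 (i * (m + 1))).1 (by
    rw [one_mul, ← QuotientGroup.eq_one_iff, pow_mul, QuotientGroup.mk_pow, ← hi,
      ← QuotientGroup.mk_pow, QuotientGroup.eq_one_iff]
    exact g4)
  rw [he] at g5
  obtain ⟨i', rfl⟩ := Nat.dvd_of_mul_dvd_mul_right m.succ_pos g5
  refine ⟨i', QuotientGroup.eq.1 ?_⟩
  rw [← pow_mul, ← hi, QuotientGroup.mk_mul, (QuotientGroup.eq_one_iff u).2 hu, one_mul]

end Sq

open NumberField Sq
open scoped Classical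
open Vale.Agent.P022 (Qb GQ GK below)
open Vale.Agent.P004K Vale.Agent.P014U
open Vale.Agent.P022D.W (dec)
open Vale.Agent.P022E.GW (Ov Fb)
open Vale.Agent.P022K.G2 (In)
open P014Y.F (Crv Fld)
open P014Y.Mu (rb Sd)

/-- **the bad primes split completely in the layer of degree `pp ^ m` and conductor `l`** -/
theorem spv [Pp] {e : Crv} (b : Fld e) (m : ℕ) : ∃ V : Subgroup GQ, V.Normal ∧
    IsOpen (V : Set GQ) ∧ (∀ g ∈ b.Γ, rb e g = -1 → g ^ pp ^ m ∈ V) ∧ In (Sd b : Set ℕ) ⊆ V ∧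
    ∀ l, l ∉ Sd b → pp ^ m ∣ l + 1 →
      (∃ P φ s, ∃ w ∈ V, Ov l P ∧ Fb l P φ ∧ φ = s * (b.c * w) * s⁻¹) →
      ∀ v ∈ e.S, ∀ P, Ov v P → ∀ t, Gen b.j 1 l (l + 1) t → ∀ g ∈ dec P ⊓ Hc b.j 1,
        ∃ i : ℕ, pp ^ m ∣ i ∧ g⁻¹ * t ^ i ∈ Hc b.j l := by
  have n0 : pp ^ m ≠ 0 := pow_ne_zero _ pp_ne
  have : ∀ v, ∃ (o : ℕ) (π : 𝓞 b.K), v ∈ e.S → below b.j (e.P v) ^ o = Ideal.span {π} ∧
      ∀ k x, below b.j (e.P v) ^ k = Ideal.span {x} → o ∣ k := fun v => by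
    by_cases hv : v ∈ e.S
    · obtain ⟨o, π, h⟩ := ex_gen (Nv.Gl.cop (c := 1) (b.ch.spl v hv).cn (e.ov v hv).1.pos (by simp)).1
      exact ⟨o, π, fun _ => h⟩
    · exact ⟨0, 0, fun h => absurd h hv⟩
  choose o π hπ using this
  let Z : Set Qb := {y | ∃ v ∈ e.S, ∃ k : GQ, y ^ pp ^ m = k (b.j (π v))}
  have fx : ∀ g ∈ b.Γ, ∀ (k : GQ) x, g (k (b.j x)) = k (b.j x) := fun g a k x => by
    have := congrArg k (b.Γ_conj a k⁻¹ x)
    rwa [inv_inv, ← AlgEquiv.mul_apply, mul_assoc, mul_inv_cancel_left] at this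
  have fin : Z.Finite := by
    have r : ∀ u : Qb, {y : Qb | y ^ pp ^ m = u}.Finite := fun u =>
      (Polynomial.nthRoots (pp ^ m) u).toFinset.finite_toSet.subset fun y hy => by
        simpa [Polynomial.mem_nthRoots (Nat.pos_of_ne_zero n0)] using hy
    refine ((List.finite_toSet e.S).biUnion fun v _ => (r (b.j (π v))).union
      (r (b.c (b.j (π v))))).subset ?_
    rintro y ⟨v, hv, k, h⟩
    refine Set.mem_biUnion hv ?_
    by_cases a : k ∈ b.Γ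
    · exact .inl (h.trans (a _))
    · refine .inr (h.trans ?_)
      rw [← b.mul_out a b.c_out |> fun z => fx _ z b.c (π v), ← AlgEquiv.mul_apply, mul_assoc,
        Es.c_sq, mul_one]
  refine ⟨fixingSubgroup GQ Z, ⟨fun g a k => (mem_fixingSubgroup_iff GQ).2 fun y ⟨v, hv, k', h⟩ => ?_⟩,
    ?_, fun g a h => (mem_fixingSubgroup_iff GQ).2 fun y ⟨v, hv, k, hy⟩ => ?_,
    fun g a => (mem_fixingSubgroup_iff GQ).2 fun y ⟨v, hv, k, hy⟩ => ?_,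
    fun l q1 q3 ⟨P, φ, s, w, hw, ov, f, h⟩ v hv P' o' t G g hg => ?_⟩
  · rw [mul_smul, mul_smul, (mem_fixingSubgroup_iff GQ).1 a _ ⟨v, hv, k⁻¹ * k', by
      rw [AlgEquiv.mul_apply, ← h, map_pow]; rfl⟩, smul_inv_smul]
  · have : Algebra.IsIntegral ℚ Qb := (AlgebraicClosure.isAlgebraic ℚ).isIntegral
    convert fin.isOpen_biInter fun y _ => stabilizer_isOpen_of_isIntegral (K := ℚ) y using 1
    ext g
    simp only [SetLike.mem_coe, mem_fixingSubgroup_iff, Set.mem_iInter, MulAction.mem_stabilizer_iff]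
  · have d := congrFun (Mu.rse e).1.det g
    rw [L2.dt, h, Matrix.det_neg, Matrix.det_one, Fintype.card_fin, neg_one_sq, one_mul] at d
    have z := P022K.G2.mem_Gz'.1 ((P022K.G2.om_eq_one _).1 d.symm)
    refine fix_pow pp_pos (fun x hx => ?_) m y (by rw [hy, fx g a])
    obtain ⟨i, -, rfl⟩ := (P022K.G2.zt_prim pp).eq_pow_of_pow_eq_one hx
    rw [map_pow, z]
  · obtain ⟨l, n, P, ov, i⟩ := id a
    have s : l ∉ e.S := fun k => n (Finset.mem_union_left _ (List.mem_toFinset.2 k))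
    refine P004F.Pt.fix_in ov i (fun d => e.ne_pp s ((Nat.prime_dvd_prime_iff_eq ov.1 pp_prime).1 (ov.1.dvd_of_dvd_pow d)))
      (a := k • RingOfIntegers.mapRingHom b.j (π v)) (b := 1) (fx g (Cb.in_le b a).1 k _) (by simp)
      (fun z => ?_) (P004R.Mu.one_nm ov) (hy.trans (div_one _).symm)
    have o' := e.ov v hv
    obtain ⟨d, hd⟩ := Ideal.mem_span_singleton'.1 ((hπ v hv).1 ▸ Ideal.pow_mem_pow
      (P022.H20.l_mem_below b.j o'.2.2) (o v))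
    have := P.mul_mem_left (k • RingOfIntegers.mapRingHom b.j d) z
    rw [← smul_mul', ← map_mul, hd, map_pow, map_natCast, smul_pow', show k • (v : 𝓞 Qb) = v from
      map_natCast (MulSemiringAction.toRingHom GQ (𝓞 Qb) k) v] at this
    have := P004S.ov_dvd ov (a := v) (by simpa using ov.2.1.mem_of_pow_mem _ this)
    exact s (((Nat.prime_dvd_prime_iff_eq ov.1 o'.1).1 (Int.natCast_dvd_natCast.1 this)) ▸ hv)
  · obtain ⟨x, -, hx⟩ := P004S.ex_conj (e.ov v hv) o'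
    have nm := (x_rc1 b.K b.j b.iq 1 one_pos).2.2.1
    have nl := (x_rc1 b.K b.j b.iq l ov.1.pos).2.2.1
    obtain ⟨i, hi⟩ := one b n0 ov f q1 h q3 hv (hπ v hv).1 (hπ v hv).2
      (fun y k hy => (mem_fixingSubgroup_iff GQ).1 hw y ⟨v, hv, k, hy⟩) G (hx g hg.1)
      (nm.conj_mem' _ hg.2 x)
    obtain ⟨a, ha⟩ := G.2.2 _ (nm.conj_mem _ G.1 x)
    rw [one_mul, ← QuotientGroup.eq] at ha
    refine ⟨pp ^ m * (i * a), dvd_mul_right _ _, QuotientGroup.eq.1 ?_⟩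
    rw [← mul_assoc, mul_comm _ a, pow_mul, QuotientGroup.mk_pow, ← ha, ← QuotientGroup.mk_pow,
      conj_pow, pow_mul, QuotientGroup.mk_mul, QuotientGroup.mk_mul, ← QuotientGroup.eq.2 hi,
      ← QuotientGroup.mk_mul, ← QuotientGroup.mk_mul]
    simp [mul_assoc]

/-- from one prime to a product of primes -/
theorem sv_le [Pp] {e : Crv} (b : Fld e) {n c : ℕ} {Q : Finset ℕ} {t : ℕ → GQ} {D T : Subgroup GQ}
    (c0 : 0 < c) (hQ : ∀ l ∈ Q, l.Prime ∧ ¬ l ∣ c ∧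
      (∀ c', 0 < c' → ¬ l ∣ c' → Gen b.j c' l (l + 1) (t l)) ∧ ∀ t, Gen b.j 1 l (l + 1) t →
      ∀ g ∈ D ⊓ Hc b.j 1, ∃ i : ℕ, n ∣ i ∧ g⁻¹ * t ^ i ∈ Hc b.j l)
    (h1 : Hc b.j (c * ∏ l ∈ Q, l) ≤ T) (h2 : ∀ l ∈ Q, t l ^ n ∈ T) : D ⊓ Hc b.j c ≤ T := fun g hg => by
  refine ind (n := n) (t := t) b.iq b.upm Q c c0 (fun l hl => ?_) h1 g hg.2 fun l hl => ?_ <;>
    obtain ⟨q1, q2, q3, q4⟩ := hQ l hl
  · exact ⟨q1, q2, h2 l hl, fun c' a d => (q3 c' a d).1⟩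
  · obtain ⟨_, ⟨i, rfl⟩, h⟩ := q4 _ (q3 1 one_pos q1.not_dvd_one) g ⟨hg.1,
      (x_rc1 b.K b.j b.iq 1 one_pos).2.2.2.2.2 c c0 (by simpa using hg.2)⟩
    exact ⟨i, by rwa [← pow_mul]⟩

end Vale.Agent.P014Y.Kp
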