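import Vale.Agent.P014Y.Kp.Chb2
import Vale.Agent.P014Y.Kp.Spt

/-! # P014Y, block Kp: row CHB2 -/

set_option autoImplicit false
set_option linter.all false

namespace Vale.Agent.P014Y.Kp

variable [P014U.Pp]

theorem chb2 : CHB2 := chb2_of fun e b m =>
  let ⟨V, n, o, h, i, H⟩ := spv b m
  ⟨V, m, _, n, o, i, h, fun l P φ s w a p f _ q k d => H l q d ⟨P, φ, s, w, a.2, p, f, k⟩⟩

end Vale.Agent.P014Y.Kp
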