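import Vale.Agent.P014Y.Kp.St
import Vale.Agent.P014Y.F.Pt.Kd

/-! # P014Y, block Kp, row CL1: the residual class of a Kolyvagin point (helper76) -/

set_option autoImplicit false
set_option linter.all false

noncomputable section

namespace Vale.Agent.P014Y.Kp

open NumberField Matrix Module
open scoped Classical
open Vale.Agent.P022 (Qb GQ)
open Vale.Agent.P004K (Hc)
open Vale.Agent.P014U
open L2 (W M2)
open P004F (sd hq)
open P014Y.F (Crv Fld)
open Mu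

variable [Pp]

namespace Cl1

variable {e : Crv} {b : Fld e} {k : Ch b} {c : ℕ}

theorem pw_mem (hA : ACT) (h : 0 < c) (n : ℕ) {x : k.M} (m : x ∈ k.AH c) : (k.v ^ n) x ∈ k.AH c := by
  induction n with
  | zero => exact m
  | succ n ih => rw [pow_succ']; exact ((hA e b k).2.2.2.2.2.2.2.1 0 c 1 h _ ih).2.1

/-- no torsion for the powers -/
theorem pw_inj (hA : ACT) (h : 0 < c) (t : k.Nt) (n : ℕ) {x : k.M} (m : x ∈ k.AH c)
    (z : (k.v ^ n) x = 0) : x = 0 := by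
  induction n with
  | zero => exact z
  | succ n ih => rw [pow_succ'] at z; exact ih (t c h _ (pw_mem hA h n m) z)

theorem pw_rho (hA : ACT) (i j : ℕ) (g : GQ) (x : k.M) :
    (k.v ^ j) (k.ρ (i + j) g x) = k.ρ i g ((k.v ^ j) x) := by
  induction j generalizing x with
  | zero => rfl
  | succ j ih =>
    rw [pow_succ]
    exact (congrArg _ ((hA e b k).2.2.1 (i + j) g x)).trans (ih _)

/-- `pp ^ n` is a multiple of the `n`-th power of the uniformiser -/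
theorem pp_pw (hC : CYC) (hA : ACT) (h : 0 < c) (n : ℕ) {x : k.M} (m : x ∈ k.AH c) :
    ∃ y ∈ k.AH c, (k.v ^ n) y = pp ^ n • x := by
  obtain ⟨r, hr⟩ := (hC k.s).2.1
  induction n with
  | zero => exact ⟨x, m, by rw [pow_zero, pow_zero, one_smul]; rfl⟩
  | succ n ih =>
    obtain ⟨y, a, f⟩ := ih
    refine ⟨op r y, ((hA e b k).2.2.2.2.2.2.2.1 0 c 1 h _ a).2.2 r, ?_⟩
    rw [pow_succ, pow_succ', mul_smul, ← f, ← map_nsmul, hr _ y a.1]
    rfl

/-- points of order `pp` over the ring class field vanish -/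
theorem em_zero (hA : ACT) (h : 0 < c) (t : k.Nt) {w : W} (m : k.em w ∈ k.AH c) : w = 0 := by
  obtain ⟨-, -, -, -, -, -, -, -, -, a, f, -⟩ := hA e b k
  exact a ((t c h _ m ((f _).2 ⟨w, rfl⟩).2).trans (map_zero _).symm)

/-- the signed points are invariant under the whole group -/
theorem inv (hA : ACT) (h : 0 < c) {n : ℕ} {x : k.M} (v : k.Iv c n x) (i : ℕ) (g : GQ) :
    ∃ y ∈ k.AH c, k.ρ i g (x + k.ρ i b.c x) - (x + k.ρ i b.c x) = pp ^ n • y := by
  obtain ⟨a1, -, -, -, a5, -, -, a8, -⟩ := hA e b k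
  have cc : b.c * b.c = 1 := P004M.TE.conj_sq (hq e.par.disc) b.cc
  have mu := (a1 i).1.mul
  have key : ∀ g ∈ b.Γ, ∃ y ∈ k.AH c,
      k.ρ i g (x + k.ρ i b.c x) - (x + k.ρ i b.c x) = pp ^ n • y := fun g m => by
    obtain ⟨y, p, q⟩ := v.2 g m
    obtain ⟨z, p', q'⟩ := v.2 _ (b.Γ_conj m b.c⁻¹)
    rw [← (a5 i _ m x).1] at q
    rw [← (a5 i _ (b.Γ_conj m b.c⁻¹) x).1] at q'
    refine ⟨y + k.ρ i b.c z, add_mem p (a8 i c _ h _ p').1, ?_⟩
    rw [nsmul_add, ← map_nsmul, ← q, ← q', map_sub, ← mu, map_add, ← mu,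
      show b.c * (b.c⁻¹ * g * b.c⁻¹⁻¹) = g * b.c by group]
    abel
  by_cases m : g ∈ b.Γ
  · exact key g m
  · obtain ⟨y, p, q⟩ := key _ (b.mul_out m b.c_out)
    refine ⟨y, p, ?_⟩
    rwa [mu, map_add (k.ρ i b.c), ← mu b.c, cc, (a1 i).2, add_comm _ x] at q

/-- one of the two signed points is not divisible -/
theorem ex_i (hC : CYC) (hA : ACT) (h : 0 < c) {n : ℕ} {x : k.M} (m : x ∈ k.AH c)
    (z : k.Nz c n x) : ∃ i, k.Nz c n (x + k.ρ i b.c x) := by
  by_contra! f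
  obtain ⟨y, p, q⟩ : ∃ y ∈ k.AH c, (k.v ^ n) y = x + k.ρ 0 b.c x := by
    simpa only [Ch.Nz, not_forall, not_not, exists_prop] using f 0
  obtain ⟨y', p', q'⟩ : ∃ y ∈ k.AH c, (k.v ^ n) y = x + k.ρ 1 b.c x := by
    simpa only [Ch.Nz, not_forall, not_not, exists_prop] using f 1
  obtain ⟨u, r, s⟩ := pp_pw hC hA h n m
  obtain ⟨o, ho⟩ := (pp_odd.pow : Odd (pp ^ n))
  rw [(hA e b k).2.1 0, sd, if_neg (mt (b.kd.gk _).2 b.c_out), neg_one_zsmul] at q'
  refine z (u - o • (y + y')) (sub_mem r (nsmul_mem (add_mem p p') o)) ?_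
  rw [map_sub, map_nsmul, map_add, q, q', s, ho]
  module

end Cl1

open Cl1 in
/-- **row CL1** -/
theorem cl1 (hC : CYC) (hA : ACT) : CL1 := fun e b k c n x t h v z => by
  obtain ⟨i, zi⟩ := ex_i hC hA h v.1 z
  obtain ⟨a1, -, a3, a4, a5, -, -, a8, a9, -, a11, -⟩ := hA e b k
  have iv := inv hA h v i
  have mX : x + k.ρ i b.c x ∈ k.AH c := add_mem v.1 (a8 i c _ h _ v.1).1
  generalize hX : x + k.ρ i b.c x = Y at zi iv mX
  have ex : ∃ j, k.Nz c j Y := ⟨n, zi⟩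
  obtain ⟨j, hj⟩ : ∃ j, Nat.find ex = j + 1 :=
    Nat.exists_eq_succ_of_ne_zero fun q => (q ▸ Nat.find_spec ex) Y mX rfl
  have nz : k.Nz c (j + 1) Y := hj ▸ Nat.find_spec ex
  have jn : j < n := j.lt_succ_self.trans_le (hj.ge.trans (Nat.find_min' ex zi))
  obtain ⟨S, mS, eS⟩ : ∃ y ∈ k.AH c, (k.v ^ j) y = Y := by
    simpa only [Ch.Nz, not_forall, not_not, exists_prop] using Nat.find_min ex (hj ▸ j.lt_succ_self)
  obtain ⟨R, mR, eR⟩ := ((hC k.s).1 _).2.2.2.2 (fun y => ((a1 0).1.dv fun _ => y).elim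
    fun z q => ⟨z 0, congrFun q 0⟩) S mS.1
  replace eR : k.v R = S := eR
  have vR : ∀ g, k.v (k.ρ (i + j + 1) g R - R) = k.ρ (i + j) g S - S := fun g => by
    rw [map_sub, a3, eR]
  have : ∀ g, ∃ w : W, k.ρ (i + j + 1) g R - R - k.em w ∈ k.AH c := fun g => by
    obtain ⟨y, p, q⟩ := iv g
    obtain ⟨u, r, s⟩ := pp_pw hC hA h n p
    obtain ⟨l, rfl⟩ := Nat.exists_eq_add_of_lt jn
    have mu := pw_mem hA h l r
    have f := pw_inj hA h t j (sub_mem (sub_mem (a8 (i + j) c g h _ mS).1 mS) (a8 0 c 1 h _ mu).2.1) (by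
      rw [map_sub, map_sub, pw_rho hA, eS, q, ← s, add_assoc, pow_add, pow_succ']
      exact sub_self _)
    obtain ⟨w, hw⟩ := (a11 (k.ρ (i + j + 1) g R - R - (k.v ^ l) u)).1
      ⟨sub_mem (sub_mem (a4 _ g _ mR) mR) mu.1, by rw [map_sub, vR, f]⟩
    exact ⟨w, by rw [hw, sub_sub_cancel]; exact mu⟩
  choose d hd using this
  have un : ∀ g w, k.ρ (i + j + 1) g R - R - k.em w ∈ k.AH c → d g = w := fun g w m =>
    sub_eq_zero.1 (em_zero hA h t (by
      convert sub_mem m (hd g) using 1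
      rw [map_sub]; abel))
  refine ⟨i + j + 1, d, ⟨fun g _ g' _ => un _ _ ?_, ?_⟩, fun ⟨w, hw⟩ => ?_,
    i, j, R, rfl, jn, mR, eR ▸ mS, by rw [hX, pow_succ, ← eS, ← eR]; rfl, hd⟩
  · have := add_mem (hd g) (a8 (i + j + 1) c g h _ (hd g')).1
    rw [map_sub, map_sub, a9, ← (a1 _).1.mul] at this
    rwa [map_add, show ∀ p q r s u : k.M, p - q - (r + s) = u - q - r + (p - u - s) from
      fun _ _ _ _ _ => by abel]
  · obtain ⟨U, o, s⟩ := P022K.G2.ex_lv (((a1 (i + j + 1)).1.lc R).isOpen_fiber R) ((a1 _).2 R)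
    exact ⟨U, o, fun g _ m => un g 0 (by
      rw [show k.ρ (i + j + 1) g R = R from s m, map_zero, sub_self, sub_self]; exact zero_mem _)⟩
  · have mw := (a11 _).2 ⟨w, rfl⟩
    have vw : k.v (R - k.em w) = S := by rw [map_sub, mw.2, sub_zero, eR]
    refine nz (R - k.em w) ⟨k.A.sub_mem mR mw.1, fun g m => sub_eq_zero.1 (t c h _ ?_ ?_)⟩
      (by rw [pow_succ, ← eS, ← vw]; rfl)
    · have := hd g
      rw [show d g = aa b (i + j + 1) g *ᵥ w - w from hw g trivial, map_sub, ← a9] at this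
      rwa [← (a5 (i + j + 1) g m.1 _).1, map_sub, show ∀ p q r s : k.M, p - q - (r - s) =
        p - r - (q - s) from fun _ _ _ _ => by abel]
    · rw [← (a5 (0 + 1) g m.1 _).1, map_sub, a3, vw, mS.2 g m, sub_self]

end Vale.Agent.P014Y.Kp
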