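import Vale.Agent.P014Y.Kp.St
import Vale.Agent.P014Y.Mu.Ds0
import Vale.Agent.P014Y.F.Es.Loc

/-! # P014Y, block Kp, row CL2: the residual class is unramified (helper72) -/

set_option autoImplicit false
set_option linter.all false

noncomputable section

namespace Vale.Agent.P014Y.Kp

open NumberField Matrix Module
open scoped Classical
open Vale.Agent.P022 (Qb GQ)
open Vale.Agent.P022.H443 (inP)
open Vale.Agent.P027M.S (Inert)
open Vale.Agent.P022D.W (dec)
open Vale.Agent.P022E.GW (Ov Fb)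
open Vale.Agent.P022K.G2 (In)
open Vale.Agent.P004K (Hc RC2)
open Vale.Agent.P014U
open L2 (W M2)
open P004F (sd hq)
open P014Y.F (Crv Fld)
open Mu

variable [Pp]

namespace Cl2

variable {e : Crv} {b : Fld e} {k : Ch b} {c n ν l : ℕ} {x : k.M} {d : X} {P : Ideal (𝓞 Qb)}
  {g : GQ}

/-- over the ring class field the class is the coboundary of a point -/
theorem on_hc (hA : ACT) (t : k.Nt) (h : 0 < c) (D : k.Dc c n x ν d) : ∃ R : k.M,
    ∀ g ∈ Hc b.j (pp ^ k.t * c), ∀ i, Cp.vv (hq e.par.disc) (d g) = P004M.TE.ga g (R i) - R i := by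
  obtain ⟨i, j, R, rfl, -, -, r, -, f⟩ := D.ex
  obtain ⟨-, -, a3, -, a5, -, a7, -, -, -, a11, -⟩ := hA e b k
  refine ⟨R, fun g m s => ?_⟩
  have z := t c h _ (f g) (by
    rw [map_sub, map_sub, a3, ((a11 _).2 ⟨_, rfl⟩).2, (a5 _ g m.1 _).1, r.2 g m, sub_self, sub_self])
  rw [← a7 _ c h g m R s]
  exact (congrFun (sub_eq_zero.1 z) s).symm

/-- the class vanishes on the inertia elements over the quadratic field -/
theorem van (r2 : RC2) (hA : ACT) (t : k.Nt) (h : 0 < c) (D : k.Dc c n x ν d) (o : Ov l P)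
    (hS : l ∉ e.S) (hc : ¬ l ∣ c) (m : g ∈ b.Γ) (i : Inert P g) : d g = 0 := by
  obtain ⟨R, f⟩ := on_hc hA t h D
  obtain ⟨V, _, rd, -, h1, h2, -⟩ := Es.red e hS o
  have q := f g (P004F.Ra.unr_hc r2 b.iq (Nat.mul_pos (Nat.pow_pos pp_prime.pos) h) o
    (fun s => (o.1.dvd_mul.1 s).elim (fun s => hS (by
      rw [(Nat.prime_dvd_prime_iff_eq o.1 pp_prime).1 (o.1.dvd_of_dvd_pow s)]; exact e.pm)) hc) m i) 0
  refine Cp.vv_inj (hq e.par.disc) ((h1 1 _ (Cp.vv_two _ _) ?_).trans (map_zero _).symm)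
  rw [q, map_sub, h2 g i, sub_self]

theorem rs (hR : RSE) (ν : ℕ) : Rs (aa b ν) (Sd b) := by
  obtain ⟨-, -, h⟩ := hR e
  unfold aa
  split
  exacts [(h b).1, (h b).2.1]

/-- inertia over the quadratic field acts trivially -/
theorem one (hR : RSE) (o : Ov l P) (hS : l ∉ e.S) (m : g ∈ b.Γ) (i : Inert P g) :
    aa b ν g = 1 := by
  obtain ⟨r, -, h⟩ := hR e
  have u := r.unr g ⟨l, fun s => hS (List.mem_toFinset.1 s), P, o, i⟩
  unfold aa
  split
  · exact u
  · show (if P004S.nu _ g = 0 then 1 else -1 : F) • rb e g = 1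
    rw [if_pos (((h b).2.2.1 g).1 m), one_smul, u]

end Cl2

open Cl2

/-- **the class is unramified** -/
theorem cl2 (r2 : RC2) (hA : ACT) (hR : RSE) : CL2 := fun e b k c n x ν d T t h D s s' => by
  obtain ⟨-, -, h0⟩ := hR e
  obtain ⟨-, r, mem, -⟩ := h0 b
  have two : ∀ g ∉ b.Γ, ∀ u ∉ b.Γ, g * u ∈ b.Γ := fun g p u q => by
    rw [mem] at p q ⊢
    rw [P004S.nu_mul, (P004S.z2 _).resolve_left p, (P004S.z2 _).resolve_left q]
    rfl
  refine ⟨Ds.zg_of (rs hR ν).opn (fun g m => (rs hR ν).unr g (Ds.in_mono s m)) D.cl ?_,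
    fun l P o hS hc => ⟨Ds.cl_mono D.cl le_top, ?_⟩⟩
  · rintro g ⟨l, p, P, o, i⟩
    have hS : l ∉ e.S := fun u => p (s (Finset.mem_union_left _ (List.mem_toFinset.2 u)))
    refine van r2 hA t h D o hS (fun u => p (s' (Nat.mem_primeFactors.2 ⟨o.1, u, h.ne'⟩))) ?_ i
    by_contra q
    have u := r.unr g (Ds.in_mono s ⟨l, p, P, o, i⟩)
    have v := (hR e).1.unr g ⟨l, fun s => hS (List.mem_toFinset.1 s), P, o, i⟩
    change (if P004S.nu _ g = 0 then 1 else -1 : F) • rb e g = 1 at u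
    rw [if_neg (mt (mem g).2 q), v] at u
    have w := congrFun (congrFun u 0) 0
    simp only [Matrix.smul_apply, one_apply_eq, smul_eq_mul, mul_one] at w
    exact two_ne (by linear_combination -w)
  · by_cases q : ∃ τ ∈ inP P, τ ∉ b.Γ
    · obtain ⟨τ, i, q⟩ := q
      have a : aa b ν τ *ᵥ d τ = -d τ := by
        have := D.cl.1 τ trivial τ trivial
        rw [van r2 hA t h D o hS hc (two τ q τ q) (mul_mem i i : τ * τ ∈ inP P)] at this
        exact eq_neg_of_add_eq_zero_right this.symm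
      refine ⟨-(2 : F)⁻¹ • d τ, fun g m => ?_⟩
      show d g = aa b ν g *ᵥ _ - _
      by_cases p : g ∈ b.Γ
      · rw [van r2 hA t h D o hS hc p m, one hR o hS p m, one_mulVec, sub_self]
      · have u : τ⁻¹ * g ∈ b.Γ := two _ (mt (inv_mem_iff (H := b.Γ)).1 q) g p
        have u' : τ⁻¹ * g ∈ inP P := mul_mem (inv_mem i) m
        rw [← mul_inv_cancel_left τ g, D.cl.1 τ trivial _ trivial, van r2 hA t h D o hS hc u u',
          map_mul, one hR o hS u u', mul_one, mulVec_zero, add_zero, mulVec_smul, a, smul_neg,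
          ← neg_add', ← two_smul F, smul_smul, mul_neg, mul_inv_cancel₀ two_ne, neg_smul, neg_neg,
          one_smul]
    · exact ⟨0, fun g m => (van r2 hA t h D o hS hc (by_contra fun p => q ⟨g, m, p⟩) m).trans
        (by rw [map_zero]; rfl)⟩

end Vale.Agent.P014Y.Kp
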