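import Vale.Agent.P014Y.Kp.St2

/-! # P014Y, block Kp: the class comes from a local point (helper39) -/

set_option autoImplicit false
set_option linter.all false

noncomputable section

namespace Vale.Agent.P014Y.Kp

open Matrix
open scoped Classical
open Vale.Agent.P022 (GQ)
open Vale.Agent.P014U
open P014Y.F (Crv Fld)
open P014Y.Mu

variable [Pp]

namespace Cl3

section

variable {s : ℕ} {G : Type} [AddCommGroup G]

theorem sh_com (i j : Zq s) : Commute (sh i : AddMonoid.End (Mq s G)) (sh j) :=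
  AddMonoidHom.ext fun x => funext fun t => congrArg x (sub_right_comm t i j)

theorem sh_op (i : Zq s) (c : Zq s → ℤ) : Commute (sh i : AddMonoid.End (Mq s G)) (op c) :=
  Commute.sum_right _ _ _ fun j _ => AddMonoidHom.ext fun x =>
    (map_zsmul _ _ _).trans (congrArg (c j • ·) (DFunLike.congr_fun (sh_com i j).eq x))

theorem vp_op (c : Zq s → ℤ) : Commute (vp : AddMonoid.End (Mq s G)) (op c) :=
  (sh_op 1 c).sub_left (sh_op (-1) c)

theorem vp_A {x : Mq s G} (h : x ∈ (Aq : AddSubgroup (Mq s G))) :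
    vp x ∈ (Aq : AddSubgroup (Mq s G)) := by
  have : Commute (Nm : AddMonoid.End (Mq s G)) vp :=
    Commute.sum_left _ _ _ fun j _ => (sh_com _ 1).sub_right (sh_com _ (-1))
  exact (DFunLike.congr_fun this.eq x).trans ((congrArg vp h).trans (map_zero _))

theorem pw_mem {T : AddMonoid.End (Mq s G)} {B : AddSubgroup (Mq s G)} (h : ∀ x ∈ B, T x ∈ B)
    (n : ℕ) : ∀ x ∈ B, (T ^ n) x ∈ B := by
  induction n with
  | zero => exact fun _ h => h
  | succ n ih => exact fun x k => by rw [pow_succ]; exact ih _ (h x k)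

theorem pow_com {T : AddMonoid.End (Mq s G)} {f : Mq s G →+ Mq s G} (h : ∀ x, f (T x) = T (f x))
    (n : ℕ) (x : Mq s G) : f ((T ^ n) x) = (T ^ n) (f x) :=
  DFunLike.congr_fun ((show Commute (show AddMonoid.End (Mq s G) from f) T from
    AddMonoidHom.ext h).pow_right n).eq x

theorem mul_ap (S T : AddMonoid.End (Mq s G)) (x : Mq s G) : (S * T) x = S (T x) := rfl

/-- `pp ^ n` in terms of the uniformiser -/
theorem pp_pow (cyc : CYC) (s : ℕ) : ∃ c : Zq s → ℤ, ∀ (G : Type) [AddCommGroup G] (n : ℕ),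
    ∀ x ∈ (Aq : AddSubgroup (Mq s G)), pp ^ n • x = (vp ^ n : AddMonoid.End (Mq s G)) ((op c ^ n) x) := by
  obtain ⟨h, ⟨c, hc⟩, -⟩ := cyc s
  refine ⟨c, fun G _ n x k => ?_⟩
  rw [← mul_ap, ← (vp_op c).mul_pow]
  induction n with
  | zero => exact one_smul _ _
  | succ n ih =>
    rw [pow_succ', mul_smul, ih, pow_succ', mul_ap]
    exact hc G _ (pw_mem (T := vp * op c) (fun y k => vp_A ((h G).2.1 c y k)) n x k)

end

variable {e : Crv} {b : Fld e} {k : Ch b} {c n : ℕ} {x : k.M}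

theorem nt_pow (act : ACT) (nt : k.Nt) (c0 : 0 < c) (j : ℕ) :
    ∀ x ∈ k.AH c, (k.v ^ j) x = 0 → x = 0 := by
  induction j with
  | zero => exact fun _ _ h => h
  | succ j ih => exact fun x h z => nt c c0 x h (ih _
      ((act e b k).2.2.2.2.2.2.2.1 0 c 1 c0 x h).2.1 (by rw [pow_succ] at z; exact z))

theorem v_com (act : ACT) {g : GQ} (m : g ∈ b.Γ) (n : ℕ) (x : k.M) :
    k.ρ n g (k.v x) = k.v (k.ρ n g x) := by
  have := ((act e b k).2.2.2.2.1 n g m x).2.1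
  exact (map_sub _ _ _).trans (congrArg₂ (· - ·) (this 1) (this (-1)))

theorem cj_mem (rse : RSE) {g : GQ} (m : g ∈ b.Γ) (t : GQ) : t⁻¹ * g * t ∈ b.Γ := by
  have h := ((rse e).2.2 b).2.2.1
  have i := P004S.nu_mul (-b.δ') t⁻¹ t
  rw [inv_mul_cancel, P004S.nu_one] at i
  rw [h, P004S.nu_mul, P004S.nu_mul, (h g).1 m, add_zero, ← i]

/-- the signed traces are invariant -/
theorem iv_sg (act : ACT) (rse : RSE) (c0 : 0 < c) (h : k.Iv c n x) (i : ℕ) :
    k.Iv c n (x + k.ρ i b.c x) := by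
  obtain ⟨a1, -, -, -, a5, -, -, a8, -⟩ := act e b k
  refine ⟨add_mem h.1 (a8 i c _ c0 x h.1).1, fun g m => ?_⟩
  obtain ⟨y, y1, y2⟩ := h.2 g m
  obtain ⟨z, z1, z2⟩ := h.2 _ (cj_mem rse m b.c)
  refine ⟨y + k.ρ i b.c z, add_mem y1 (a8 i c _ c0 z z1).1, ?_⟩
  rw [nsmul_add, ← y2, ← map_nsmul, ← z2, map_sub, ← (a5 i _ (cj_mem rse m b.c) x).1, ← (a1 i).1.mul,
    ← mul_assoc, mul_inv_cancel_left, (a1 i).1.mul, (a5 i g m _).1, map_add]
  abel

theorem aa_eq (act : ACT) {g : GQ} (m : g ∈ b.Γ) (k : Ch b) (ν : ℕ) (v : L2.W) :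
    aa b ν g *ᵥ v = rb e g *ᵥ v := by
  obtain ⟨-, -, -, -, a5, -, -, -, a9, a10, -⟩ := act e b k
  refine a10 ?_
  rw [← a9, (a5 ν g m _).1, a9, aa, if_pos Even.zero]

end Cl3

open Cl3

/-- the form with the signed traces -/
theorem cl3b (cyc : CYC) (act : ACT) (rse : RSE) : CL3B := by
  intro e b k c n x ν d C D nt c0 iv dc le lt
  obtain ⟨r, hr⟩ := pp_pow cyc k.s
  obtain ⟨-, -, -, a4, a5, -, -, a8, -, -, a11, -⟩ := act e b k
  obtain ⟨i, j, R, -, jn, RA, -, hR, ha⟩ := dc.ex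
  obtain ⟨z, zA, hz⟩ := lt i
  obtain ⟨t, rfl⟩ := Nat.exists_eq_add_of_lt jn
  obtain ⟨c1, U, u1, u2⟩ := dc.cl
  refine ⟨⟨fun g m h m' => ?_, U, u1, fun w _ => u2 w trivial⟩,
    R - (k.v ^ t) ((op r ^ (j + t + 1)) z), sub_mem RA (pw_mem (fun _ => vp_A) t _
      (pw_mem (((cyc k.s).1 _).2.1 r) _ z zA)), fun g m => ?_⟩
  · rw [c1 g trivial h trivial, aa_eq act (le m) k]
  have m' := le m
  obtain ⟨y, y1, y2⟩ := (iv_sg act rse c0 iv i).2 g m'
  have y3 := nsmul_mem y1 C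
  have y4 : k.ρ 0 g (C • (x + k.ρ i b.c x)) - C • (x + k.ρ i b.c x) = pp ^ (j + t + 1) • C • y := by
    rw [map_nsmul, ← nsmul_sub, y2]; exact nsmul_left_comm _ _ _
  have y5 := pw_mem (fun w h => (a8 0 c 1 c0 w h).2.1) t _
    (pw_mem (fun w h => (a8 0 c 1 c0 w h).2.2 r) (j + t + 1) _ y3)
  have := nt_pow act nt c0 (j + 1) _ (sub_mem (ha g) y5) (by
    rw [map_sub, map_sub, map_sub, (a5 ν g m' R).1, ← pow_com (v_com act m' 0), hR, map_nsmul,
      ← nsmul_add, y4, hr _ _ _ y3.1, pow_succ k.v j, mul_ap _ _ (k.em _),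
      ((a11 _).2 ⟨_, rfl⟩).2, map_zero, sub_zero, ← pow_succ, ← mul_ap (k.v ^ (j + 1)),
      ← pow_add, add_right_comm, sub_self])
  rw [hz g m _ y3 y4, map_sub (op r ^ _ : AddMonoid.End k.M), map_sub (k.v ^ t),
    ← pow_com (fun w => (a5 0 g m' w).2.2 r), ← pow_com (v_com act m' 0), (a5 ν g m' R).1] at this
  rw [map_sub]
  exact sub_eq_zero.1 (by rw [← neg_eq_zero, ← this]; abel)

theorem cl3 (cyc : CYC) (act : ACT) (rse : RSE) : CL3 := fun e b k c n x ν d C D nt c0 iv dc le h =>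
  cl3b cyc act rse e b k c n x ν d C D nt c0 iv dc le fun i => h _ (iv_sg act rse c0 iv i)

end Vale.Agent.P014Y.Kp
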