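import Vale.Agent.P014Y.Kp.St
import Vale.Agent.P014Y.F.Es.Loc

/-! # P014Y, block Kp: the class is transverse -/

set_option autoImplicit false
set_option linter.all false

noncomputable section

namespace Vale.Agent.P014Y.Kp

open NumberField Matrix
open scoped Classical
open Vale.Agent.P022 (Qb GQ)
open Vale.Agent.P022E.GW (Ov Fb)
open Vale.Agent.P004K (Hc K1 RC1)
open Vale.Agent.P014U
open P004M.TE (Pt ga ga_mul)
open P004F (hq)
open P014Y.F (Crv Fld)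
open Mu

variable [Pp]

namespace Cl4

/-- reduction at a good prime -/
theorem rdk (e : Crv) {l : ℕ} {P : Ideal (𝓞 Qb)} (hS : l ∉ e.S) (o : Ov l P) :
    ∃ (W : Type) (_ : AddCommGroup W) (rd : Pt e.A e.B →+ W) (Fr : W →+ W),
    (∀ y, K1 P y → rd y = 0) ∧ (∀ k y, pp ^ k • y = 0 → rd y = 0 → y = 0) ∧
    (∀ g, Fb l P g → ∀ y, rd (ga g y) = Fr (rd y)) ∧
    ∀ q, Fr (Fr q) = e.a l • Fr q - (l : ℤ) • q := by
  obtain ⟨hl, hP, h⟩ := o
  haveI := Fact.mk hl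
  obtain ⟨-, b2, b3⟩ := e.bad l hl hS
  have n : ∀ p ∈ e.S, ¬ (l : ℤ) ∣ (p : ℕ) := fun p m k => hS (by
    rwa [(Nat.prime_dvd_prime_iff_eq hl (Es.S_prime m)).1 (by exact_mod_cast k)])
  have pr := Nat.prime_iff_prime_int.1 hl
  have hg : ¬ (l : ℤ) ∣ 2 * (4 * e.A ^ 3 + 27 * e.B ^ 2) := fun k =>
    (pr.dvd_or_dvd k).elim (n 2 e.two) b2
  have hg' : ¬ (l : ℤ) ∣ 2 * pp * (4 * e.A ^ 3 + 27 * e.B ^ 2) := fun k => (pr.dvd_or_dvd k).elim
    (fun k => (pr.dvd_or_dvd k).elim (n 2 e.two) (n pp e.pm)) b2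
  obtain ⟨κ, _, _, _, rd, h0, h1, h2, h3⟩ := Es.ex_rdn hg hP h
  refine ⟨_, inferInstance, rd, P004M.TE.Fb, h0, fun k y => h1 _ y fun d => n pp e.pm (by
    exact_mod_cast hl.dvd_of_dvd_pow d), h3, fun q => ?_⟩
  obtain ⟨g, k⟩ := P022.H20.exists_isFrob hl
  have e1 : e.a l = -P004M.TE.cs (e.A : ZMod l) (e.B : ZMod l) := by
    have := (b3 g k).symm.trans (X4M.TE.frob_mt (hq e.par.disc) hg' k).1
    exact_mod_cast this
  have := P004M.TE.frob_ch (P004M.TE.char_ne hg) (P004M.TE.disc_ne hg) q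
  rw [ZMod.card] at this
  rw [e1, neg_smul, ← sub_eq_zero, ← this]
  abel

section

variable {s : ℕ} {G : Type} [AddCommGroup G]

theorem ma (f g : AddMonoid.End (Mq s G)) (x : Mq s G) : (f * g) x = f (g x) := rfl

theorem sh_sh (a b : Zq s) : Commute (sh a : AddMonoid.End (Mq s G)) (sh b) :=
  AddMonoidHom.ext fun x => funext fun i => congrArg x (sub_right_comm i a b)

theorem sh_vp (a : Zq s) : Commute (sh a : AddMonoid.End (Mq s G)) vp :=
  (sh_sh a _).sub_right (sh_sh a _)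

theorem op_vp (o : Zq s → ℤ) : Commute (op o : AddMonoid.End (Mq s G)) vp :=
  Commute.sum_left _ _ _ fun k _ => by
    rw [zsmul_eq_mul]; exact (Int.cast_commute _ _).mul_left (sh_vp k)

theorem vp_mem {x : Mq s G} (h : x ∈ (Aq : AddSubgroup (Mq s G))) :
    vp x ∈ (Aq : AddSubgroup (Mq s G)) := by
  have c : Commute (Nm : AddMonoid.End (Mq s G)) vp := Commute.sum_left _ _ _ fun k _ => sh_vp _
  have : Nm (vp x) = vp (Nm x) := DFunLike.congr_fun c.eq x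
  rw [show Nm x = 0 from h, map_zero] at this
  exact this

theorem pw_mem {f : AddMonoid.End (Mq s G)} {N : AddSubgroup (Mq s G)} (h : ∀ x ∈ N, f x ∈ N)
    (m : ℕ) : ∀ x ∈ N, (f ^ m) x ∈ N := by
  induction m with
  | zero => exact fun x a => a
  | succ m i => exact fun x a => by rw [pow_succ]; exact i _ (h x a)

theorem pw {o : Zq s → ℤ} (h : ∀ x ∈ (Aq : AddSubgroup (Mq s G)), pp • x = vp (op o x)) (m : ℕ) :
    ∀ x ∈ (Aq : AddSubgroup (Mq s G)),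
      pp ^ m • x = ((vp * op o : AddMonoid.End (Mq s G)) ^ m) x := by
  induction m with
  | zero => exact fun x _ => by rw [pow_zero, one_smul]; rfl
  | succ m i =>
    intro x a
    rw [pow_succ, mul_smul, i _ (nsmul_mem a _), h x a, pow_succ]
    rfl

end

end Cl4

open Cl4

/-- **the class is transverse** -/
theorem cl4 (r1 : RC1) (hC : CYC) (hA : ACT) : CL4 := by
  intro e b k pl M c n x ν d l nt c0 iv dc g ⟨z, zA, z1, z2⟩
  obtain ⟨a1, -, a3, a4, a5, -, a7, a8, -, -, a10, -⟩ := hA e b k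
  obtain ⟨-, ⟨o, ho⟩, -⟩ := hC k.s
  obtain ⟨i, j, R, rfl, jn, RA, vR, e1, e2⟩ := dc.ex
  obtain ⟨r, rfl⟩ := Nat.exists_eq_add_of_lt jn
  generalize hσ : pl.σ l = σ at *
  have fb : Fb l (pl.P l) σ := hσ ▸ pl.fb l g.pr
  have out : σ ∉ b.Γ := hσ ▸ g.ine
  obtain ⟨W, _, rd, Fr, h0, h1, h3, h4⟩ := rdk e (fun m => g.out
    (Finset.mem_union_left _ (List.mem_toFinset.2 m))) (pl.ov l g.pr)
  have s2 : σ * σ ∈ Hc b.j (pp ^ k.t * c) :=
    Es.sq_hc r1 out (Nat.mul_pos (pow_pos pp_pos _) c0)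
  have S : ∀ m y, k.ρ m (σ * σ) y = k.ρ 0 (σ * σ) y := fun m y => funext fun t =>
    (a7 m c c0 _ s2 y t).trans (a7 0 c c0 _ s2 y t).symm
  have e3 : k.ρ 0 (σ * σ) R - R = k.em (d (σ * σ)) := by
    have := nt c c0 _ (e2 (σ * σ)) (by
      rw [map_sub, map_sub, a3, S, vR.2 _ s2, ((a10 _).2 ⟨_, rfl⟩).2, sub_self, sub_zero])
    rwa [S, sub_eq_zero] at this
  let N : AddSubgroup k.M := (AddMonoidHom.compLeft rd _).ker
  have mN : ∀ y, y ∈ N ↔ ∀ t, rd (y t) = 0 := fun y => funext_iff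
  have n0 : ∀ a, ∀ y ∈ N, sh a y ∈ N := fun a y m => (mN _).2 fun t => (mN _).1 m _
  have n2 : ∀ y ∈ N, op o y ∈ N := fun y m => by
    rw [show op o y = ∑ a, o a • sh a y from AddMonoidHom.finset_sum_apply _ _ _]
    exact sum_mem fun a _ => zsmul_mem (n0 a y m) _
  have n1 : ∀ y ∈ N, k.v y ∈ N := fun y m => sub_mem (n0 _ y m) (n0 _ y m)
  have n3 : ∀ m, ∀ y ∈ N, k.ρ m σ y ∈ N := fun m y a => (mN _).2 fun t => by
    rw [k.ρ_apply, map_zsmul, h3 σ fb, (mN _).1 a, map_zero, smul_zero]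
  have n4 : ∀ y, k.Kr (pl.P l) y → y ∈ N := fun y a => (mN _).2 fun t => h0 _ (a t)
  let H : AddSubgroup k.M := N.comap (k.ρ 0 (σ * σ) - AddMonoidHom.id _)
  have mH : ∀ y, y ∈ H ↔ k.ρ 0 (σ * σ) y - y ∈ N := fun y => Iff.rfl
  have g1 : ∀ y ∈ k.AH c, y ∈ H := fun y a => (mH _).2 (by rw [a.2 _ s2, sub_self]; exact zero_mem _)
  have g2 : ∀ y ∈ H, k.v y ∈ H := fun y a => (mH _).2 (by
    rw [← a3, S, ← map_sub]; exact n1 _ a)
  have g3 : ∀ m, ∀ y ∈ H, k.ρ m σ y ∈ H := fun m y a => (mH _).2 (by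
    rw [← S m, ← (a1 m).1.mul, mul_assoc, (a1 m).1.mul, S, ← map_sub]; exact n3 m _ a)
  have g4 : z ∈ H := (mH _).2 (by rw [← sq]; exact n4 _ z1)
  have g5 : ∀ y ∈ k.A, (k.v ^ (j + 1)) y ∈ N → y ∈ H := fun y yA a => by
    have p1 : pp ^ (j + 1) • y ∈ N := by
      rw [pw (ho _) _ y yA, (op_vp o).symm.eq, (op_vp o).mul_pow]
      exact pw_mem n2 _ _ a
    refine (mH _).2 ((mN _).2 fun t => ?_)
    have p2 : ((pp : ℤ) ^ (j + r + 1)) • rd (y t) = 0 := by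
      have := (mN _).1 p1 t
      rw [Pi.smul_apply, map_nsmul] at this
      rw [← Nat.cast_pow, natCast_zsmul, show j + r + 1 = r + (j + 1) by omega, pow_add, mul_smul,
        this, smul_zero]
    obtain ⟨u, hu⟩ := g.d2
    obtain ⟨w, hw⟩ := g.d1
    have p3 : ((l : ℤ) + 1) • rd (y t) = 0 := by
      rw [show (l : ℤ) + 1 = w * (pp : ℤ) ^ (j + r + 1) by exact_mod_cast hw.trans (mul_comm _ _),
        mul_smul, p2, smul_zero]
    rw [Pi.sub_apply, a7 0 c c0 _ s2, ga_mul, map_sub, h3 σ fb, h3 σ fb, h4, ← map_zsmul, hu,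
      mul_comm, mul_smul, p2, smul_zero, map_zero, zero_sub, ← neg_add', neg_eq_zero, ← p3, add_smul,
      one_smul]
  obtain ⟨y, yH, hy⟩ := iv.2 (σ⁻¹ * b.c)
    (P022.H20.mul_mem' b.iq.two (fun m => out (inv_mem_iff.1 m)) (Es.c_out b))
  have v1 : ∀ m q t, k.ρ q σ ((k.v ^ m) t) = (k.v ^ m) (k.ρ (q + m) σ t) := fun m => by
    induction m with
    | zero => exact fun _ _ => rfl
    | succ m ih =>
      intro q t
      rw [pow_succ, ma, ma, ih, ← add_assoc, a3]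
  have y1 : k.ρ i σ y ∈ k.AH c := (a8 i c σ c0 y yH).1
  have y2 : (op o ^ (j + r + 1) : AddMonoid.End k.M) (k.ρ i σ y) ∈ k.AH c :=
    pw_mem (fun t a => (a8 0 c 1 c0 t a).2.2 o) _ _ y1
  have e4 : k.ρ i b.c x = k.ρ i σ x + (k.v ^ (j + r + 1))
      ((op o ^ (j + r + 1) : AddMonoid.End k.M) (k.ρ i σ y)) := by
    rw [← mul_inv_cancel_left σ b.c, (a1 i).1.mul, (a5 i _ (P022.H20.mul_mem' b.iq.two
      (fun m => out (inv_mem_iff.1 m)) (Es.c_out b)) x).1, sub_eq_iff_eq_add'.1 hy, map_add,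
      map_nsmul, pw (ho _) _ _ y1.1, (op_vp o).symm.mul_pow]
    rfl
  generalize (op o ^ (j + r + 1) : AddMonoid.End k.M) (k.ρ i σ y) = y' at y2 e4
  have u1 := n4 _ z2
  have vA : ∀ t ∈ k.A, k.v t ∈ k.A := fun t a => vp_mem a
  have t1 : (k.v ^ r) (z + k.ρ (i + (j + r + 1)) σ z + y') ∈ H :=
    pw_mem g2 _ _ (add_mem (add_mem g4 (g3 _ _ g4)) (g1 _ y2))
  have t2 := g5 (R - (k.v ^ r) (z + k.ρ (i + (j + r + 1)) σ z + y'))
    (sub_mem RA (pw_mem vA _ _ (add_mem (add_mem zA (a4 _ _ _ zA)) y2.1))) (by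
      rw [map_sub, e1, e4, ← ma, ← pow_add, show j + 1 + r = j + r + 1 by omega,
        map_add, map_add, ← v1]
      have := add_mem u1 (n3 i _ u1)
      rw [map_sub] at this
      refine (congrArg (· ∈ N) ?_).mp this
      abel)
  have t3 := (mH _).1 (sub_add_cancel R _ ▸ add_mem t2 t1)
  rw [e3] at t3
  have t4 : d (σ * σ) = 0 := Cp.vv_inj (hq e.par.disc) (by
    rw [map_zero]; exact h1 1 _ (Cp.vv_two _ _) ((mN _).1 t3 0))
  rw [dc.cl.1 σ trivial σ trivial] at t4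
  refine (mem_Vs _).2 ⟨-(2 : F)⁻¹ • d σ, ?_⟩
  rw [mulVec_smul, eq_neg_of_add_eq_zero_right t4, smul_neg, neg_smul, neg_neg, sub_neg_eq_add,
    ← add_smul, ← two_mul, mul_inv_cancel₀ two_ne, one_smul]

end Vale.Agent.P014Y.Kp
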