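import Vale.Agent.P014Y.Kp.St0
import Vale.Agent.P014Y.Wp.Cyc

/-! # P014Y, block Kp: the row `CYC` -/

set_option autoImplicit false
set_option linter.all false

noncomputable section

namespace Vale.Agent.P014Y.Kp

open Vale.Agent.P014U Polynomial Finset
open Vale.Agent.P014Y.Wp

variable [Pp]

namespace Cyc

variable {s : ℕ} {G : Type} [AddCommGroup G]

theorem odd : Odd pp := pp_prime.odd_of_ne_two fun e => not_dvd_two (e ▸ dvd_rfl)

theorem sum_ap {ι : Type} (t : Finset ι) (f : ι → AddMonoid.End (Mq s G)) (x : Mq s G) :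
    (∑ j ∈ t, f j) x = ∑ j ∈ t, f j x := AddMonoidHom.finset_sum_apply f t x

theorem sh_eq (k : Zq s) (x : Mq s G) : sh k x = Cy.sh G k x := rfl

theorem vp_eq (x : Mq s G) : vp x = Cy.vp G _ x := rfl

theorem nm_eq (x : Mq s G) : Nm x = Cy.nm G pp s x := by
  rw [Nm, sum_ap, Cy.nm, LinearMap.sum_apply]; rfl

theorem mem_iff {x : Mq s G} : x ∈ (Aq : AddSubgroup (Mq s G)) ↔ Cy.nm G pp s x = 0 := by
  rw [← nm_eq]; rfl

theorem op_ap (c : Zq s → ℤ) (x : Mq s G) : op c x = ∑ k, c k • sh k x := by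
  rw [op, sum_ap]; rfl

theorem op_eq (c : Zq s → ℤ) (x : Mq s G) :
    op c x = Cy.ev G _ (∑ k, c k • X ^ ZMod.val k) x := by
  rw [op_ap, map_sum, LinearMap.sum_apply]
  exact sum_congr rfl fun k _ => by rw [map_smul, Cy.ev_sh]; rfl

theorem vp_pow (n : ℕ) (x : Mq s G) :
    ((vp : AddMonoid.End (Mq s G)) ^ n) x = Cy.ev G _ (Cy.Vp (pp ^ (s + 1)) ^ n) x := by
  induction n with
  | zero => rw [pow_zero, pow_zero, map_one]; rfl
  | succ n ih =>
    rw [pow_succ', pow_succ' (Cy.Vp _), Cy.ev_mul, Cy.ev_Vp, ← ih]; rfl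

/-- every polynomial in the shift is an element of the group ring -/
theorem ex_op (s : ℕ) (f : ℤ[X]) : ∃ c : Zq s → ℤ, ∀ (G : Type) [AddCommGroup G] (x : Mq s G),
    op c x = Cy.ev G _ f x := by
  induction f using Polynomial.induction_on' with
  | add f g hf hg =>
    obtain ⟨c, hc⟩ := hf
    obtain ⟨d, hd⟩ := hg
    refine ⟨c + d, fun G _ x => ?_⟩
    rw [map_add, LinearMap.add_apply, ← hc, ← hd, op_ap, op_ap, op_ap, ← sum_add_distrib]
    exact sum_congr rfl fun k _ => add_smul _ _ _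
  | monomial n a =>
    refine ⟨Pi.single (n : Zq s) a, fun G _ x => ?_⟩
    rw [op_ap, sum_eq_single (n : Zq s) (fun k _ h => by rw [Pi.single_eq_of_ne h, zero_smul])
      (fun h => absurd (mem_univ _) h), Pi.single_eq_same, ← smul_X_eq_monomial, map_smul, Cy.ev_pow]
    rfl

omit [Pp] in
theorem half {q : ℕ} (hq : Odd q) : ∃ f h : ℤ[X], X - 1 = Cy.Vp q * f + h * (X ^ q - 1) := by
  obtain ⟨m, rfl⟩ := hq
  refine ⟨X * ∑ i ∈ range (m + 1), (X ^ 2) ^ i, ∑ i ∈ range (m + 1), (X ^ 2) ^ i - X, ?_⟩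
  have := mul_geom_sum (X ^ 2 : ℤ[X]) (m + 1)
  rw [Cy.Vp, Nat.add_sub_cancel]
  linear_combination -this

theorem eis (s : ℕ) : ∃ g : ℤ[X], (X - 1 : ℤ[X]) ^ ((pp - 1) * pp ^ s) = (pp : ℤ[X]) * g + Cy.Ph pp s := by
  haveI := Fact.mk pp_prime
  have e : ((X - 1 : ℤ[X]) ^ ((pp - 1) * pp ^ s) - Cy.Ph pp s).map (Int.castRingHom (ZMod pp)) = 0 := by
    have n0 : (X - 1 : (ZMod pp)[X]) ^ pp ^ s ≠ 0 :=
      pow_ne_zero _ (by simpa using X_sub_C_ne_zero (1 : ZMod pp))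
    have a := congrArg (Polynomial.map (Int.castRingHom (ZMod pp))) (Cy.mul_Ph pp s)
    simp only [Polynomial.map_mul, Polynomial.map_sub, Polynomial.map_pow, map_X,
      Polynomial.map_one] at a ⊢
    refine mul_left_cancel₀ n0 ?_
    rw [mul_sub, ← pow_add, show pp ^ s + (pp - 1) * pp ^ s = pp ^ (s + 1) by
      rw [← one_add_mul, Nat.add_sub_cancel' pp_prime.one_le, pow_succ'], sub_pow_char_pow,
      sub_pow_char_pow, one_pow, one_pow, a, sub_self, mul_zero]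
  have d : C (pp : ℤ) ∣ (X - 1 : ℤ[X]) ^ ((pp - 1) * pp ^ s) - Cy.Ph pp s :=
    (C_dvd_iff_dvd_coeff _ _).2 fun i => (ZMod.intCast_zmod_eq_zero_iff_dvd _ _).1 (by
      have := congrArg (coeff · i) e
      simpa only [coeff_map, eq_intCast, coeff_zero] using this)
  obtain ⟨g, hg⟩ := d
  exact ⟨g, by rw [← sub_eq_iff_eq_add, hg, map_natCast]⟩

end Cyc

open Cyc in
theorem cyc : CYC := fun s => by
  refine ⟨fun G _ => ⟨fun y => ?_, fun c x hx => ?_, fun x => ?_, fun x => ?_, fun hG x hx => ?_⟩,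
    ?_, ?_⟩
  · have e : (eb y : Mq s G) = -(Cy.sh G ((pp ^ s : ℕ) : Zq s) (Pi.single 0 y) - Pi.single 0 y) := by
      rw [neg_sub]
      refine congrArg (fun z : Mq s G => Pi.single 0 y - z) (funext fun i => ?_)
      simp only [Cy.sh_ap, Pi.single_apply, sub_eq_zero]
    rw [mem_iff, e, map_neg, Cy.nm_prj, neg_zero]
  · rw [mem_iff] at hx ⊢
    rw [op_eq]; exact Cy.nm_ev _ hx
  · rw [mem_iff, nm_eq]; exact Cy.nm_prj' x
  · rw [mem_iff, vp_eq]
    refine ⟨fun h => (Cy.vp_ker odd.pow h.1).1 h.2, fun h => ?_⟩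
    have : Cy.nm G pp s x = 0 := by
      obtain ⟨y, hy, rfl⟩ := h
      exact (Cy.nm_const pp s y).trans (funext fun _ => hy)
    exact ⟨this, (Cy.vp_ker odd.pow this).2 h⟩
  · obtain ⟨y, a, b⟩ := Cy.vp_surj odd hG (mem_iff.1 hx)
    exact ⟨y, mem_iff.2 a, b⟩
  · obtain ⟨f, h, e⟩ := half (odd.pow (n := s + 1))
    obtain ⟨g, hg⟩ : (X - C 1 : ℤ[X]) ∣ C (pp : ℤ) - Cy.Ph pp s :=
      dvd_iff_isRoot.2 (by simp [Cy.Ph_one])
    obtain ⟨c, hc⟩ := ex_op s (f * g)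
    refine ⟨c, fun G _ x hx => ?_⟩
    have e' : Cy.Vp (pp ^ (s + 1)) * (f * g) =
        (pp : ℤ[X]) - Cy.Ph pp s - g * h * (X ^ pp ^ (s + 1) - 1) := by
      rw [C_1, map_natCast] at hg
      linear_combination -hg - g * e
    rw [hc, vp_eq, ← Cy.ev_Vp, ← Cy.ev_mul, e', map_sub, map_sub, map_mul, map_sub, Cy.ev_q, map_one,
      sub_self, mul_zero, sub_zero, LinearMap.sub_apply, Cy.ev_Ph, mem_iff.1 hx, sub_zero,
      map_natCast, Module.End.natCast_apply]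
  · obtain ⟨f, hf⟩ := Cy.ex_two (q := pp ^ (s + 1))
    obtain ⟨g, hg⟩ := eis s
    obtain ⟨c, hc⟩ := ex_op s (g * f ^ ((pp - 1) * pp ^ s))
    refine ⟨c, fun G _ x hx => ?_⟩
    rw [hc, vp_pow, hf, mul_pow, hg, add_mul, map_add, LinearMap.add_apply, mul_comm (Cy.Ph _ _),
      Cy.ev_mul _ (Cy.Ph _ _), Cy.ev_Ph, mem_iff.1 hx, map_zero, add_zero, mul_assoc, Cy.ev_mul,
      map_natCast, Module.End.natCast_apply]

end Vale.Agent.P014Y.Kp
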