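import Vale.Agent.P014Y.Kp.St
import Vale.Agent.P014Y.Wp.Chi
import Vale.Agent.P004F.Es.Tr

/-! # P014Y, block Kp: row FOU (helper51) -/

set_option autoImplicit false
set_option linter.all false

noncomputable section

namespace Vale.Agent.P014Y.Kp

open Finset
open scoped Classical
open Vale.Agent.P022 (Qb GQ)
open Vale.Agent.P004K (Hc RC1)
open Vale.Agent.P014U
open P004M.TE (Pt ga)
open P004F (sd)
open P004S (nu)
open P014Y.F (Crv Fld)
open Mu

variable [Pp] {e : Crv} {b : Fld e}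

namespace Fou

theorem ne (s : ℕ) : ((pp ^ s : ℕ) : Zq s) ≠ 0 := fun z =>
  absurd (Nat.le_of_dvd (pow_pos pp_prime.pos s) ((ZMod.natCast_eq_zero_iff _ _).1 z))
    (not_le.2 (Nat.pow_lt_pow_right pp_prime.one_lt s.lt_succ_self))

variable (hΓ : ∀ g, g ∈ b.Γ ↔ nu (-b.δ') g = 0)
include hΓ

theorem sd_in {g : GQ} (m : g ∈ b.Γ) : sd (-b.δ') g = 1 := if_pos ((hΓ g).1 m)

theorem sd_out {g : GQ} (m : g ∉ b.Γ) : sd (-b.δ') g = -1 := if_neg (mt (hΓ g).2 m)

/-- the component at `0` of the twisted trace -/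
theorem tp0 (k : Ch b) {T : Finset GQ} (hT : ∀ g ∈ T, g ∈ b.Γ) (y : Pt e.A e.B) :
    k.tp T y 0 = ∑ g ∈ T with k.χ g = 0, ga g y -
      ∑ g ∈ T with k.χ g = -((pp ^ k.s : ℕ) : Zq k.s), ga g y := by
  rw [Ch.tp, Finset.sum_apply, sum_filter, sum_filter, ← sum_sub_distrib]
  refine sum_congr rfl fun g m => ?_
  rw [Ch.ρ_apply, pow_zero, one_smul, sd_in hΓ (hT g m), Int.cast_one, one_mul, zero_sub]
  show ga g ((Pi.single 0 y : Zq k.s → _) _ - (Pi.single _ y : Zq k.s → _) _) = _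
  rw [map_sub, Pi.single_apply, Pi.single_apply, apply_ite (ga g), apply_ite (ga g), map_zero]
  simp only [neg_eq_iff_eq_neg, neg_zero]

/-- the translate of the trace -/
theorem mv (k : Ch b) {T : Finset GQ} (hT : b.Tv (pp ^ k.t) T) {y : Pt e.A e.B}
    (fx : ∀ g ∈ Hc b.j (pp ^ k.t), ga g y = y) {γ : GQ} (m : γ ∈ b.Γ) :
    ∑ g ∈ T with k.χ g = k.χ γ, ga g y = ga γ (∑ g ∈ T with k.χ g = 0, ga g y) := by
  have f : P004F.Es.Fr b.Γ (Hc b.j (pp ^ k.t)) T fun _ => (1 : ℤ) :=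
    ⟨inf_le_left, hT.1, hT.2, fun _ _ _ _ => (one_mul _).symm, fun _ _ => rfl⟩
  rw [sum_filter, sum_filter, map_sum, ← f.sum (p := fun v => if k.χ v = k.χ γ then ga v y else 0)
    (fun u _ h a => by
      simp only [k.mul, k.ker h a, mul_zero, add_zero, P004M.TE.ga_mul, fx h a]) m]
  refine sum_congr rfl fun g _ => ?_
  simp only [k.mul, sd_in hΓ m, Int.cast_one, one_mul, add_eq_left, P004M.TE.ga_mul,
    apply_ite (ga γ), map_zero]

end Fou

open Fou in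
/-- **row FOU** -/
theorem fou (r1 : RC1) (rse : RSE) (chi : Wp.CHI) : FOU := fun e b Y M h => by
  have hΓ := ((rse e).2.2 b).2.2.1
  have p0 : ∀ n, 0 < pp ^ n := pow_pos pp_prime.pos
  obtain ⟨n, k, χ, mul, -, ker, su, H⟩ :=
    (chi e b (fun n => Y (pp ^ n)) fun n => h.hg _ (p0 n)).exists
  haveI := P022K.G2.cpt
  haveI := Subgroup.quotient_finite_of_isOpen _ (r1 _ b.j b.iq _ (p0 n)).2.1
  obtain ⟨T, f⟩ := P004F.Es.ex_fr (Γ := b.Γ) (H := Hc b.j (pp ^ n)) (ψ := fun _ => (1 : ℤ))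
    inf_le_left (fun _ _ _ _ => (one_mul _).symm) fun _ _ => rfl
  have hT : b.Tv (pp ^ n) T := ⟨f.mem, f.rep⟩
  obtain ⟨h1, h2⟩ := H T hT
  cases k with
  | zero =>
    haveI : Subsingleton (ZMod (pp ^ 0)) := by rw [pow_zero]; infer_instance
    refine ⟨⟨0, n, 0, fun _ _ => by simp, fun _ _ => rfl⟩, T, hT, fun t => h1 ?_⟩
    have := (Pi.evalAddMonoidHom _ 0).isOfFinAddOrder t
    rw [Pi.evalAddMonoidHom_apply, tp0 hΓ _ hT.1, filter_true_of_mem, filter_false_of_mem, sum_empty,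
      sub_zero] at this
    · rwa [filter_true_of_mem fun _ _ => Subsingleton.elim _ _]
    exacts [fun _ _ z => ne 0 (neg_eq_zero.1 z.symm), fun _ _ => rfl]
  | succ s =>
    obtain ⟨γ, m, z⟩ := su (-((pp ^ s : ℕ) : Zq s))
    let k : Ch b := ⟨s, n, χ, fun g h => by
      rw [mul]
      by_cases a : g ∈ b.Γ
      · rw [if_pos a, sd_in hΓ a, Int.cast_one, one_mul]
      · rw [if_neg a, sd_out hΓ a, Int.cast_neg, Int.cast_one, neg_one_mul], ker⟩
    refine ⟨k, T, hT, fun t => h2 γ m (fun x => ne s (neg_eq_zero.1 (z ▸ x))) ?_⟩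
    have := (Pi.evalAddMonoidHom _ 0).isOfFinAddOrder t
    rw [Pi.evalAddMonoidHom_apply, tp0 hΓ k hT.1] at this
    have w := mv hΓ k hT (h.fx _ (p0 n)) m
    rw [show k.χ γ = -((pp ^ k.s : ℕ) : Zq k.s) from z] at w
    exact w ▸ this

end Vale.Agent.P014Y.Kp
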