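import Vale.Agent.P014Y.F.Es.Loc

/-! # P014Y, block Kp: reduction at a good prime -/

set_option autoImplicit false
set_option linter.all false

noncomputable section

namespace Vale.Agent.P014Y.Kp

open NumberField
open scoped Classical
open Vale.Agent.P022 (Qb GQ)
open Vale.Agent.P022.H443 (inP)
open Vale.Agent.P022E.GW (Ov Fb)
open Vale.Agent.P004K (K1)
open Vale.Agent.P014U
open P004M.TE (Pt ga)
open P004F (hq)
open P014Y.F (Crv)

variable [Pp]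

/-- reduction at a good prime; it kills the kernel of the reduction -/
theorem rdk (e : Crv) {l : ℕ} {P : Ideal (𝓞 Qb)} (hS : l ∉ e.S) (o : Ov l P) :
    ∃ (W : Type) (_ : AddCommGroup W) (rd : Pt e.A e.B →+ W) (Fr : W →+ W),
    (∀ y, K1 P y → rd y = 0) ∧ (∀ k y, pp ^ k • y = 0 → rd y = 0 → y = 0) ∧
    (∀ g ∈ inP P, ∀ y, rd (ga g y) = rd y) ∧ (∀ g, Fb l P g → ∀ y, rd (ga g y) = Fr (rd y)) ∧
    ∀ q, Fr (Fr q) = e.a l • Fr q - (l : ℤ) • q := by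
  obtain ⟨hl, hP, h⟩ := o
  haveI := Fact.mk hl
  obtain ⟨-, b2, b3⟩ := e.bad l hl hS
  have n : ∀ p ∈ e.S, ¬ (l : ℤ) ∣ (p : ℕ) := fun p m k => hS (by
    rwa [(Nat.prime_dvd_prime_iff_eq hl (Es.S_prime m)).1 (by exact_mod_cast k)])
  have pr := Nat.prime_iff_prime_int.1 hl
  have hg : ¬ (l : ℤ) ∣ 2 * (4 * e.A ^ 3 + 27 * e.B ^ 2) := fun k =>
    (pr.dvd_or_dvd k).elim (n 2 e.two) b2
  have hg' : ¬ (l : ℤ) ∣ 2 * pp * (4 * e.A ^ 3 + 27 * e.B ^ 2) := fun k => (pr.dvd_or_dvd k).elim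
    (fun k => (pr.dvd_or_dvd k).elim (n 2 e.two) (n pp e.pm)) b2
  obtain ⟨κ, _, _, _, rd, h0, h1, h2, h3⟩ := Es.ex_rdn hg hP h
  refine ⟨_, inferInstance, rd, P004M.TE.Fb, h0, fun k y => h1 _ y fun d => n pp e.pm (by
    exact_mod_cast hl.dvd_of_dvd_pow d), h2, h3, fun q => ?_⟩
  obtain ⟨g, k⟩ := P022.H20.exists_isFrob hl
  have e1 : e.a l = -P004M.TE.cs (e.A : ZMod l) (e.B : ZMod l) := by
    have := (b3 g k).symm.trans (X4M.TE.frob_mt (hq e.par.disc) hg' k).1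
    exact_mod_cast this
  have := P004M.TE.frob_ch (P004M.TE.char_ne hg) (P004M.TE.disc_ne hg) q
  rw [ZMod.card] at this
  rw [e1, neg_smul, ← sub_eq_zero, ← this]
  abel

end Vale.Agent.P014Y.Kp
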