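import Vale.Agent.P014Y.Kp.Cl1
import Vale.Agent.P014Y.Kp.Rdk
import Vale.Agent.P014Y.Kp.Cyc

/-! # P014Y, block Kp, row KC2: the relation of Kolyvagin -/

set_option autoImplicit false
set_option linter.all false

noncomputable section

namespace Vale.Agent.P014Y.Kp

open NumberField
open scoped Classical
open Vale.Agent.P022 (Qb GQ)
open Vale.Agent.P004K (Hc K1 RC1)
open Vale.Agent.P014U
open X4S (Pl)
open P004M.TE (Pt ga)
open P004F (hq)
open P014Y.F (Crv Fld)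
open Mu Cl1

variable [Pp]

namespace Kc2

section

variable {s : ℕ} {G G' : Type} [AddCommGroup G] [AddCommGroup G'] (r : Zq s → ℤ)

theorem op_ap (x : Mq s G) (i : Zq s) : op r x i = ∑ k, r k • x (i - k) := by
  rw [Cyc.op_ap, Finset.sum_apply]
  rfl

/-- componentwise maps commute with the group ring -/
theorem cw_op (f : G →+ G') (m : ℕ) (x : Mq s G) :
    f.compLeft _ (((op r : AddMonoid.End (Mq s G)) ^ m) x) =
      ((op r : AddMonoid.End (Mq s G')) ^ m) (f.compLeft _ x) := by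
  induction m with
  | zero => rfl
  | succ m ih =>
    rw [pow_succ', pow_succ']
    refine Eq.trans (funext fun i => ?_) (congrArg (op r) ih)
    rw [op_ap]
    exact (congrArg f (op_ap r _ i)).trans (by simp only [map_sum, map_zsmul]; rfl)

theorem up_pw (h1 : ∀ x ∈ (Aq : AddSubgroup (Mq s G)), op r x ∈ (Aq : AddSubgroup (Mq s G)))
    (h2 : ∀ x ∈ (Aq : AddSubgroup (Mq s G)), pp • x = vp (op r x)) (m : ℕ) {x : Mq s G}
    (h : x ∈ (Aq : AddSubgroup (Mq s G))) :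
    ((op r : AddMonoid.End (Mq s G)) ^ m) x ∈ (Aq : AddSubgroup (Mq s G)) ∧
      ((vp : AddMonoid.End (Mq s G)) ^ m) (((op r : AddMonoid.End (Mq s G)) ^ m) x) = pp ^ m • x := by
  induction m with
  | zero => exact ⟨h, by rw [pow_zero, pow_zero, pow_zero, one_smul]; rfl⟩
  | succ m ih =>
    rw [pow_succ' (op r), pow_succ vp, pow_succ', mul_smul, ← ih.2, ← map_nsmul, h2 _ ih.1]
    exact ⟨h1 _ ih.1, rfl⟩

/-- the primitive part is divisible -/
theorem dv_pw (hC : CYC) (hG : ∀ y : G, ∃ z, pp • z = y) (m : ℕ) {x : Mq s G}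
    (h : x ∈ (Aq : AddSubgroup (Mq s G))) : ∃ y ∈ (Aq : AddSubgroup (Mq s G)), pp ^ m • y = x := by
  obtain ⟨a, -, c, hc⟩ := hC s
  obtain ⟨-, a2, -, -, a5⟩ := a G
  have k : ∀ n : ℕ, ∀ x ∈ (Aq : AddSubgroup (Mq s G)), ∃ y ∈ (Aq : AddSubgroup (Mq s G)),
      ((vp : AddMonoid.End (Mq s G)) ^ n) y = x := fun n => by
    induction n with
    | zero => exact fun x h => ⟨x, h, rfl⟩
    | succ n ih =>
      intro x h
      obtain ⟨y, p, rfl⟩ := ih x h
      obtain ⟨z, q, rfl⟩ := a5 hG y p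
      exact ⟨z, q, by rw [pow_succ]; rfl⟩
  induction m with
  | zero => exact ⟨x, h, one_smul _ _⟩
  | succ m ih =>
    obtain ⟨y, p, rfl⟩ := ih
    obtain ⟨z, q, rfl⟩ := k ((pp - 1) * pp ^ s) y p
    exact ⟨op c z, a2 c z q, by rw [hc G z q, pow_succ, mul_smul]⟩

end

variable {e : Crv} {b : Fld e} {k : Ch b} {c : ℕ}

theorem op_mem (hA : ACT) (h : 0 < c) (r : Zq k.s → ℤ) (n : ℕ) {x : k.M} (m : x ∈ k.AH c) :
    ((op r : AddMonoid.End k.M) ^ n) x ∈ k.AH c := by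
  induction n with
  | zero => exact m
  | succ n ih => rw [pow_succ']; exact ((hA e b k).2.2.2.2.2.2.2.1 0 c 1 h _ ih).2.2 r

theorem k1_zero {A B : ℤ} (P : Ideal (𝓞 Qb)) : K1 P (0 : Pt A B) := fun _ _ _ h => by cases h

end Kc2

open Kc2 in
/-- **row KC2** -/
theorem kc2 (hC : CYC) (hA : ACT) (r1 : RC1) : KC2 := fun e b k pl M m P C Q t ks hQ => by
  have pt : 0 < pp ^ k.t := pow_pos pp_prime.pos _
  have c0 : 0 < ∏ q ∈ Q, q := Finset.prod_pos fun q h => (hQ q h).pr.pos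
  have nS {l : ℕ} (g : Gd b pl M m l) : l ∉ e.S := fun h =>
    g.out (Finset.mem_union_left _ (List.mem_toFinset.2 h))
  have sq {l : ℕ} (g : Gd b pl M m l) {c : ℕ} (h : 0 < c) : pl.σ l ^ 2 ∈ Hc b.j (pp ^ k.t * c) :=
    sq (pl.σ l) ▸ Es.sq_hc r1 g.ine (mul_pos pt h)
  refine ⟨fun l hl => ?_, fun l hl g nz => ?_⟩
  · obtain ⟨z, z1, z2⟩ := ks.trv Q hQ l hl
    obtain ⟨y, y1, y2⟩ := pp_pw hC hA c0 m (nsmul_mem z1 C)
    obtain ⟨S, hS, -⟩ := Es.ex_K1 e.par.disc (pl.ov l (hQ l hl).pr) fun h => nS (hQ l hl) (h ▸ e.pm)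
    refine ⟨y, y1.1, fun i => ?_, fun i => ?_⟩
    · rw [y1.2 _ (sq (hQ l hl) c0), sub_self]
      exact k1_zero _
    · rw [y2, smul_comm, ← nsmul_sub]
      exact (hS _).1 (nsmul_mem ((hS _).2 (z2 i)) C)
  have hQ' : ∀ q ∈ insert l Q, Gd b pl M m q := Finset.forall_mem_insert .. |>.2 ⟨g, hQ⟩
  have c1 : 0 < ∏ q ∈ insert l Q, q := Finset.prod_pos fun q h => (hQ' q h).pr.pos
  obtain ⟨y, y1, y2⟩ : ∃ y ∈ k.AH (∏ q ∈ insert l Q, q), (k.v ^ m) y = C • P (insert l Q) := by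
    simpa only [Ch.Nz, not_forall, not_not, exists_prop] using nz
  obtain ⟨τ, t1, t2, z, z1, z2, z3⟩ := ks.stp Q l hQ g hl
  obtain ⟨α, hα⟩ := g.d1
  obtain ⟨β, hβ⟩ := g.d2
  obtain ⟨a, ⟨r, hr⟩, -⟩ := hC k.s
  have up := fun {x : k.M} => up_pw r ((a _).2.1 r) (hr _) m (x := x)
  obtain ⟨a1, -, -, -, a5, -, a7, a8, -⟩ := hA e b k
  have p0 := (ks.iv Q hQ).1
  have p1 : P Q ∈ k.AH (∏ q ∈ insert l Q, q) := ⟨p0.1, fun u h => p0.2 u ((r1 _ b.j b.iq _
    (mul_pos pt c0)).2.2.2.2.2 l g.pr.pos (by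
      rwa [Finset.prod_insert hl, mul_comm l, ← mul_assoc] at h))⟩
  have w1 := nsmul_mem (sub_mem (nsmul_mem z1 α) (zsmul_mem p1 β)) C
  have e1 : k.ρ 0 τ y - y = ((op r : AddMonoid.End k.M) ^ m) (C • (α • z - β • P Q)) := by
    refine sub_eq_zero.1 (pw_inj hA c1 t m (sub_mem (sub_mem (a8 0 _ τ c1 y y1).1 y1)
      (op_mem hA c1 r m w1)) ?_)
    rw [map_sub, map_sub, (up w1.1).2, ← (a5 (0 + m) τ t2.1 y).1, pw_rho hA, y2, map_nsmul,
      ← nsmul_sub, z2, hα, hβ]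
    module
  obtain ⟨x, x1, x2⟩ := dv_pw hC (fun y => ((a1 0).1.dv fun _ => y).elim
    fun z q => ⟨z 0, congrFun q 0⟩) m (nsmul_mem p0.1 C)
  obtain ⟨W, _, rd, Fr, d0, d1, d2, d3, d4⟩ := rdk e (nS g) (pl.ov l g.pr)
  have e2 : rd.compLeft _ (k.ρ 0 τ y - y) = 0 := funext fun i => by
    show rd (k.ρ 0 τ y i - y i) = 0
    rw [a7 0 1 one_pos τ (by rwa [mul_one]), map_sub, d2 τ t1, sub_self]
  have e3 : rd.compLeft _ (C • (α • z - β • P Q)) =
      rd.compLeft _ ((l + 1) • (ga (pl.σ l)).compLeft _ x - e.a l • x) := funext fun i => by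
    have u := d0 _ (z3 i)
    have v := congrArg (fun x : k.M => rd (x i)) x2
    have v' := congrArg (fun x : k.M => rd (ga (pl.σ l) (x i))) x2
    show rd (C • (α • z i - β • P Q i)) = rd ((l + 1) • ga (pl.σ l) (x i) - e.a l • x i)
    simp only [Pi.sub_apply, Pi.smul_apply, map_sub, map_nsmul, map_zsmul] at u v v' ⊢
    rw [hα, hβ]
    linear_combination (norm := module) (C * α) • u - α • v' + β • v
  rw [e1, cw_op, e3, ← cw_op, map_sub, map_nsmul, map_zsmul, ← cw_op] at e2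
  have e4 : pp ^ m • (k.ρ 0 (pl.σ l ^ 2) (((op r : AddMonoid.End k.M) ^ m) x) -
      ((op r : AddMonoid.End k.M) ^ m) x) = 0 := by
    rw [nsmul_sub, ← map_nsmul, ← map_nsmul, x2,
      (op_mem hA c0 r m (nsmul_mem p0 C)).2 _ (sq g c0), sub_self]
  refine ⟨_, (up x1).1, fun i => ?_, fun i => ?_⟩
  · have u := congrFun e4 i
    have v := congrFun e2 i
    generalize ((op r : AddMonoid.End k.M) ^ m) x = Z at u v ⊢
    change rd ((l + 1) • ga (pl.σ l) (Z i) - e.a l • Z i) = 0 at v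
    change pp ^ m • (k.ρ 0 (pl.σ l ^ 2) Z i - Z i) = 0 at u
    change K1 _ (k.ρ 0 (pl.σ l ^ 2) Z i - Z i)
    rw [d1 m _ u ?_]
    · exact k1_zero _
    have f := d3 _ (pl.fb l g.pr)
    have u' := congrArg rd u
    have v' := congrArg Fr v
    have w := d4 (rd (Z i))
    rw [a7 0 1 one_pos _ (sq g one_pos), pow_two, P004M.TE.ga_mul] at u' ⊢
    simp only [map_sub, map_nsmul, map_zsmul, map_zero, f] at u' v' ⊢
    rw [hα] at v'
    have hl' : (l : ℤ) = pp ^ m * α - 1 := by rw [eq_sub_iff_add_eq]; exact_mod_cast hα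
    rw [hl'] at w
    linear_combination (norm := module) w - v' + α • u'
  · rw [(up x1).2, x2, sub_self]
    exact k1_zero _

end Vale.Agent.P014Y.Kp
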