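import Vale.Agent.P014Y.Kp.St
import Vale.Agent.P014Y.F.Es.Loc
import Vale.Agent.P014U.Bx.Fg

/-! # P014Y, block Kp: the Kolyvagin points -/

set_option autoImplicit false
set_option linter.all false

noncomputable section

namespace Vale.Agent.P014Y.Kp.Kc1

open NumberField Finset
open scoped Classical
open Vale.Agent.P022 (Qb GQ)
open Vale.Agent.P022.H443 (inP)
open Vale.Agent.P022E.GW (Ov Fb)
open Vale.Agent.P004K (Hc Gen K1 x_rc1 x_rc3)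
open Vale.Agent.P014U
open X4S (Pl)
open P004M.TE (Pt ga ga_mul)
open P004F (sd)
open P014Y.F (Crv Fld)
open Vale.Agent.P004F.Es (ge Op Cm Dd Dm Sy Fr ge_op fx_op Dd_op Dd_rd Dm_empty)
open scoped Vale.Agent.P004F.Es
open Mu

theorem iv_gen {G W : Type} [Group G] [AddCommGroup W] {Γ H : Subgroup G} {T : Finset G}
    (fr : Fr Γ H T fun _ => (1 : ℤ)) {A : AddSubgroup W} {n : ℕ} {p : G → W}
    (hp : ∀ u ∈ Γ, ∀ h ∈ H, ∃ w ∈ A, p (u * h) = p u + n • w) {g : G} (hg : g ∈ Γ) :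
    ∃ y ∈ A, ∑ u ∈ T, p (g * u) - ∑ u ∈ T, p u = n • y := by
  let q := QuotientAddGroup.mk' (A.map (nsmulAddMonoidHom n))
  have := fr.sum (p := fun u => q (p u)) (fun u hu h hh => by
    obtain ⟨w, hw, e⟩ := hp u hu h hh
    rw [e, map_add, add_eq_left]
    exact (QuotientAddGroup.eq_zero_iff _).2 ⟨w, hw, rfl⟩) hg
  rw [← map_sum, ← map_sum, ← sub_eq_zero, ← map_sub] at this
  obtain ⟨w, hw, e⟩ := (QuotientAddGroup.eq_zero_iff _).1 this
  exact ⟨w, hw, e.symm⟩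

variable [Pp]

/-- the coefficients of `eb` -/
def ep {s : ℕ} (j : Zq s) : ℤ :=
  (if j = 0 then 1 else 0) - if j = ((pp ^ s : ℕ) : Zq s) then 1 else 0

theorem eb_apply {s : ℕ} {G : Type} [AddCommGroup G] (y : G) (j : Zq s) :
    (eb y : Mq s G) j = ep j • y := by
  change (Pi.single 0 y : Mq s G) j - (Pi.single ((pp ^ s : ℕ) : Zq s) y : Mq s G) j = _
  rw [ep, sub_smul, Pi.single_apply, Pi.single_apply, ite_smul, ite_smul, one_smul, zero_smul]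

variable {e : Crv} {b : Fld e} (k : Ch b) {T : Finset GQ}

abbrev FE (e : Crv) (H : Subgroup GQ) : AddSubgroup (Pt e.A e.B) := P004F.Es.Fx (Pt e.A e.B) H

variable (T) in
/-- a component of the twisted trace -/
def fo (i : Zq k.s) : AddMonoid.End (Pt e.A e.B) :=
  ∑ u ∈ T, ep (s := k.s) (sd (-b.δ') u * (i - k.χ u)) • ge (Pt e.A e.B) u

variable (T) in
/-- the twisted trace -/
def th : Pt e.A e.B →+ k.M := ∑ u ∈ T, (k.ρ 0 u).comp eb

theorem th_eq (y : Pt e.A e.B) : th k T y = k.tp T y := AddMonoidHom.finset_sum_apply _ _ _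

theorem th_apply (y : Pt e.A e.B) (i : Zq k.s) : th k T y i = fo k T i y := by
  rw [th_eq, Ch.tp, Finset.sum_apply]
  refine (sum_congr rfl fun u _ => ?_).trans (AddMonoidHom.finset_sum_apply _ _ _).symm
  rw [Ch.ρ_apply, pow_zero, one_smul, eb_apply, map_zsmul]
  rfl

theorem fo_op (hT : ∀ u ∈ T, u ∈ b.Γ) (i : Zq k.s) : fo k T i ∈ Op (Pt e.A e.B) b.Γ :=
  sum_mem fun u hu => zsmul_mem (ge_op (hT u hu)) _

theorem hc_le (c : ℕ) : Hc b.j c ≤ b.Γ := inf_le_left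

section

variable (hC : CYC) (hA : ACT)
include hA

theorem rh {g : GQ} (hg : g ∈ Hc b.j (pp ^ k.t)) (x : k.M) (i : Zq k.s) :
    k.ρ 0 g x i = g • x i :=
  (hA e b k).2.2.2.2.2.2.1 0 1 one_pos g (by rwa [mul_one]) x i

theorem rh_eb {g : GQ} (hg : g ∈ Hc b.j (pp ^ k.t)) (y : Pt e.A e.B) :
    k.ρ 0 g (eb y) = eb (g • y) := funext fun i => by
  rw [rh k hA hg, eb_apply, eb_apply, smul_comm]

theorem rh_th (hT : ∀ u ∈ T, u ∈ b.Γ) {N : Subgroup GQ} [N.Normal] (cm : Cm b.Γ N) {g : GQ}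
    (hg : g ∈ Hc b.j (pp ^ k.t)) {y : Pt e.A e.B} (hy : y ∈ FE e N) :
    k.ρ 0 g (th k T y) = th k T (g • y) := funext fun i => by
  rw [rh k hA hg, th_apply, th_apply, cm.op1 (fo_op k hT i) (hc_le _ hg) hy]

include hC

theorem eb_mem {c : ℕ} (hc : 0 < c) {y : Pt e.A e.B} (hy : y ∈ FE e (Hc b.j (pp ^ k.t * c)))
    (u : GQ) : k.ρ 0 u (eb y) ∈ k.AH c := by
  refine ((hA e b k).2.2.2.2.2.2.2.1 0 c u hc _ ⟨((hC k.s).1 _).1 y, fun g hg => funext fun i => ?_⟩).1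
  rw [(hA e b k).2.2.2.2.2.2.1 0 c hc g hg, eb_apply, map_zsmul]
  exact congrArg _ (hy g hg)

theorem th_mem {c : ℕ} (hc : 0 < c) {y : Pt e.A e.B} (hy : y ∈ FE e (Hc b.j (pp ^ k.t * c))) :
    th k T y ∈ k.AH c := th_eq k y ▸ sum_mem fun u _ => eb_mem k hC hA hc hy u

theorem th_iv (hT : b.Tv (pp ^ k.t) T) {c n : ℕ} (hc : 0 < c) {X : Pt e.A e.B}
    (i : P004F.Es.Iv n b.Γ (Hc b.j (pp ^ k.t)) (FE e (Hc b.j (pp ^ k.t * c))) X) {g : GQ}
    (hg : g ∈ b.Γ) : ∃ y ∈ k.AH c, k.ρ 0 g (th k T X) - th k T X = n • y := by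
  have fr : Fr b.Γ (Hc b.j (pp ^ k.t)) T fun _ => (1 : ℤ) :=
    ⟨hc_le _, hT.1, hT.2, fun _ _ _ _ => (one_mul _).symm, fun _ _ => rfl⟩
  have mu := ((hA e b k).1 0).1.mul
  obtain ⟨w, hw, e1⟩ := iv_gen fr (A := k.AH c) (n := n) (p := fun u => k.ρ 0 u (eb X))
    (fun u hu h hh => by
      obtain ⟨w, hw, e1⟩ := i.inv h hh
      exact ⟨_, eb_mem k hC hA hc hw u, by
        rw [mu, rh_eb k hA hh, e1, map_add, map_add, map_nsmul, map_nsmul]⟩) hg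
  refine ⟨w, hw, ?_⟩
  rw [th_eq, Ch.tp, map_sum]
  simpa only [mu] using e1

end

/-! ### the Euler system -/

variable {pl : Pl} {M m : ℕ}

theorem gd_S {l : ℕ} (h : Gd b pl M m l) : l ∉ e.S := fun a =>
  h.out (mem_union_left _ (List.mem_toFinset.2 a))

theorem gd_two {l : ℕ} (h : Gd b pl M m l) : l ≠ 2 := fun a => gd_S h (a ▸ e.two)

theorem gd_pp {l : ℕ} (h : Gd b pl M m l) : l ≠ pp := fun a => gd_S h (a ▸ e.pm)

theorem gd_in {l : ℕ} (h : Gd b pl M m l) : (Ideal.span {(l : 𝓞 b.K)}).IsPrime := by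
  refine Es.tq_inert b (gd_two h) (fun d => h.out (mem_union_right _
    (Nat.mem_primeFactors.2 ⟨h.pr, d, fun z => ?_⟩))) (pl.ov l h.pr) (pl.fb l h.pr) h.ine
  have := b.th
  rw [z, Nat.cast_zero, neg_zero, sq_eq_zero_iff] at this
  simpa [this] using b.im

variable (b pl M m) in
theorem ex_t (l : ℕ) : ∃ t ∈ b.Γ, Gd b pl M m l → t ∈ inP (pl.P l) ∧
    ∀ c, 0 < c → ¬ l ∣ c → Gen b.j c l (l + 1) t := by
  by_cases h : Gd b pl M m l
  · obtain ⟨t, h1, h2⟩ := (x_rc3 _ b.j b.iq b.upm).2 l (l + 1) ⟨h.pr, .inl ⟨gd_in h, rfl⟩⟩ (pl.P l)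
      (pl.ov l h.pr).2.1 (pl.ov l h.pr).2.2
    exact ⟨t, hc_le _ (h2 1 one_pos fun d => h.pr.one_lt.ne' (Nat.dvd_one.1 d)).1, fun _ => ⟨h1, h2⟩⟩
  · exact ⟨1, one_mem _, fun a => absurd a h⟩

variable (pl M m) in
/-- the conductor -/
def cd (Q : Finset ℕ) : ℕ := pp ^ k.t * ∏ q ∈ Q, if Gd b pl M m q then q else 1

theorem cd_pos (Q : Finset ℕ) : 0 < cd k pl M m Q :=
  mul_pos (pow_pos pp_prime.pos _) (prod_pos fun q _ => by
    split_ifs with h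
    exacts [h.pr.pos, one_pos])

theorem cd_eq {Q : Finset ℕ} (hQ : ∀ q ∈ Q, Gd b pl M m q) :
    cd k pl M m Q = pp ^ k.t * ∏ q ∈ Q, q :=
  congrArg _ (prod_congr rfl fun q hq => if_pos (hQ q hq))

theorem cd_empty : cd k pl M m ∅ = pp ^ k.t := mul_one _

theorem cd_insert {Q : Finset ℕ} {l : ℕ} (hl : Gd b pl M m l) (h : l ∉ Q) :
    cd k pl M m (insert l Q) = cd k pl M m Q * l := by
  rw [cd, prod_insert h, if_pos hl, cd]; ring

theorem cd_nd {Q : Finset ℕ} {l : ℕ} (hl : Gd b pl M m l) (h : l ∉ Q) : ¬ l ∣ cd k pl M m Q :=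
  fun d => by
    rcases hl.pr.dvd_mul.1 d with d | d
    · exact gd_pp hl ((Nat.prime_dvd_prime_iff_eq hl.pr pp_prime).1 (hl.pr.dvd_of_dvd_pow d))
    obtain ⟨q, a, d⟩ := (hl.pr.prime.dvd_finset_prod_iff _).1 d
    split_ifs at d with g
    · exact h ((Nat.prime_dvd_prime_iff_eq hl.pr g.pr).1 d ▸ a)
    · exact hl.pr.one_lt.ne' (Nat.dvd_one.1 d)

theorem hc_nrm (Q : Finset ℕ) : (Hc b.j (cd k pl M m Q)).Normal :=
  (x_rc1 _ b.j b.iq _ (cd_pos k Q)).2.2.1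

theorem hc_sub {Q Q' : Finset ℕ} (h : Q ⊆ Q') :
    Hc b.j (cd k pl M m Q') ≤ Hc b.j (cd k pl M m Q) := by
  have : cd k pl M m Q' = cd k pl M m Q * ∏ q ∈ Q' \ Q, if Gd b pl M m q then q else 1 := by
    rw [cd, cd, ← prod_sdiff h]; ring
  exact this ▸ (x_rc1 _ b.j b.iq _ (cd_pos k Q)).2.2.2.2.2 _ (prod_pos fun q _ => by
    split_ifs with h
    exacts [h.pr.pos, one_pos])

variable {Y : ℕ → Pt e.A e.B} {t : ℕ → GQ} (hY : Es b Y M)
  (ht : ∀ l, t l ∈ b.Γ ∧ (Gd b pl M m l → t l ∈ inP (pl.P l) ∧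
    ∀ c, 0 < c → ¬ l ∣ c → Gen b.j c l (l + 1) (t l)))
include hY ht

theorem ine {Q : Finset ℕ} {l : ℕ} (hl : Gd b pl M m l) (h : l ∉ Q) :
    ∑ i ∈ range (l + 1), t l ^ i • Y (cd k pl M m (insert l Q)) = e.a l • Y (cd k pl M m Q) ∧
    ∀ P : Ideal (𝓞 Qb), P.IsPrime → (l : 𝓞 Qb) ∈ P → ∀ φ : GQ,
      (∀ x : 𝓞 Qb, φ • x - x ^ l ∈ P) →
      K1 P (Y (cd k pl M m (insert l Q)) - ga φ (Y (cd k pl M m Q))) := by
  rw [cd_insert k hl h]
  exact (hY.ine _ _ _ _ (cd_pos k Q) hl.pr (fun d => (hl.pr.dvd_mul.1 d).elim (cd_nd k hl h)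
    (e.bad _ hl.pr (gd_S hl)).1) (((ht l).2 hl).2 _ (cd_pos k Q) (cd_nd k hl h))
    (gd_in hl)).imp_right fun a => a hl.mo

theorem sy {Q : Finset ℕ} (hQ : ∀ q ∈ Q, Gd b pl M m q) :
    haveI := hc_nrm k (pl := pl) (M := M) (m := m) Q
    Sy (pp ^ m) b.Γ (Hc b.j (cd k pl M m Q)) Q (fun Q => Hc b.j (cd k pl M m Q)) t
      (fun l => if Gd b pl M m l then l + 1 else 0) (fun l => if Gd b pl M m l then e.a l else 0)
      (FE e (Hc b.j (cd k pl M m Q))) fun Q => Y (cd k pl M m Q) := by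
  haveI := hc_nrm k (pl := pl) (M := M) (m := m) Q
  have gd : ∀ {Q' l}, insert l Q' ⊆ Q → Gd b pl M m l := fun h => hQ _ (h (mem_insert_self _ _))
  have gen := fun Q' l (hl : l ∉ Q') (h : insert l Q' ⊆ Q) =>
    ((ht l).2 (gd h)).2 _ (cd_pos k Q') (cd_nd k (gd h) hl)
  refine ⟨(x_rc1 _ b.j b.iq _ (cd_pos k Q)).2.2.2.1, hc_nrm k, fun _ => hc_sub k, fun l => (ht l).1,
    fun Q' _ => hY.fx _ (cd_pos k Q'), fun Q' l hl h => ?_, fun Q' l hl h => ?_, fun Q' l hl h => ?_,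
    fun g _ _ => P004F.Es.fx_smul g, fun Q' h g hg => hY.fx _ (cd_pos k Q') g (hc_sub k h hg),
    fun l => ?_, fun l => ?_⟩
  · rw [if_pos (gd h), cd_insert k (gd h) hl]
    exact ((gen Q' l hl h).2.1 _).2 dvd_rfl
  · exact cd_insert k (gd h) hl ▸ (gen Q' l hl h).2.2
  · rw [if_pos (gd h), if_pos (gd h)]
    exact (ine k hY ht (gd h) hl).1
  · split_ifs with h
    · exact (cop_two_pow m).mul_dvd_of_dvd_of_dvd
        (h.pr.odd_of_ne_two (gd_two h)).add_one.two_dvd h.d1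
    · exact dvd_zero _
  · split_ifs with h
    · exact_mod_cast h.d2
    · exact dvd_zero _

omit hY ht in
variable (T pl M m Y t) in
/-- the Kolyvagin points -/
def PQ (Q : Finset ℕ) : k.M := th k T (Dm (Pt e.A e.B) t
  (fun l => if Gd b pl M m l then l + 1 else 0) Q (Y (cd k pl M m Q)))

theorem core (hC : CYC) (hA : ACT) (hT : b.Tv (pp ^ k.t) T) :
    PQ k T pl M m Y t ∅ = k.tp T (Y (pp ^ k.t)) ∧ PQ k T pl M m Y t ∅ ∈ P014T.Ki.Fx b.Γ (k.ρ 0) ∧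
    k.Ks pl (Gd b pl M m) m (PQ k T pl M m Y t) := by
  unfold PQ
  let d : ℕ → ℕ := fun l => if Gd b pl M m l then l + 1 else 0
  let D := Dm (Pt e.A e.B) t d
  have pos : ∀ {Q : Finset ℕ}, (∀ q ∈ Q, Gd b pl M m q) → 0 < ∏ q ∈ Q, q :=
    fun h => prod_pos fun q hq => (h q hq).pr.pos
  have mem : ∀ {Q : Finset ℕ} (hQ : ∀ q ∈ Q, Gd b pl M m q) {y},
      y ∈ FE e (Hc b.j (cd k pl M m Q)) → th k T y ∈ k.AH (∏ q ∈ Q, q) :=
    fun hQ y hy => th_mem k hC hA (pos hQ) (cd_eq k hQ ▸ hy)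
  have ker : ∀ l, Gd b pl M m l → ∃ S : AddSubgroup (Pt e.A e.B), (∀ y, y ∈ S ↔ K1 (pl.P l) y) ∧
      ∀ y, QuotientAddGroup.mk' S (t l • y) = QuotientAddGroup.mk' S y := fun l hl => by
    obtain ⟨S, h, -⟩ := Es.ex_K1 e.par.disc (pl.ov l hl.pr) (gd_pp hl)
    refine ⟨S, h, fun y => (QuotientAddGroup.eq_iff_sub_mem).2 ((h _).2 (Bx.k1_in (pl.ov l hl.pr)
      (fun d => ?_) ((ht l).2 hl).1 y))⟩
    rcases (Nat.prime_iff_prime_int.1 hl.pr).dvd_or_dvd d with d | d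
    · exact gd_two hl ((Nat.prime_dvd_prime_iff_eq hl.pr Nat.prime_two).1 (by exact_mod_cast d))
    · exact (e.bad l hl.pr (gd_S hl)).2.1 d
  have e0 : th k T (D ∅ (Y (cd k pl M m ∅))) = th k T (Y (pp ^ k.t)) := by
    rw [Dm_empty, cd_empty]
  refine ⟨e0.trans (th_eq k _), fun g hg => ?_,
    fun Q hQ => ?_, fun Q hQ l hl => ?_, fun Q l hQ hl hlQ => ?_⟩
  · haveI : (Hc b.j (pp ^ k.t * 1)).Normal := hc_nrm k (pl := pl) (M := M) (m := m) ∅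
    have a : Y (pp ^ k.t) ∈ FE e (Hc b.j (pp ^ k.t)) := hY.fx _ (pow_pos pp_prime.pos _)
    obtain ⟨y, -, h⟩ := th_iv k hC hA hT (n := 0) one_pos
      ⟨fun g _ _ => P004F.Es.fx_smul g, by rwa [mul_one], fun h hh =>
        ⟨0, zero_mem _, by rw [a h hh, zero_nsmul, add_zero]⟩⟩ hg
    rw [zero_nsmul, sub_eq_zero] at h
    exact (congrArg (k.ρ 0 g) e0).trans (h.trans e0.symm)
  · haveI := hc_nrm k (pl := pl) (M := M) (m := m) Q
    have s := sy k hY ht hQ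
    have i := s.iv (hc_le _) Subset.rfl
    refine ⟨mem hQ i.mem, fun g hg => th_iv k hC hA hT (pos hQ) ?_ hg⟩
    rw [← cd_eq k hQ]
    exact cd_empty k ▸ i
  · haveI := hc_nrm k (pl := pl) (M := M) (m := m) Q
    have s := sy k hY ht hQ
    obtain ⟨S, h1, h2⟩ := ker l (hQ l hl)
    obtain ⟨c, hc⟩ := Dd_rd h2 (s.dd l)
    have a := s.memA (Q.erase l) Subset.rfl
    refine ⟨_, mem hQ (nsmul_mem a c), fun i => (h1 _).1 ?_⟩
    have a1 := s.ins (notMem_erase l Q) (s.fxN Subset.rfl)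
    rw [insert_erase hl] at a1
    rw [Pi.sub_apply, Pi.smul_apply, th_apply, th_apply, ← QuotientAddGroup.eq_iff_sub_mem]
    change QuotientAddGroup.mk' S _ = QuotientAddGroup.mk' S _
    rw [map_nsmul, map_nsmul (fo k T i), ← hc, ← s.cm.op (fo_op k hT.1 i) (Dd_op (s.tm l) _) a, ← a1]
  · have hQ' : ∀ q ∈ insert l Q, Gd b pl M m q := fun q hq =>
      (mem_insert.1 hq).elim (fun a => a ▸ hl) (hQ q)
    haveI := hc_nrm k (pl := pl) (M := M) (m := m) (insert l Q)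
    have s := sy k hY ht hQ'
    obtain ⟨S, h1, -⟩ := ker l hl
    have τ : t l ∈ Hc b.j (pp ^ k.t) := cd_empty k (pl := pl) (M := M) (m := m) ▸
      (((ht l).2 hl).2 _ (cd_pos k ∅) (cd_nd k hl (notMem_empty l))).1
    refine ⟨t l, ((ht l).2 hl).1, τ, _, mem hQ' (s.memA Q Subset.rfl), ?_, fun i => (h1 _).1 ?_⟩
    · rw [rh_th k hA hT.1 s.cm τ (s.memA _ Subset.rfl), s.tel hlQ Subset.rfl, map_sub, map_add,
        map_nsmul, map_zsmul, if_pos hl, if_pos hl]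
      abel
    · have := s.cm.rel (mul_mem (fo_op k hT.1 i) (s.op Q)) (p := QuotientAddGroup.mk' S)
        (q := (QuotientAddGroup.mk' S).comp (ga (pl.σ l))) (s.fxN Subset.rfl)
        (s.fxN (subset_insert l Q)) (fun u _ => (QuotientAddGroup.eq_iff_sub_mem).2 ((h1 _).2 ?_))
        1 (one_mem _)
      · rw [one_smul, one_smul] at this
        rw [Pi.sub_apply, th_apply, th_apply]
        exact (QuotientAddGroup.eq_iff_sub_mem).1 this
      obtain ⟨-, o1, o2⟩ := pl.ov l hl.pr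
      have := P004F.Es.Rd.k1_ga u ((ine k hY ht hl hlQ).2
        ((pl.P l).comap (MulSemiringAction.toRingHom GQ (𝓞 Qb) u)) (Ideal.comap_isPrime _ _)
        (by rw [Ideal.mem_comap, map_natCast]; exact o2) (u⁻¹ * pl.σ l * u)
        fun x => by simpa [Ideal.mem_comap, mul_smul, smul_sub] using pl.fb l hl.pr (u • x))
      rwa [map_sub, ← ga_mul, ← mul_assoc, ← mul_assoc, mul_inv_cancel, one_mul, ga_mul] at this

end Vale.Agent.P014Y.Kp.Kc1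

namespace Vale.Agent.P014Y.Kp

variable [P014U.Pp]

theorem kc1 (hC : CYC) (hA : ACT) : KC1 := fun e b k pl Y M m T hY hT => by
  choose t ht using Kc1.ex_t b pl M m
  exact ⟨_, Kc1.core k hY ht hC hA hT⟩

end Vale.Agent.P014Y.Kp
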