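import Vale.Agent.P014Y.Kp.St2
import Vale.Agent.P014Y.Kp.Kc1

/-! # P014Y, block Kp: the Kolyvagin points at the bad primes -/

set_option autoImplicit false
set_option linter.all false

noncomputable section

namespace Vale.Agent.P014Y.Kp.Kc3

open NumberField Finset Kc1
open scoped Classical
open Vale.Agent.P022 (Qb GQ)
open Vale.Agent.P022.H443 (inP)
open Vale.Agent.P004K (Hc Gen x_rc1 x_rc3)
open Vale.Agent.P014U
open X4S (Pl)
open P004M.TE (Pt)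
open P014Y.F (Crv Fld)
open Vale.Agent.P004F.Es (ge Op Cm Dd Dm Sy ge_op fx_op Dd_op Dd_apply Dm_empty)
open scoped Vale.Agent.P004F.Es

section

variable {G E κ : Type} [Group G] [AddCommGroup E] [DistribMulAction G E] [DecidableEq κ]
  {Γ N : Subgroup G} [N.Normal] {n : ℕ}

theorem per {f : ℕ → E} {d : ℕ} (h : ∀ i, f (i + d) = f i) (c : ℕ) :
    ∑ i ∈ range d, f (i + c) = ∑ i ∈ range d, f i := by
  induction c with
  | zero => rfl
  | succ c ih =>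
    have := sum_range_succ' (fun i => f (i + c)) d
    rw [sum_range_succ, add_comm d, h, zero_add, add_left_inj] at this
    rw [← ih, this]
    exact sum_congr rfl fun i _ => by rw [add_assoc, add_comm 1]

/-- the derivative is a norm modulo `n` -/
theorem dd_eq {t : G} (ht : t ∈ Γ) {d : ℕ} (hd : n ∣ d) : ∃ f ∈ Op E Γ, ∃ f' ∈ Op E Γ, ∀ y : E,
    Dd E t d y = f y + n • f' y ∧ (t ^ d • y = y → t ^ n • f y = f y) := by
  have ap : ∀ (c : ℕ → ℕ) (y : E), (∑ i ∈ range d, c i • ge E (t ^ i)) y =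
      ∑ i ∈ range d, c i • t ^ i • y := fun c y => AddMonoidHom.finset_sum_apply _ _ _
  have op : ∀ c : ℕ → ℕ, ∑ i ∈ range d, c i • ge E (t ^ i) ∈ Op E Γ :=
    fun c => sum_mem fun i _ => nsmul_mem (ge_op (pow_mem ht i)) _
  refine ⟨_, op (· % n), _, op (· / n), fun y => ⟨?_, fun h => ?_⟩⟩
  · rw [ap, ap, Dd_apply, smul_sum, ← sum_add_distrib]
    exact sum_congr rfl fun i _ => by rw [← mul_nsmul', ← add_nsmul, Nat.mod_add_div]
  · rw [ap, smul_sum, ← per (f := fun i => (i % n) • t ^ i • y) (fun i => by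
      rw [pow_add, mul_smul, h, Nat.add_mod, Nat.mod_eq_zero_of_dvd hd, add_zero, Nat.mod_mod]) n]
    exact sum_congr rfl fun i _ => by
      rw [Nat.add_mod_right, add_comm, pow_add, mul_smul, smul_comm]

theorem dm_eq {M : Finset κ} {Hm : Finset κ → Subgroup G} {t : κ → G} {d : κ → ℕ} {a : κ → ℤ}
    {A : AddSubgroup E} {y : Finset κ → E} (s : Sy n Γ N M Hm t d a A y)
    (h : ∀ i ∈ M, t i ^ d i ∈ N) {x : E} (hx : x ∈ P004F.Es.Fx E N) {m : Finset κ} (hm : m ⊆ M) :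
    ∃ w ∈ P004F.Es.Fx E N, ∃ z ∈ P004F.Es.Fx E N, Dm E t d m x = w + n • z ∧
      ∀ i ∈ m, t i ^ n • w = w := by
  induction m using Finset.induction_on with
  | empty => exact ⟨x, hx, 0, zero_mem _, by rw [Dm_empty, smul_zero, add_zero], by simp⟩
  | insert i m hi ih =>
    obtain ⟨w, hw, z, hz, e, k⟩ := ih ((subset_insert _ _).trans hm)
    obtain ⟨f, hf, f', hf', q⟩ := dd_eq (E := E) (s.tm i) ((dvd_mul_left n 2).trans (s.dd i))
    refine ⟨_, fx_op hf hw, _, add_mem (fx_op hf' hw) (fx_op (Dd_op (s.tm i) (d i)) hz), ?_,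
      fun j hj => (mem_insert.1 hj).elim (fun a => ?_) fun a => ?_⟩
    · rw [s.ins hi hx, e, map_add, map_nsmul, (q w).1, smul_add, add_assoc]
    · exact a ▸ (q w).2 (hw _ (h i (hm (mem_insert_self _ _))))
    · rw [← s.cm.op1 hf (pow_mem (s.tm j) n) hw, k j a]

end

variable [Pp] {e : Crv} {b : Fld e} (k : Ch b) {pl : Pl} {M m : ℕ} {t : ℕ → GQ}
  (ht : ∀ l, t l ∈ b.Γ ∧ (Gd b pl M m l → t l ∈ inP (pl.P l) ∧
    ∀ c, 0 < c → ¬ l ∣ c → Gen b.j c l (l + 1) (t l)))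
include ht

theorem grp {Q : Finset ℕ} (hQ : ∀ q ∈ Q, Gd b pl M m q) {S : Subgroup GQ} {n : ℕ}
    (hS : ∀ q ∈ Q, t q ^ n ∈ S) {g : GQ} (hg : g ∈ Hc b.j (pp ^ k.t))
    (h : ∀ q ∈ Q, ∃ i : ℕ, n ∣ i ∧ g⁻¹ * t q ^ i ∈ Hc b.j q) {Q' : Finset ℕ} (le : Q' ⊆ Q) :
    ∃ x ∈ S, g⁻¹ * x ∈ Hc b.j (cd k pl M m Q') ∧ ∀ q ∈ Q, q ∉ Q' → x ∈ Hc b.j q := by
  induction Q' using Finset.induction_on with
  | empty => exact ⟨1, one_mem _, by
      rw [cd_empty, mul_one]; exact inv_mem hg, fun _ _ _ => one_mem _⟩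
  | insert l Q' hl ih =>
    obtain ⟨x, a1, a2, a3⟩ := ih ((subset_insert _ _).trans le)
    have lQ := le (mem_insert_self _ _)
    have gl := hQ l lQ
    obtain ⟨_, ⟨i, rfl⟩, hi⟩ := h l lQ
    have tm := fun c hc d => pow_mem (((ht l).2 gl).2 c hc d).1 (n * i)
    refine ⟨x * t l ^ (n * i), mul_mem a1 (pow_mul (t l) n i ▸ pow_mem (hS l lQ) i), ?_,
      fun q hq a => mul_mem (a3 q hq fun c => a (mem_insert_of_mem c)) (tm q (hQ q hq).pr.pos fun c =>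
        a ((Nat.prime_dvd_prime_iff_eq gl.pr (hQ q hq).pr).1 c ▸ mem_insert_self _ _))⟩
    rw [cd_insert k gl hl, (x_rc3 _ b.j b.iq b.upm).1 _ _ (cd_pos k Q') gl.pr.pos
      ((Nat.Prime.coprime_iff_not_dvd gl.pr).2 (cd_nd k gl hl)).symm]
    refine ⟨mul_assoc g⁻¹ x _ ▸ mul_mem a2 (tm _ (cd_pos k Q') (cd_nd k gl hl)), ?_⟩
    have := mul_mem ((x_rc1 _ b.j b.iq _ gl.pr.pos).2.2.1.conj_mem' _ (a3 l lQ hl) g) hi
    rwa [mul_assoc, mul_inv_cancel_left, mul_assoc] at this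

end Vale.Agent.P014Y.Kp.Kc3

namespace Vale.Agent.P014Y.Kp

open Finset Kc1 Kc3
open scoped Classical
open Vale.Agent.P022 (GQ)
open Vale.Agent.P004K (x_rc1)
open Vale.Agent.P014U
open scoped Vale.Agent.P004F.Es

variable [Pp]

theorem kc3 (hC : CYC) (hA : ACT) : KC3 := fun e b k pl Y M m T hY hT => by
  choose t ht using ex_t b pl M m
  obtain ⟨a1, -, a2⟩ := core k hY ht hC hA hT
  refine ⟨_, a1, a2, fun Q hQ v hv P o => ?_⟩
  have hQ' : ∀ q ∈ Q, Gd b pl M m q := fun q hq => (hQ q hq).1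
  haveI := hc_nrm k (pl := pl) (M := M) (m := m) Q
  have s := sy k hY ht hQ'
  obtain ⟨w, hw, z, hz, e1, e2⟩ := dm_eq s (fun i hi => by
    have := s.t1 (Q.erase i) i (notMem_erase i Q) (insert_erase hi).subset
    rwa [insert_erase hi] at this) (s.fxN Subset.rfl) Subset.rfl
  refine ⟨th k T z, th_mem k hC hA (prod_pos fun q hq => (hQ' q hq).pr.pos) (cd_eq k hQ' ▸ hz),
    fun g hg => ?_⟩
  obtain ⟨x, b1, b2, -⟩ := grp k ht hQ' (S := MulAction.stabilizer GQ w) e2 hg.2 (fun q hq =>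
    (hQ q hq).2 v hv P o _ (((ht q).2 (hQ' q hq)).2 1 one_pos fun d =>
      (hQ' q hq).pr.one_lt.ne' (Nat.dvd_one.1 d)) g ⟨hg.1, (x_rc1 _ b.j b.iq 1 one_pos).2.2.2.2.2 _
        (pow_pos pp_prime.pos k.t) (by rw [one_mul]; exact hg.2)⟩) Subset.rfl
  have b3 := hw _ b2
  rw [mul_smul, MulAction.mem_stabilizer_iff.1 b1, inv_smul_eq_iff] at b3
  rw [PQ, e1, map_add, map_nsmul, add_sub_cancel_right, rh_th k hA hT.1 s.cm hg.2 hw, ← b3]

end Vale.Agent.P014Y.Kp
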