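import Vale.Agent.P014Y.Kp.St2
import Vale.Agent.P014Y.Mu.Ds0

/-! # P014Y, block Kp: the local condition at the bad primes -/

set_option autoImplicit false
set_option linter.all false

noncomputable section

namespace Vale.Agent.P014Y.Kp

open NumberField
open scoped Classical Pointwise
open Vale.Agent.P022 (Qb GQ GK)
open Vale.Agent.P022D.W (dec)
open Vale.Agent.P022E.GW (Ov Fb)
open Vale.Agent.P004K (Hc RC1)
open Vale.Agent.P014U
open P004M.TE (Pt ga)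
open P014T.Ki (Fx)
open P014Y.F (Crv Fld)

namespace Lk

section

variable {G M : Type} [Group G] [AddCommGroup M] {ρ : G → M →+ M} {D : Subgroup G} {η : G → M}

/-- the zero set of a cocycle -/
def zs (one : ∀ x, ρ 1 x = x) (co : ∀ g ∈ D, ∀ h ∈ D, η (g * h) = η g + ρ g (η h)) :
    Subgroup G where
  carrier := {g | g ∈ D ∧ η g = 0}
  mul_mem' {g h} a b := ⟨mul_mem a.1 b.1, by rw [co g a.1 h b.1, a.2, b.2, map_zero, add_zero]⟩
  one_mem' := ⟨one_mem _, by simpa [one] using co 1 (one_mem _) 1 (one_mem _)⟩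
  inv_mem' {g} a := ⟨inv_mem a.1, by
    have e := co _ (inv_mem a.1) g a.1
    have o : η 1 = 0 := by simpa [one] using co 1 (one_mem _) 1 (one_mem _)
    rwa [inv_mul_cancel, o, a.2, map_zero, add_zero, eq_comm] at e⟩

/-- **corestriction**: a cocycle whose zero set has bounded index is killed by a factorial -/
theorem cor (one : ∀ x, ρ 1 x = x) (co : ∀ g ∈ D, ∀ h ∈ D, η (g * h) = η g + ρ g (η h))
    {B : AddSubgroup M} (hB : ∀ g ∈ D, η g ∈ B) {α : Type} [Finite α] (F : G → α)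
    (hF : ∀ g ∈ D, ∀ g' ∈ D, F g = F g' → η (g⁻¹ * g') = 0) :
    ∃ S ∈ B, ∀ g ∈ D, (Nat.card α).factorial • η g = ρ g S - S := by
  let Z := (zs one co).subgroupOf D
  have inj : Function.Injective fun q : D ⧸ Z => F q.out := fun q q' e => by
    rw [← q.out_eq', ← q'.out_eq']
    exact QuotientGroup.eq.2 ⟨(q.out⁻¹ * q'.out).2, hF _ q.out.2 _ q'.out.2 e⟩
  have := Finite.of_injective _ inj
  have := Fintype.ofFinite (D ⧸ Z)
  obtain ⟨n, hn⟩ := Nat.dvd_factorial (Nat.card_pos (α := D ⧸ Z))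
    (Nat.card_le_card_of_injective _ inj)
  let ξ : D ⧸ Z → M := fun q => Quotient.liftOn' q (fun g => η g) fun g h e => by
    have z : η ((g : G)⁻¹ * h) = 0 := (QuotientGroup.leftRel_apply.1 e).2
    have := co g g.2 _ (g⁻¹ * h).2
    rwa [Subgroup.coe_mul, Subgroup.coe_inv, mul_inv_cancel_left, z, map_zero, add_zero,
      eq_comm] at this
  refine ⟨-(n • ∑ q, ξ q), neg_mem (nsmul_mem (sum_mem fun q _ =>
    Quotient.inductionOn' q fun h => hB h h.2) _), fun g m => ?_⟩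
  have k : ∀ q, ξ ((⟨g, m⟩ : D) • q) = η g + ρ g (ξ q) := fun q =>
    Quotient.inductionOn' q fun h => co g m h h.2
  have s := Equiv.sum_comp (MulAction.toPerm (⟨g, m⟩ : D)) ξ
  simp only [MulAction.toPerm_apply, k, Finset.sum_add_distrib, Finset.sum_const,
    Finset.card_univ, ← map_sum, ← Nat.card_eq_fintype_card] at s
  rw [hn, mul_comm, mul_nsmul', eq_sub_of_add_eq s, map_neg, map_nsmul, nsmul_sub]
  abel

end

variable [Pp]

theorem tf (cyc : CYC) (act : ACT) {e : Crv} {b : Fld e} {k : Ch b} (nt : k.Nt) {c : ℕ}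
    (c0 : 0 < c) (m : ℕ) : ∀ y ∈ k.AH c, pp ^ m • y = 0 → y = 0 := by
  obtain ⟨-, -, -, -, -, -, -, a8, -⟩ := act e b k
  obtain ⟨-, -, r, hr⟩ := cyc k.s
  have v : ∀ n, ∀ y ∈ k.AH c, (k.v ^ n) y = 0 → y = 0 := fun n => by
    induction n with
    | zero => exact fun y _ h => h
    | succ n ih => exact fun y h z => nt c c0 y h (ih _ (a8 0 c 1 c0 y h).2.1 (by
        rwa [pow_succ] at z))
  induction m with
  | zero => exact fun y _ h => by simpa using h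
  | succ m ih =>
    refine fun y h z => ih y h (v ((pp - 1) * pp ^ k.s) _ (nsmul_mem h _) ?_)
    rw [hr _ _ (nsmul_mem h.1 _), ← map_nsmul, ← mul_nsmul', ← pow_succ', z, map_zero]

end Lk

open Lk

variable [Pp]

/-- **row LK2** -/
theorem lk2 (r1 : RC1) (cyc : CYC) (act : ACT) : LK2 := by
  intro e b k nt
  obtain ⟨a1, -, -, -, a5, -, -, a8, -⟩ := act e b k
  have mul := (a1 0).1.mul
  have one := (a1 0).2
  obtain ⟨-, oU, nU, -⟩ := r1 b.K b.j b.iq _ (pow_pos pp_pos k.t)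
  obtain ⟨-, -, -, -, cj, -⟩ := r1 b.K b.j b.iq 1 one_pos
  set U := Hc b.j (pp ^ k.t)
  have fin : Finite (GQ ⧸ U) := Nat.finite_of_card_ne_zero (P022K.G2.Plc.idx oU)
  refine ⟨_, Nat.factorial_ne_zero (Nat.card (GQ ⧸ U)), fun v P c n x o dl c0 hx sl i => ?_⟩
  have tf := tf cyc act nt c0 n
  have cΓ : ∀ g ∈ b.Γ, b.c⁻¹ * g * b.c ∈ b.Γ := fun g h => by
    by_cases m : b.c⁻¹ ∈ b.Γ
    · exact mul_mem (mul_mem m h) (by simpa using inv_mem m)
    · simpa using b.Γ.mul_mem (cj _ m g h).1 (b.Γ.inv_mem h)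
  have sw : ∀ g ∈ b.Γ, ∀ y, k.ρ 0 g (k.ρ i b.c y) = k.ρ i b.c (k.ρ 0 (b.c⁻¹ * g * b.c) y) :=
    fun g h y => by
      rw [← (a5 i g h _).1, ← (a5 i _ (cΓ g h) _).1, ← (a1 i).1.mul, ← (a1 i).1.mul]
      congr 2
      group
  set X := x + k.ρ i b.c x with hX
  have iv : ∀ g ∈ b.Γ, ∃ y ∈ k.AH c, k.ρ 0 g X - X = pp ^ n • y := fun g h => by
    obtain ⟨y, m, q⟩ := hx.2 g h
    obtain ⟨y', m', q'⟩ := hx.2 _ (cΓ g h)
    refine ⟨y + k.ρ i b.c y', add_mem m (a8 i c _ c0 _ m').1, ?_⟩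
    rw [hX, map_add, sw g h, nsmul_add, ← map_nsmul, ← q, ← q', map_sub]
    abel
  obtain ⟨z₁, m₁, f₁⟩ := sl P o
  obtain ⟨z₂, m₂, f₂⟩ := sl _ (Mu.Ds.ov_sm o b.c⁻¹)
  have mz := add_mem m₁ (a8 i c b.c c0 _ m₂).1
  set z := z₁ + k.ρ i b.c z₂ with hz
  have fz : ∀ g ∈ dec P, g ∈ U → k.ρ 0 g X - X = pp ^ n • (k.ρ 0 g z - z) := fun g h u => by
    have p := f₁ g ⟨h, u⟩
    have q := f₂ (b.c⁻¹ * g * b.c) ⟨by
      simpa using Mu.Ds.dec_sm (t := b.c) (P := b.c⁻¹ • P) (by rwa [smul_inv_smul]),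
      by simpa using nU.conj_mem g u b.c⁻¹⟩
    have q' := congrArg (k.ρ i b.c) q
    rw [← sw g (dl h)] at q'
    simp only [hX, hz, map_add, map_sub, map_nsmul, nsmul_add, nsmul_sub] at p q' ⊢
    rw [eq_add_of_sub_eq p, eq_add_of_sub_eq q']
    abel
  choose! ω w1 w2 using iv
  have co : ∀ g ∈ b.Γ, ∀ h ∈ b.Γ, ω (g * h) = ω g + k.ρ 0 g (ω h) := fun g p h q =>
    sub_eq_zero.1 (tf _ (sub_mem (w1 _ (mul_mem p q)) (add_mem (w1 g p)
      (a8 0 c g c0 _ (w1 h q)).1)) (by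
        rw [nsmul_sub, nsmul_add, ← map_nsmul, ← w2 _ (mul_mem p q), ← w2 g p, ← w2 h q, map_sub,
          mul]
        abel))
  have mη : ∀ g ∈ dec P, ω g - (k.ρ 0 g z - z) ∈ k.AH c := fun g p =>
    sub_mem (w1 g (dl p)) (sub_mem (a8 0 c g c0 _ mz).1 mz)
  obtain ⟨S, mS, hS⟩ := cor (D := dec P) (η := fun g => ω g - (k.ρ 0 g z - z)) one
    (fun g p h q => by
      simp only [co g (dl p) h (dl q), mul, map_sub]
      abel) mη (fun g => (g : GQ ⧸ U)) fun g p h q w => by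
      have m := mul_mem (inv_mem p) q
      exact tf _ (mη _ m) (by
        rw [nsmul_sub, ← w2 _ (dl m), fz _ m (QuotientGroup.eq.1 w), sub_self])
  set N := (Nat.card (GQ ⧸ U)).factorial
  refine ⟨N • z + S, (add_mem (nsmul_mem mz _) mS).1, fun g p y m q => ?_⟩
  have e1 : y = N • ω g := sub_eq_zero.1 (tf _ (sub_mem m (nsmul_mem (w1 g (dl p)) _))
    (by rw [nsmul_sub, ← q, smul_comm, ← w2 g (dl p), map_nsmul, nsmul_sub, sub_self]))
  have := hS g p
  simp only [nsmul_sub] at this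
  rw [e1, map_add, map_nsmul, eq_add_of_sub_eq this]
  abel

end Vale.Agent.P014Y.Kp
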