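import Vale.Agent.P014Y.Kp.St

/-! # P014Y, block Kp: the rows ND0, ND -/

set_option autoImplicit false
set_option linter.all false

noncomputable section

namespace Vale.Agent.P014Y.Kp

open Vale.Agent.P014U
open scoped Classical

namespace Nd

/-- infinitely divisible elements of a finitely generated group are torsion -/
theorem krull {E : Type} [AddCommGroup E] {B : AddSubgroup E} (fg : B.FG) {p : ℕ} (hp : 1 < p)
    {x : E} (h : ∀ j : ℕ, ∃ y ∈ B, p ^ j • y = x) : IsOfFinAddOrder x := by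
  have : Module.Finite ℤ B := Module.Finite.iff_addGroup_fg.2 ((AddGroup.fg_iff_addSubgroup_fg B).2 fg)
  obtain ⟨x, hx, rfl⟩ := h 0
  obtain ⟨⟨r, hr⟩, e⟩ := (Ideal.mem_iInf_smul_pow_eq_bot_iff (Ideal.span {(p : ℤ)})
    (⟨p ^ 0 • x, B.nsmul_mem hx _⟩ : B)).1 (Submodule.mem_iInf _ |>.2 fun j => by
      obtain ⟨y, hy, e⟩ := h j
      have := Submodule.smul_mem_smul (N := (⊤ : Submodule ℤ B)) (Ideal.pow_mem_pow
        (Ideal.mem_span_singleton_self (p : ℤ)) j) (Submodule.mem_top (x := (⟨y, hy⟩ : B)))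
      rwa [show ((p : ℤ) ^ j) • (⟨y, hy⟩ : B) = ⟨p ^ 0 • x, B.nsmul_mem hx _⟩ from
        Subtype.ext (Eq.trans (by rw [← natCast_zsmul, Nat.cast_pow]; rfl) e)] at this)
  refine isOfFinAddOrder_iff_zsmul_eq_zero.2 ⟨r - 1, fun k => ?_, ?_⟩
  · rw [sub_eq_zero.1 k, Ideal.mem_span_singleton] at hr
    exact hp.ne' (by exact_mod_cast Int.eq_one_of_dvd_one (Int.natCast_nonneg p) hr)
  · rw [sub_smul, one_smul, sub_eq_zero]
    exact congrArg Subtype.val e

/-- a family of infinite order has a member of infinite order -/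
theorem ex_nt {ι V : Type} [Finite ι] [AddCommGroup V] {x : ι → V} (h : ¬ IsOfFinAddOrder x) :
    ∃ i, ¬ IsOfFinAddOrder (x i) := by
  by_contra! c
  have := Fintype.ofFinite ι
  refine h (isOfFinAddOrder_iff_nsmul_eq_zero.2 ⟨∏ i, addOrderOf (x i),
    Finset.prod_pos fun i _ => (c i).addOrderOf_pos, funext fun i => ?_⟩)
  exact addOrderOf_dvd_iff_nsmul_eq_zero.1 (Finset.dvd_prod_of_mem _ (Finset.mem_univ i))

/-- powers of a topologically nilpotent operator -/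
theorem pw {E : Type} [AddCommGroup E] {B : AddSubgroup E} {v : AddMonoid.End E} {p N : ℕ}
    (h : ∀ y ∈ B, ∃ z ∈ B, (v ^ N) y = p • z) (j : ℕ) {y : E} (m : y ∈ B) :
    ∃ z ∈ B, (v ^ (N * j)) y = p ^ j • z := by
  induction j with
  | zero => exact ⟨y, m, by simp⟩
  | succ j ih =>
    obtain ⟨z, a, e⟩ := ih
    obtain ⟨w, b, f⟩ := h z a
    exact ⟨w, b, by rw [Nat.mul_succ, add_comm, pow_add, AddMonoid.End.coe_mul, Function.comp_apply,
      e, map_nsmul, f, pow_succ, mul_smul]⟩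

end Nd

open Nd

variable [Pp]

/-- **row ND0** -/
theorem nd0 : ND0 := fun A B hD U hU y _ nt => by
  by_contra! c
  exact nt (krull ((AddGroup.fg_iff_addSubgroup_fg _).1 (P014T.Wm.fg hD hU)) one_lt c)

/-- **row ND** -/
theorem nd (cyc : CYC) (act : ACT) : ND := fun e b k x hx nt => by
  obtain ⟨-, -, -, -, -, -, a7, a8, -⟩ := act e b k
  obtain ⟨c, hc⟩ := (cyc k.s).2.2
  obtain ⟨i, hi⟩ := ex_nt nt
  have f : ∀ z ∈ k.AH 1, z i ∈ P014T.Ki.Fx (P004K.Hc b.j (pp ^ k.t * 1)) P004M.TE.ga :=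
    fun z a g m => (a7 0 1 one_pos g m z i).symm.trans (congrFun (a.2 g m) i)
  obtain ⟨n, hn⟩ := nd0 _ _ e.par.disc _ (P004K.Rc.hc_open b.j _) _ (f x hx) hi
  refine ⟨(pp - 1) * pp ^ k.s * n + 1, Nat.succ_pos _, fun y m q => ?_⟩
  obtain ⟨z, a, r⟩ := pw (v := k.v) (fun y m => ⟨_, (a8 0 1 1 one_pos y m).2.2 c, hc _ y m.1⟩) n
    (a8 0 1 1 one_pos y m).2.1
  exact hn _ (f z a) (congrFun (r.symm.trans (by rw [← q, pow_succ]; rfl)) i)

end Vale.Agent.P014Y.Kp
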