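import Vale.Agent.P014Y.Sui0
import Vale.Agent.P014Y.Mu.St1
import Vale.Agent.P014Y.F.Pt.Kd

/-! # P014Y, block KP: no invariants over the ring class fields -/

set_option autoImplicit false
set_option linter.all false

open Matrix
open scoped Classical

noncomputable section

namespace Vale.Agent.P014Y.Kp

open Vale.Agent.P014U
open Vale.Agent.P022 (GQ)
open Vale.Agent.P004F (M2)
open P004K (Hc RC1)
open F (Crv Fld)
open Si (Nl)

namespace Nf

variable {G K : Type} [Group G] [Field K] {a : G →* M2 K}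

theorem two_zero {M : M2 K} {v w : Fin 2 → K} (v0 : v ≠ 0) (k : ∀ t : K, w ≠ t • v)
    (hv : M *ᵥ v = 0) (hw : M *ᵥ w = 0) : M = 0 := by
  have d : v 0 * w 1 - v 1 * w 0 ≠ 0 := fun d => by
    by_cases z : v 0 = 0
    · have z1 : v 1 ≠ 0 := fun e => v0 (by ext i; fin_cases i; exacts [z, e])
      refine k (w 1 / v 1) ?_
      ext i; fin_cases i
      · simpa [z, z1] using d
      · simp [z1]
    · refine k (w 0 / v 0) ?_
      ext i; fin_cases i
      · simp [z]
      · show w 1 = w 0 / v 0 * v 1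
        field_simp
        linear_combination d
  ext i j
  have p := congrFun hv i
  have q := congrFun hw i
  simp only [mulVec, dotProduct, Fin.sum_univ_two, Pi.zero_apply] at p q
  refine mul_right_cancel₀ d ?_
  rw [Matrix.zero_apply, zero_mul]
  fin_cases j
  · show M i 0 * _ = 0
    linear_combination w 1 * p - v 1 * q
  · show M i 1 * _ = 0
    linear_combination v 0 * q - w 0 * p

/-- a normal subgroup with a fixed vector acts trivially -/
theorem triv (I : Nl a) {N : Subgroup G} (hN : N.Normal) {v : Fin 2 → K} (v0 : v ≠ 0)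
    (h : ∀ n ∈ N, a n *ᵥ v = v) {n : G} (hn : n ∈ N) : a n = 1 := by
  obtain ⟨g, k⟩ := I v v0
  refine sub_eq_zero.1 (two_zero v0 k ?_ ?_) <;> rw [sub_mulVec, one_mulVec, sub_eq_zero]
  · exact h n hn
  · conv_rhs => rw [← h _ (hN.conj_mem' n hn g)]
    rw [mulVec_mulVec, mulVec_mulVec, ← map_mul, ← map_mul, ← mul_assoc, ← mul_assoc,
      mul_inv_cancel, one_mul]

/-- the image is not of exponent two -/
theorem not_sq (I : Nl a) : ¬ ∀ g, a g * a g = 1 := fun h => by
  have c : ∀ x y, a x * a y = a y * a x := fun x y => by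
    have := congrArg (fun z => a x * z * a y) (h (x * y))
    simp only [map_mul, ← Matrix.mul_assoc, h x, Matrix.one_mul, Matrix.mul_one] at this
    rw [Matrix.mul_assoc, h y, Matrix.mul_one] at this
    exact this.symm
  obtain ⟨g, k⟩ := I (Pi.single 0 1) (by simp)
  have e : (a g - 1) * (a g + 1) = 0 := by
    rw [Matrix.mul_add, Matrix.sub_mul, h, Matrix.one_mul, Matrix.mul_one, sub_add_sub_cancel,
      sub_self]
  have d := congrArg Matrix.det e
  rw [det_mul, det_zero] at d
  rcases mul_eq_zero.1 d with d | d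
  · refine k 1 ?_
    rw [sub_eq_zero.1 (I.zero (a' := a) d fun x => by
      rw [Matrix.mul_sub, Matrix.sub_mul, c, Matrix.mul_one, Matrix.one_mul]), one_mulVec, one_smul]
  · refine k (-1) ?_
    rw [eq_neg_of_add_eq_zero_left (I.zero (a' := a) d fun x => by
      rw [Matrix.mul_add, Matrix.add_mul, c, Matrix.mul_one, Matrix.one_mul]), neg_mulVec,
      one_mulVec, neg_smul, one_smul]

end Nf

variable [Pp] {e : Crv} (b : Fld e)

/-- a normal subgroup of generalised dihedral type has no invariants -/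
theorem nf_dih (ir : Nl (Mu.rb e)) {N : Subgroup GQ} (hN : N.Normal)
    (h : ∀ g ∉ b.Γ, ∀ s ∈ b.Γ, g * s * g⁻¹ * s ∈ N) : Mu.Nf (Mu.rb e) N := fun v hv => by
  by_contra v0
  obtain ⟨τ, t, k⟩ := b.ex_ker
  have r : ∀ {x y}, e.r x = e.r y → Mu.rb e x = Mu.rb e y := fun j =>
    congrArg (·.map PadicInt.toZMod) j
  have k1 : Mu.rb e τ = 1 := (r (k.trans (map_one _).symm)).trans (map_one _)
  have k2 : Mu.rb e τ⁻¹ = 1 := by
    rw [← Matrix.one_mul (Mu.rb e τ⁻¹), ← k1, ← map_mul, mul_inv_cancel, map_one, k1]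
  refine Nf.not_sq ir fun g => ?_
  obtain ⟨x, m, j⟩ := b.onto g
  have := Nf.triv ir hN v0 hv (h τ t x m)
  rwa [map_mul, map_mul, map_mul, k1, k2, Matrix.one_mul, Matrix.mul_one, r j] at this

theorem hinf_normal (r1 : RC1) : (⨅ c, Hc b.j (c + 1)).Normal :=
  ⟨fun n hn g => Subgroup.mem_iInf.2 fun c => (r1 b.K b.j b.iq (c + 1) c.succ_pos).2.2.1.conj_mem n
    (Subgroup.mem_iInf.1 hn c) g⟩

/-- **no invariants over the union of the ring class fields** -/
theorem nfi (r1 : RC1) (ir : Nl (Mu.rb e)) : Mu.Nf (Mu.rb e) (⨅ c, Hc b.j (c + 1)) :=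
  nf_dih b ir (hinf_normal b r1) fun g hg s hs => Subgroup.mem_iInf.2 fun c =>
    (r1 b.K b.j b.iq (c + 1) c.succ_pos).2.2.2.2.1 g hg s hs

end Vale.Agent.P014Y.Kp
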