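import Vale.Agent.P014Y.Kp.St
import Vale.Agent.P014U.Mu.Sah
import Vale.Agent.P014Y.Kp.Nfi

/-! # P014Y, block Kp: no torsion over the ring class fields -/

set_option autoImplicit false
set_option linter.all false

open Matrix

noncomputable section

namespace Vale.Agent.P014Y.Kp

open Vale.Agent.P014U
open P004K (x_rc1)

variable [Pp]

/-- **no torsion** (the text of the row `NT`) -/
theorem nt (act : ACT) :
    ∀ (e : F.Crv) (b : F.Fld e) (k : Ch b), P014U.Mu.Sa.Irr (Mu.rb e) → k.Nt :=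
  fun e b k ir c c0 x hx hv => by
  obtain ⟨-, -, -, -, -, -, -, -, em, inj, ker, -⟩ := act e b k
  obtain ⟨v, rfl⟩ := (ker x).1 ⟨hx.1, hv⟩
  have r := x_rc1 b.K b.j b.iq (pp ^ k.t * c) (Nat.mul_pos (pow_pos Pp.prime.pos _) c0)
  rw [nf_dih b ir r.2.2.1 r.2.2.2.2.1 v fun g m => inj ?_, map_zero]
  have := em 0 g v
  rw [aa, if_pos Even.zero] at this
  exact this.symm.trans (hx.2 g m)

end Vale.Agent.P014Y.Kp
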