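import Vale.Agent.P014Y.Kp.Glu
import Vale.Agent.P014Y.Kp.Cyc
import Vale.Agent.P014Y.Kp.Act
import Vale.Agent.P014Y.Kp.Fou
import Vale.Agent.P014Y.Kp.Nt
import Vale.Agent.P014Y.Kp.Chb3
import Vale.Agent.P014Y.Kp.Nd
import Vale.Agent.P014Y.Kp.Kc3
import Vale.Agent.P014Y.Kp.Kc2
import Vale.Agent.P014Y.Kp.Lk2
import Vale.Agent.P014Y.Kp.Cl1
import Vale.Agent.P014Y.Kp.Cl2
import Vale.Agent.P014Y.Kp.Cl3
import Vale.Agent.P014Y.Kp.Cl4
import Vale.Agent.P014Y.Kp.Isd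
import Vale.Agent.P014Y.Wp.Chi
import Vale.Agent.P014Y.Sui

/-! # P014Y, block Kp: parity from Heegner points of conductor a power of the prime -/

set_option autoImplicit false
set_option linter.all false

namespace Vale.Agent.P014Y.Kp

open Vale.Agent.P014U Vale.Agent.P004K

theorem act0 [Pp] : ACT := act cyc Mu.rse

theorem pa3 [Pp] : PA3 := pa3_of (fou x_rc1 Mu.rse Wp.chi) (nt act0) chb2 (nd cyc act0) (kc3 cyc act0) (kc2 cyc act0 x_rc1)
  (lk2 x_rc1 cyc act0) (cl1 cyc act0) (cl2 x_rc2 act0 Mu.rse) (cl3b cyc act0 Mu.rse)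
  (cl4 x_rc1 cyc act0) fun _ _ k _ _ o le => isi Mu.rse k o le

/-- **the export** -/
theorem pa2_all : Top.PA2 := fun e b ir pl _ =>
  pa3 e b pl ir (Top.img e ir).1.1 ((Top.img e ir).2 b)

end Vale.Agent.P014Y.Kp
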