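import Vale.Agent.P014Y.Kp.Stp0

/-! # P014Y, block Kp: the induction on the two ranks (helper87) -/

set_option autoImplicit false
set_option linter.all false

noncomputable section

namespace Vale.Agent.P014Y.Kp

open NumberField Matrix Module
open scoped Classical
open Vale.Agent.P022 (Qb GQ)
open Vale.Agent.P022D.W (dec)
open Vale.Agent.P014U
open L2 (W M2 cu BB)
open X4S (Pl)
open Mu

variable [Pp]

/-- enough primes for two modules -/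
def Sq2 (a a' : GQ →* M2) (pl : Pl) (G : ℕ → Prop) : Prop :=
  ∀ T : Finset ℕ, ∀ z ∈ Zg a T, ∀ z' ∈ Zg a' T, ∃ q ∉ T, G q ∧
    (z ∉ Bl a ⊤ → z ∉ Vs a (pl.σ q)) ∧ (z' ∉ Bl a' ⊤ → z' ∉ Vs a' (pl.σ q))

variable {a a' : GQ →* M2} {pl : Pl} {S S' Q : Finset ℕ} {q : ℕ} {L : ℕ → Submodule F X} {z : X}

theorem ex_nb (r : Rs a S) (pl : Pl) : ∃ T, ∃ z ∈ Zg a T, z ∉ Bl a ⊤ := by
  obtain ⟨T, -, r', b⟩ := big a pl S r
  refine ⟨T, SetLike.not_le_iff_exists.1 fun c => ?_⟩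
  have := Lo.zg_fin r'
  have : Module.Finite F (sl (Zg a T) T fun l => Bl a (dec (pl.P l))) :=
    Submodule.finiteDimensional_of_le inf_le_left
  have k : finrank F (Zg a T) ≤ finrank F (sl (Zg a T) T fun l => Bl a (dec (pl.P l))) :=
    Submodule.finrank_mono fun x m => Li.mem_sl.2 ⟨m, fun l _ => Ul.bl_mono le_top (c m)⟩
  omega

theorem sq2_of (r : Rs a S) (r' : Rs a' S) {G : ℕ → Prop} (sp : Sp ![a, a'] pl G) :
    Sq2 a a' pl G := fun T z hz z' hz' => by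
  obtain ⟨T₀, x, hx, nx⟩ := ex_nb r pl
  obtain ⟨T₁, y, hy, ny⟩ := ex_nb r' pl
  have s0 : T ⊆ T ∪ (T₀ ∪ T₁) := Finset.subset_union_left
  obtain ⟨q, n, g, k⟩ := sp ![if z ∈ Bl a ⊤ then x else z, if z' ∈ Bl a' ⊤ then y else z']
    (T ∪ (T₀ ∪ T₁)) (Fin.forall_fin_two.2 ⟨by
      show _ ∈ Zg a _ ∧ _ ∉ Bl a ⊤
      simp only [Matrix.cons_val_zero]
      split_ifs with c
      exacts [⟨Gw.zg_mono (by intro; simp +contextual) hx, nx⟩, ⟨Gw.zg_mono s0 hz, c⟩], by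
      show _ ∈ Zg a' _ ∧ _ ∉ Bl a' ⊤
      simp only [Matrix.cons_val_one, Matrix.cons_val_zero]
      split_ifs with c
      exacts [⟨Gw.zg_mono (by intro; simp +contextual) hy, ny⟩, ⟨Gw.zg_mono s0 hz', c⟩]⟩)
  exact ⟨q, fun m => n (s0 m), g, fun c => by simpa [c] using k 0, fun c => by simpa [c] using k 1⟩

theorem pick {A B : Submodule F X} (h : z ∈ A) : ∃ w ∈ A, (z ∉ B → w = z) ∧ (w ∈ B → A ≤ B) := by
  by_cases c : A ≤ B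
  · exact ⟨z, h, fun _ => rfl, fun _ => c⟩
  by_cases e : z ∈ B
  · obtain ⟨w, m, n⟩ := SetLike.not_le_iff_exists.1 c
    exact ⟨w, m, fun x => (x e).elim, fun x => (n x).elim⟩
  · exact ⟨z, h, fun _ => rfl, fun x => (e x).elim⟩

/-- the change of the rank -/
theorem chg (r : Rs a S') (hS : S ⊆ S') (pm : pp ∈ S) (n : Nf a ⊤)
    (hL : ∀ l ∈ S, Ot a (dec (pl.P l)) (L l) = L l) (u : ∀ x ∈ Q, Iq a pl S' x)
    (uq : Iq a pl S' q) (nq : q ∉ Q) (hz : z ∈ Se a pl S S' Q L)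
    (h1 : z ∈ Bl a ⊤ → Se a pl S S' Q L ≤ Bl a ⊤) (h2 : z ∉ Bl a ⊤ → z ∉ Vs a (pl.σ q)) :
    z ∈ Bl a ⊤ ∧ finrank F (Se a pl S S' Q L) = 2 ∧ finrank F (Se a pl S S' (insert q Q) L) = 3 ∨
    z ∉ Bl a ⊤ ∧ 2 < finrank F (Se a pl S S' Q L) ∧
      finrank F (Se a pl S S' (insert q Q) L) + 1 = finrank F (Se a pl S S' Q L) := by
  have b := bl_se r hL u
  have d : finrank F (Bl a ⊤) = 2 := (Fin0.dim_bl n).trans (Module.finrank_fin_fun _)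
  have := se_fin (pl := pl) (S := S) (L := L) r fun x m => (u x m).pr
  obtain ⟨s1, s2⟩ := stp0 r hS pm hL u uq nq
  by_cases c : z ∈ Bl a ⊤
  · have e : finrank F (Se a pl S S' Q L) = 2 := by rw [le_antisymm (h1 c) b, d]
    exact .inl ⟨c, e, by rw [(s2 ((h1 c).trans (Kil.bl_vs a _))).2, e]⟩
  · exact .inr ⟨c, d.ge.trans_lt (Submodule.finrank_lt_finrank_of_lt
      (lt_of_le_of_ne b fun e => c (e.ge hz))), (s1 fun x => h2 c (x hz)).2⟩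

/-- **the induction** -/
theorem ind0 (r : Rs a S') (r' : Rs a' S') (hS : S ⊆ S') (pm : pp ∈ S) (n : Nf a ⊤) (n' : Nf a' ⊤)
    (hL : ∀ l ∈ S, Ot a (dec (pl.P l)) (L l) = L l)
    (hL' : ∀ l ∈ S, Ot a' (dec (pl.P l)) (L l) = L l) {G : ℕ → Prop} {NZ : Finset ℕ → Prop}
    (hG : ∀ q, G q → Iq a pl S' q ∧ Iq a' pl S' q) (sp : Sq2 a a' pl G)
    (H : ∀ Q : Finset ℕ, (∀ q ∈ Q, G q) → NZ Q → ∃ z ∈ Se a pl S S' Q L, ∃ z' ∈ Se a' pl S S' Q L,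
      (z ∉ Bl a ⊤ ∨ z' ∉ Bl a' ⊤) ∧ ∀ q ∉ Q, G q → z ∉ Vs a (pl.σ q) ∨ z' ∉ Vs a' (pl.σ q) →
        NZ (insert q Q)) (h0 : NZ ∅) :
    Odd (finrank F (Sf a pl S S' L) + finrank F (Sf a' pl S S' L)) := by
  have key : ∀ (k : ℕ) (Q : Finset ℕ), (∀ q ∈ Q, G q) → NZ Q → finrank F (Se a pl S S' Q L) < k →
      finrank F (Se a' pl S S' Q L) < k →
      (finrank F (Se a pl S S' Q L) + finrank F (Se a' pl S S' Q L)) % 2 = 1 := by
    intro k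
    induction k with
    | zero => intro Q _ _ h; omega
    | succ k ih =>
      intro Q g nz h h'
      obtain ⟨z, hz, z', hz', ne, st⟩ := H Q g nz
      obtain ⟨w, hw, w1, w2⟩ := pick (B := Bl a ⊤) hz
      obtain ⟨w', hw', w1', w2'⟩ := pick (B := Bl a' ⊤) hz'
      obtain ⟨q, nq, gq, v, v'⟩ := sp _ w (se_zg hw) w' (se_zg hw')
      have nq' : q ∉ Q := fun m => nq (Finset.mem_union_right _ m)
      have c := chg r hS pm n hL (fun x m => (hG x (g x m)).1) (hG q gq).1 nq' hw w2 v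
      have c' := chg r' hS pm n' hL' (fun x m => (hG x (g x m)).2) (hG q gq).2 nq' hw' w2' v'
      have i := ih (insert q Q) (Finset.forall_mem_insert _ _ _ |>.2 ⟨gq, g⟩) (st q nq' gq
        (ne.imp (fun x => w1 x ▸ v (w1 x ▸ x)) fun x => w1' x ▸ v' (w1' x ▸ x)))
      have ne' : w ∉ Bl a ⊤ ∨ w' ∉ Bl a' ⊤ := ne.imp (fun x => w1 x ▸ x) fun x => w1' x ▸ x
      rcases c with c | c <;> rcases c' with c' | c'
      · exact (ne'.elim (· c.1) (· c'.1) : False).elim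
      all_goals omega
  rw [← se_empty, ← se_empty, Nat.odd_iff]
  exact key _ ∅ (by simp) h0 (Nat.lt_succ_of_le (Nat.le_add_right _ _))
    (Nat.lt_succ_of_le (Nat.le_add_left _ _))

/-- **the parity input** from an isotropic family -/
theorem pa0 (r : Rs a S') (r' : Rs a' S') (hS : S ⊆ S') (pm : pp ∈ S) (n : Nf a ⊤) (n' : Nf a' ⊤)
    (e : ∀ l ∈ S, ∀ g ∈ dec (pl.P l), a' g = a g) (I : ℕ → Set X)
    (c : ∀ l ∈ S, ∀ x ∈ I l, x ∈ Cl a (dec (pl.P l)))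
    (i : ∀ l ∈ S, ∀ x ∈ I l, ∀ y ∈ I l, cu a x y ∈ BB a (dec (pl.P l)))
    {G : ℕ → Prop} {NZ : Finset ℕ → Prop}
    (hG : ∀ q, G q → Iq a pl S' q ∧ Iq a' pl S' q) (sp : Sq2 a a' pl G)
    (H : ∀ Q : Finset ℕ, (∀ q ∈ Q, G q) → NZ Q → ∃ z ∈ Zg a (S' ∪ Q), ∃ z' ∈ Zg a' (S' ∪ Q),
      (∀ l ∈ S, z ∈ I l ∧ z' ∈ I l) ∧
      (∀ l ∈ S', l ∉ S → z ∈ Ur a (pl.P l) ∧ z' ∈ Ur a' (pl.P l)) ∧
      (∀ q ∈ Q, z ∈ Vs a (pl.σ q) ∧ z' ∈ Vs a' (pl.σ q)) ∧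
      (z ∉ Bl a ⊤ ∨ z' ∉ Bl a' ⊤) ∧ ∀ q ∉ Q, G q → z ∉ Vs a (pl.σ q) ∨ z' ∉ Vs a' (pl.σ q) →
        NZ (insert q Q)) (h0 : NZ ∅) : Pa a a' pl S S' := by
  choose! L h1 h2 using fun l (m : l ∈ S) => lag0 r (r.pr l (hS m)) (I l) (c l m) (i l m)
  refine ⟨L, h2, ind0 r r' hS pm n n' h2 (fun l m => (Fin0.ot_eq (e l m) _).trans (h2 l m)) hG sp
    (fun Q g nz => ?_) h0⟩
  obtain ⟨z, hz, z', hz', k1, k2, k3, k4⟩ := H Q g nz
  have o := fun q m => (hG q (g q m)).1.out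
  exact ⟨z, (mem_se hS o).2 ⟨hz, fun l m => h1 l m z (k1 l m).1, fun l m x => (k2 l m x).1,
    fun q m => (k3 q m).1⟩, z', (mem_se hS o).2 ⟨hz', fun l m => h1 l m z' (k1 l m).2,
    fun l m x => (k2 l m x).2, fun q m => (k3 q m).2⟩, k4⟩

end Vale.Agent.P014Y.Kp
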