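import Vale.Agent.P014Y.Kp.St
import Vale.Agent.P014Y.Kp.Ind0
import Vale.Agent.P014U.Mu.Sah

/-! # P014Y, block Kp: Kolyvagin primes at which the bad primes split (words and rows) -/

set_option autoImplicit false
set_option linter.all false

noncomputable section

namespace Vale.Agent.P014Y.Kp

open NumberField Matrix Module
open scoped Classical
open Vale.Agent.P022 (Qb GQ)
open Vale.Agent.P022D.W (dec)
open Vale.Agent.P022E.GW (Ov)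
open Vale.Agent.P004K (Hc Gen)
open Vale.Agent.P014U
open X4S (Pl)
open P014T.Ki (Fx)
open P014Y.F (Crv Fld)
open P014U.Mu.Sa (Irr)
open P014Y.Mu

variable [Pp] {e : Crv} {b : Fld e}

/-- the bad primes split in the layer of degree `pp ^ m` and conductor `l` -/
def Sv (b : Fld e) (m l : ℕ) : Prop := ∀ v ∈ e.S, ∀ P, Ov v P → ∀ t, Gen b.j 1 l (l + 1) t →
  ∀ g ∈ dec P ⊓ Hc b.j 1, ∃ i : ℕ, pp ^ m ∣ i ∧ g⁻¹ * t ^ i ∈ Hc b.j l

/-- the primes of the induction -/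
def Gs (b : Fld e) (pl : Pl) (M m l : ℕ) : Prop := Gd b pl M m l ∧ Sv b m l

/-- fixed by `D` modulo `pp ^ m` -/
def Ch.Sl (k : Ch b) (D : Subgroup GQ) (c m : ℕ) (x : k.M) : Prop :=
  ∃ z ∈ k.AH c, x - pp ^ m • z ∈ Fx D (k.ρ 0)

/-- no torsion over the ring class fields -/
def NT : Prop := ∀ (e : Crv) (b : Fld e) (k : Ch b), Irr (rb e) → k.Nt

/-- **Kolyvagin primes** -/
def CHB2 : Prop := ∀ (e : Crv) (b : Fld e) (pl : Pl) (M m : ℕ), Irr (rb e) →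
  (∃ g, rb e g = -1) → 0 < M → 0 < m → Sq2 (rb e) (tw (-b.δ') (rb e)) pl (Gs b pl M m) ∧
    ∀ l, Gd b pl M m l → Iq (rb e) pl (Sd b) l ∧ Iq (tw (-b.δ') (rb e)) pl (Sd b) l

/-- **the Kolyvagin points**, with the local clause -/
def KC3 : Prop := ∀ (e : Crv) (b : Fld e) (k : Ch b) (pl : Pl) Y M m T, Es b Y M →
  b.Tv (pp ^ k.t) T → ∃ P, P ∅ = k.tp T (Y (pp ^ k.t)) ∧ k.Ks pl (Gd b pl M m) m P ∧
    ∀ Q : Finset ℕ, (∀ q ∈ Q, Gs b pl M m q) → ∀ v ∈ e.S, ∀ P', Ov v P' →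
      k.Sl (dec P' ⊓ Hc b.j (pp ^ k.t)) (∏ q ∈ Q, q) m (P Q)

/-- **the local condition at the bad primes** -/
def LK2 : Prop := ∀ (e : Crv) (b : Fld e) (k : Ch b), k.Nt → ∃ C : ℕ, C ≠ 0 ∧
  ∀ v P c n x, Ov v P → dec P ≤ b.Γ → 0 < c → k.Iv c n x →
    (∀ P', Ov v P' → k.Sl (dec P' ⊓ Hc b.j (pp ^ k.t)) c n x) →
    ∀ i, k.Lt (dec P) c n (C • (x + k.ρ i b.c x))

/-- it comes from a local point -/
def CL3B : Prop := ∀ (e : Crv) (b : Fld e) (k : Ch b) c n x ν d (C : ℕ) (D : Subgroup GQ), k.Nt →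
  0 < c → k.Iv c n x → k.Dc c n (C • x) ν d → D ≤ b.Γ →
  (∀ i, k.Lt D c n (C • (x + k.ρ i b.c x))) → d ∈ k.Ip D

/-- isotropy -/
def ISI : Prop := ∀ (e : Crv) (b : Fld e) (k : Ch b) l P, Ov l P → dec P ≤ b.Γ →
  ∀ x ∈ k.Ip (dec P), ∀ y ∈ k.Ip (dec P), L2.cu (rb e) x y ∈ L2.BB (rb e) (dec P)

/-- **the export** -/
def PA3 : Prop := ∀ (e : Crv) (b : Fld e) (pl : Pl), Irr (rb e) → (∃ g, rb e g = -1) →
  Nf (rb e) b.Γ → Pa (rb e) (tw (-b.δ') (rb e)) pl e.S.toFinset (Sd b)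

end Vale.Agent.P014Y.Kp
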