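import Vale.Agent.P014Y.Mu.Cv1

/-! # P014Y, block KP: primes with a Frobenius element in a given coset -/

set_option autoImplicit false
set_option linter.all false

noncomputable section

namespace Vale.Agent.P014Y.Kp.Cb

open NumberField Matrix
open Vale.Agent.P022 (Qb GQ)
open Vale.Agent.P022E.GW (Ov Fb)
open Vale.Agent.P022K.G2 (In Lv)
open Vale.Agent.P014U
open L2 (W M2)
open X4S (Pl)
open P014U.Mu.Sa (Z1 B1 Irr)
open P014Y.Mu P014Y.Mu.Cv

variable [Pp]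

/-- a value which is not the value of a coboundary -/
theorem ex_out {A : M2} (h : (A - 1).det = 0) : ∃ y, ∀ v, A *ᵥ v - v ≠ y := by
  by_contra! k
  refine (isUnit_iff_isUnit_det _).1 (mulVec_surjective_iff_isUnit.1 fun y => (k y).imp fun v e => ?_)
    |>.ne_zero h
  rw [sub_mulVec, one_mulVec, e]

/-- **the supply of primes** -/
theorem supply {ι : Type} [Finite ι] {a : ι → GQ →* M2} (pl : Pl) {S E : Finset ℕ}
    (h : ∀ i, Rs (a i) S) (ir : ∀ i, Irr (a i))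
    (df : ∀ i j, i ≠ j → ∃ g, (a i g).trace ≠ (a j g).trace) {U : Subgroup GQ} (nU : U.Normal)
    (oU : IsOpen (U : Set GQ)) (iU : In E ⊆ U) {c : GQ} (hc : c ∈ U) (ec : ∀ i, a i c = -1) {u : GQ}
    (uu : ∀ i, (a i u - 1).det = 0) : Sp a pl fun q => q.Prime ∧ q ∉ E ∧ q ∉ S ∧
      ∃ s, ∃ w ∈ U, (∀ i, a i w = 1) ∧ pl.σ q = s * (u * w) * s⁻¹ := by
  classical
  intro z T hz
  have co i : Z1 (a i) (z i) := fun g g' => (hz i).1.1 g trivial g' trivial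
  have t := sep pp_ne_two co (fun i ⟨v, e⟩ => (hz i).2 ⟨v, fun g _ => e g⟩) ir (fun i j n =>
    (df i j n).imp fun g e => ⟨(congrFun (h i).det g).trans (congrFun (h j).det g).symm, e⟩)
    nU hc ec
  choose y hy using fun i => ex_out (uu i)
  obtain ⟨g, gU, g1, gz⟩ := coset co t u y
  choose V lV hV using fun i => (hz i).1.2.2
  have oV : IsOpen ((⨅ i, (a i).ker ⊓ V i : Subgroup GQ) : Set GQ) := by
    rw [Subgroup.coe_iInf]
    exact isOpen_iInter_of_finite fun i => (h i).opn.inter (lV i).opn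
  obtain ⟨q, hq, qT, v, ⟨b1, b3⟩, fr⟩ := ex_fr (O := U ⊓ ⨅ i, (a i).ker ⊓ V i) (oU.inter oV)
    (u * g) (E ∪ S ∪ T)
  simp only [Finset.mem_union, not_or] at qT
  obtain ⟨⟨qE, qS⟩, qT⟩ := qT
  have b4 := Subgroup.mem_iInf.1 b3
  have ov := pl.ov q hq
  obtain ⟨x, s, hs, e⟩ := P004R.Wr.fb_cj ov (pl.fb q hq) fr
  have iE : s ∈ U := iU ⟨q, qE, _, ov, hs⟩
  have iS i : a i s = 1 := (h i).unr s ⟨q, qS, _, ov, hs⟩
  have e2 : pl.σ q = x⁻¹ * (u * (g * v * ((u * g * v)⁻¹ * (x * s⁻¹ * x⁻¹) *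
      (u * g * v)))) * x⁻¹⁻¹ := by
    rw [← mul_inv_cancel_left s⁻¹ (pl.σ q), inv_inv, show s * pl.σ q = x⁻¹ * (u * g * v) * x by
      rw [e]; group]
    group
  have av i : a i v = 1 := (b4 i).1
  have si i : a i s⁻¹ = 1 := (a i).mem_ker.1 (inv_mem (iS i))
  have wU := nU.conj_mem' _ (nU.conj_mem _ (inv_mem iE) x) (u * g * v)
  have wa i : a i ((u * g * v)⁻¹ * (x * s⁻¹ * x⁻¹) * (u * g * v)) = 1 :=
    (a i).normal_ker.conj_mem' _ ((a i).normal_ker.conj_mem _ (si i) x) _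
  refine ⟨q, qT, ⟨hq, qE, qS, x⁻¹, _, mul_mem (mul_mem gU b1) wU,
    fun i => by rw [map_mul, wa, map_mul, g1, av]; simp, e2⟩, fun i c => ?_⟩
  obtain ⟨w, c⟩ := (mem_Vs _).1 c
  obtain ⟨w', c'⟩ := cj_val (co i) (g := u * g * v) (s := x⁻¹) ⟨w, by
    rw [e, show x⁻¹ * (x * (s * pl.σ q) * x⁻¹) * x⁻¹⁻¹ = s * pl.σ q by group, co, map_mul, iS,
      one_mul, one_mulVec, hV i s trivial ((lV i).sub ⟨q, qT, _, ov, hs⟩), zero_add, c]⟩
  refine hy i w' ?_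
  rwa [co, gz, hV i v trivial (b4 i).2, map_mul, map_mul, av, g1, mul_one,
    mul_one, mulVec_zero, add_zero] at c'

end Vale.Agent.P014Y.Kp.Cb
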