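import Vale.Agent.P014Y.Kp.Cb0
import Vale.Agent.P014Y.Mu.Rse
import Vale.Agent.P014Y.F.Es.Loc
import Vale.Agent.P014U.Pg.Bas

/-! # P014Y, block KP: the element minus one and the inert primes of a curve -/

set_option autoImplicit false
set_option linter.all false

noncomputable section

namespace Vale.Agent.P014Y.Kp.Cb

open NumberField Matrix Polynomial
open Vale.Agent.P022 (Qb GQ)
open Vale.Agent.P022E.GW (Ov Fb)
open Vale.Agent.P022K.G2 (In Lv)
open Vale.Agent.P014U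
open L2 (W M2)
open X4S (Pl)
open P014U.Mu.Sa (Irr)
open P014Y.F (Crv Fld)
open P004S (nu)
open P014Y.Mu
open PadicInt (toZModPow toZMod)

variable [Pp] {e : Crv}

variable (e) in
/-- the representation modulo `pp ^ m` -/
def rm (m : ℕ) : GQ →* Matrix (Fin 2) (Fin 2) (ZMod (pp ^ m)) :=
  (toZModPow m).mapMatrix.toMonoidHom.comp e.r

theorem rm_one {m : ℕ} {g : GQ} : rm e m g = 1 ↔ ∀ i j, (pp : ℤ_[pp]) ^ m ∣ (e.r g - 1) i j :=
  Pg.mem_Kr

theorem rm_neg {m : ℕ} {g : GQ} : rm e m g = -1 ↔ ∀ i j, (pp : ℤ_[pp]) ^ m ∣ (e.r g + 1) i j := by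
  rw [← add_eq_zero_iff_eq_neg, ← map_one (toZModPow m).mapMatrix]
  refine (Iff.of_eq (congrArg (· = 0) (map_add (toZModPow m).mapMatrix (e.r g) 1).symm)).trans ?_
  rw [← Matrix.ext_iff]
  exact forall₂_congr fun i j => Pg.dvd_iff.symm

theorem dv {x : ℤ_[pp]} : (pp : ℤ_[pp]) ∣ x ↔ toZMod x = 0 := by
  rw [← Ideal.mem_span_singleton, ← PadicInt.maximalIdeal_eq_span_p, ← PadicInt.ker_toZMod,
    RingHom.mem_ker]

theorem rb_neg {g : GQ} : rb e g = -1 ↔ ∀ i j, (pp : ℤ_[pp]) ∣ (e.r g + 1) i j := by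
  rw [← add_eq_zero_iff_eq_neg, ← map_one toZMod.mapMatrix]
  refine (Iff.of_eq (congrArg (· = 0) (map_add toZMod.mapMatrix (e.r g) 1).symm)).trans ?_
  rw [← Matrix.ext_iff]
  exact forall₂_congr fun i j => dv.symm

/-- **minus one at every level** -/
theorem neg_pow {z : GQ} (h : rb e z = -1) {m k : ℕ} (l : m ≤ k + 1) :
    rm e m (z ^ pp ^ k) = -1 := by
  choose X hX using rb_neg.1 h
  have a : e.r z = -(1 + pp * -of X) := by
    rw [mul_neg, neg_add, neg_neg, neg_add_eq_sub, eq_sub_iff_add_eq, ← nsmul_eq_mul]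
    ext i j
    rw [hX, Matrix.smul_apply, nsmul_eq_mul, of_apply]
  obtain ⟨Q, hQ⟩ := dvd_sub_pow_of_dvd_sub (R := ℤ[X]) (p := pp) (a := 1 + (pp : ℤ[X]) * Polynomial.X) (b := 1)
    (by simp) k
  have b := congrArg (aeval ((toZModPow m).mapMatrix (-of X))) hQ
  have c : (pp : Matrix (Fin 2) (Fin 2) (ZMod (pp ^ m))) ^ (k + 1) = 0 := by
    obtain ⟨n, hn⟩ := Nat.exists_eq_add_of_le l
    rw [hn, pow_add, ← Nat.cast_pow, ← map_natCast (algebraMap (ZMod (pp ^ m)) _), ZMod.natCast_self,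
      map_zero, zero_mul]
  simp only [map_sub, map_pow, map_add, map_one, map_mul, map_natCast, aeval_X, c, zero_mul, one_pow,
    sub_eq_zero] at b
  rw [map_pow, show rm e m z = (toZModPow m).mapMatrix (e.r z) from rfl, a, map_neg,
    (pp_odd.pow).neg_pow, map_add, map_one, map_mul, map_natCast, b]

variable (e) in
/-- plus or minus one -/
def Pm (m : ℕ) : Subgroup GQ where
  carrier := {g | rm e m g = 1 ∨ rm e m g = -1}
  mul_mem' := by rintro g h (a | a) (b | b) <;> simp [a, b]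
  one_mem' := .inl (map_one _)
  inv_mem' {g} a := by
    have := (rm e m).map_mul g⁻¹ g
    rw [inv_mul_cancel, map_one] at this
    refine a.imp (fun a => ?_) fun a => ?_ <;> rw [a] at this
    · rw [this, mul_one]
    · rw [this, mul_neg, mul_one, neg_neg]

theorem pm_nrm (m : ℕ) : (Pm e m).Normal := ⟨fun g a t => a.imp
  (fun a => by rw [map_mul, map_mul, a, mul_one, ← map_mul, mul_inv_cancel, map_one]) fun a => by
    rw [map_mul, map_mul, a, mul_neg, mul_one, neg_mul, ← map_mul, mul_inv_cancel, map_one]⟩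

theorem pm_opn (m : ℕ) : IsOpen (Pm e m : Set GQ) :=
  Subgroup.isOpen_mono (H₁ := Pg.Kr e.r m) (fun _ a => .inl a) (Pg.Kr_open _ m)

theorem pm_one {m : ℕ} {g : GQ} (h : g ∈ Pm e (m + 1)) (a : rb e g = 1) : rm e (m + 1) g = 1 :=
  h.resolve_right fun b => by
    have := rb_neg.2 fun i j => (dvd_pow_self _ m.succ_ne_zero).trans (rm_neg.1 b i j)
    exact P014U.Mu.Sa.neg_ne pp_ne_two (by simpa using (congrFun₂ (a.symm.trans this) 0 0).symm)

theorem det0 {A : M2} (h : A * A = 1) (d : A.det = -1) : (A - 1).det = 0 := by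
  have a0 := congrFun₂ h 0 0
  have a1 := congrFun₂ h 1 1
  simp only [mul_apply, Fin.sum_univ_two, one_apply_eq] at a0 a1
  rw [det_fin_two] at d
  have t : A 0 0 + A 1 1 = 0 := pow_eq_zero_iff two_ne_zero |>.1 (by linear_combination a0 + a1 + 2 * d)
  simp only [det_fin_two, Matrix.sub_apply, one_apply_eq, ne_eq, zero_ne_one, not_false_eq_true, one_apply_ne,
    one_ne_zero]
  linear_combination d - t

variable (b : Fld e)

/-- the two planes -/
abbrev a2 : Fin 2 → GQ →* M2 := ![rb e, tw (-b.δ') (rb e)]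

theorem a2_eq {g : GQ} (m : g ∈ b.Γ) (i : Fin 2) : a2 b i g = rb e g := by
  fin_cases i
  · rfl
  · show (if nu (-b.δ') g = 0 then 1 else -1 : F) • rb e g = _
    rw [if_pos ((b.kd.gk g).1 m), one_smul]

theorem tw_out {g : GQ} (m : g ∉ b.Γ) : tw (-b.δ') (rb e) g = -rb e g := by
  show (if nu (-b.δ') g = 0 then 1 else -1 : F) • rb e g = _
  rw [if_neg (mt (b.kd.gk g).2 m), neg_one_smul]

theorem rs2 (i : Fin 2) : Rs (a2 b i) (Sd b) := by
  fin_cases i
  exacts [((rse e).2.2 b).1, ((rse e).2.2 b).2.1]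

theorem rb_onto (g : GQ) : ∃ x ∈ b.Γ, rb e x = rb e g :=
  (b.onto g).imp fun _ h => ⟨h.1, congrArg (·.map toZMod) h.2⟩

/-- **minus one** -/
theorem neg (ng : ∃ g, rb e g = -1) : ∃ z ∈ b.Γ, rb e z = -1 ∧
    ∀ m k, m ≤ k + 1 → ∀ i j, (pp : ℤ_[pp]) ^ m ∣ (e.r (z ^ pp ^ k) + 1) i j :=
  let ⟨g, h⟩ := ng
  let ⟨z, m, k⟩ := rb_onto b g
  ⟨z, m, k.trans h, fun _ _ l => rm_neg.1 (neg_pow (k.trans h) l)⟩

theorem in_le {g : GQ} (h : g ∈ In (Sd b : Set ℕ)) : g ∈ b.Γ ∧ e.r g = 1 :=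
  let ⟨l, n, P, o, i⟩ := h
  have s : l ∉ e.S := fun k => n (Finset.mem_union_left _ (List.mem_toFinset.2 k))
  ⟨b.inert_mem o (e.ne_two s)
    (fun d => n (Finset.mem_union_right _ (Nat.mem_primeFactors.2 ⟨o.1, d, b.pos.ne'⟩))) i,
    e.r_inert o s i⟩

/-- **primes with the Frobenius element of a complex conjugation** -/
theorem chb (ir : Irr (rb e)) (ng : ∃ g, rb e g = -1) (pl : Pl) (m k : ℕ) {V : Subgroup GQ}
    (nV : V.Normal) (oV : IsOpen (V : Set GQ)) (hV : ∀ g ∈ b.Γ, rb e g = -1 → g ^ pp ^ k ∈ V)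
    {E : Finset ℕ} (iV : In E ⊆ V) : Sp (a2 b) pl fun q => q.Prime ∧ q ∉ E ∧ q ∉ Sd b ∧
      ∃ s, ∃ w ∈ b.Γ ⊓ V, (∀ i j, (pp : ℤ_[pp]) ^ m ∣ (e.r w - 1) i j) ∧
        pl.σ q = s * (b.c * w) * s⁻¹ := fun x T hx => by
  classical
  obtain ⟨g, hg⟩ := ng
  obtain ⟨z, zm, hz⟩ := rb_onto b g
  rw [hg] at hz
  have z1 (n : ℕ) : rb e (z ^ pp ^ n) = -1 := by rw [map_pow, hz, (pp_odd.pow).neg_one_pow]
  obtain ⟨t, tn, ht⟩ := b.ex_ker
  have d0 : (rb e b.c).det = -1 := (RingHom.map_det toZMod (e.r b.c)).symm.trans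
    ((congrArg _ (X4M.TE.det_conj _ b.cc)).trans (by simp))
  obtain ⟨q, qT, ⟨hq, qE, qS, s, w, ⟨w1, w2⟩, w3, hs⟩, h⟩ := supply pl (E := E ∪ Sd b) (rs2 b)
    (fun i v n => (ir v n).elim fun y k => let ⟨y', m, l⟩ := rb_onto b y
      ⟨y', by rwa [a2_eq b m, l]⟩)
    (fun i j n => ⟨t, by
      have a : rb e t = 1 := Re.of e ht
      have : (1 : M2).trace ≠ (-1 : M2).trace := by
        rw [trace_neg, trace_one, Ne, eq_neg_iff_add_eq_zero, ← two_mul]
        exact mul_ne_zero two_ne (by simpa using two_ne)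
      fin_cases i <;> fin_cases j <;> first | exact absurd rfl n | skip
      · show (rb e t).trace ≠ (tw _ _ t).trace
        rwa [tw_out b tn, a]
      · show (tw _ _ t).trace ≠ (rb e t).trace
        rw [tw_out b tn, a]
        exact this.symm⟩)
    (U := (b.Γ ⊓ V) ⊓ Pm e (m + 1)) ⟨fun g a t =>
      ⟨⟨b.Γ_conj a.1.1 t, nV.conj_mem g a.1.2 t⟩, (pm_nrm _).conj_mem g a.2 t⟩⟩
    ((b.Γ_open.inter oV).inter (pm_opn _)) (fun g ⟨l, n, k⟩ =>
      have a := in_le b ⟨l, fun c => n (Finset.mem_union_right _ c), k⟩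
      ⟨⟨a.1, iV ⟨l, fun c => n (Finset.mem_union_left _ c), k⟩⟩, .inl (rm_one.2 (by simp [a.2]))⟩)
    (c := z ^ pp ^ (m + k)) ⟨⟨pow_mem zm _, by
      rw [pow_add, pow_mul]; exact hV _ (pow_mem zm _) (z1 m)⟩, .inr (neg_pow hz (by omega))⟩
    (fun i => (a2_eq b (pow_mem zm _) i).trans (z1 _)) (u := b.c) (fun i => det0
      (by rw [← map_mul, Es.c_sq, map_one]) (((congrFun (rs2 b i).det _).trans
        (congrFun (rs2 b 0).det _).symm).trans d0)) x T hx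
  exact ⟨q, qT, ⟨hq, fun c => qE (Finset.mem_union_left _ c), qS, s, w, w1, fun i j =>
    (pow_dvd_pow _ m.le_succ).trans (rm_one.1 (pm_one w2 (w3 0)) i j), hs⟩, h⟩

/-- **the properties of these primes** -/
theorem kol {q m : ℕ} {P : Ideal (𝓞 Qb)} {φ s w : GQ} (o : Ov q P) (f : Fb q P φ) (n : q ∉ Sd b)
    (w1 : w ∈ b.Γ) (w2 : ∀ i j, (pp : ℤ_[pp]) ^ m ∣ (e.r w - 1) i j)
    (h : φ = s * (b.c * w) * s⁻¹) : φ ∉ b.Γ ∧ pp ^ m ∣ q + 1 ∧ (pp : ℤ) ^ m ∣ e.a q ∧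
      (Ideal.span {(q : 𝓞 b.K)}).IsPrime ∧ rm e m φ = rm e m (s * b.c * s⁻¹) ∧
      rm e m (φ * φ) = 1 := by
  have S : q ∉ e.S := fun k => n (Finset.mem_union_left _ (List.mem_toFinset.2 k))
  have a : φ ∉ b.Γ := fun k => b.c_out ((mul_mem_cancel_right w1).1 (by
    simpa [h, mul_assoc] using b.Γ_conj k s⁻¹))
  have r : rm e m φ = rm e m (s * b.c * s⁻¹) := by
    simp only [h, map_mul, rm_one.2 w2, mul_one]
  have u : rm e m s⁻¹ * rm e m s = 1 := by rw [← map_mul, inv_mul_cancel, map_one]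
  have d (g : GQ) : (rm e m g).det = toZModPow m (e.r g).det := (RingHom.map_det _ _).symm
  have t (g : GQ) : (rm e m g).trace = toZModPow m (e.r g).trace :=
    (AddMonoidHom.map_trace (toZModPow m) _).symm
  refine ⟨a, (ZMod.natCast_eq_zero_iff _ _).1 ?_, ?_, Es.tq_inert b (e.ne_two S)
    (fun d => n (Finset.mem_union_right _ (Nat.mem_primeFactors.2 ⟨o.1, d, b.pos.ne'⟩))) o f a, r, ?_⟩
  · have := congrArg det r
    rw [map_mul, map_mul, det_mul, det_mul, mul_right_comm, mul_comm (det _), ← det_mul, u, det_one,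
      one_mul, d, d, e.det_fb o (e.ne_pp S) f, show (e.r b.c).det = -1 from X4M.TE.det_conj _ b.cc,
      map_natCast, map_neg, map_one] at this
    rw [Nat.cast_succ, this, neg_add_cancel]
  · have := congrArg trace r
    rw [map_mul, map_mul, trace_mul_cycle, u, one_mul, t, t, Es.tr_conj b, map_zero,
      show (e.r φ).trace = e.a q from (e.bad q o.1 S).2.2 φ ⟨P, o.2.1, o.2.2, f⟩] at this
    exact (PadicInt.pow_p_dvd_int_iff (p := pp) _ _).1 (Pg.dvd_iff.2 this)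
  · rw [map_mul, r, ← map_mul, show s * b.c * s⁻¹ * (s * b.c * s⁻¹) = s * (b.c * b.c) * s⁻¹ by group,
      Es.c_sq, mul_one, mul_inv_cancel, map_one]

end Vale.Agent.P014Y.Kp.Cb
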