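import Vale.Agent.P014Y.Kp.Ind0

/-! # P014Y, block Kp: descent from the quadratic field (helper87; after `Mu.dsc`) -/

set_option autoImplicit false
set_option linter.all false

noncomputable section

namespace Vale.Agent.P014Y.Kp

open NumberField Matrix
open scoped Classical Pointwise
open Vale.Agent.P022 (Qb GQ)
open Vale.Agent.P022D.W (dec)
open Vale.Agent.P022K.G2 (In)
open Vale.Agent.P014U
open L2 (M2 cu BB)
open X4S (Pl)
open P004S (nu kn)
open Mu Mu.Ds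

variable [Pp] {a : GQ →* M2} {pl : Pl} {S S' : Finset ℕ} {d : ℤ} {Γ D : Subgroup GQ} {c g : GQ}
  {x y x' y' : X} {q : ℕ}

theorem bb_congr (e : ∀ g ∈ D, x' g = x g) (e' : ∀ g ∈ D, y' g = y g) (h : cu a x y ∈ BB a D) :
    cu a x' y' ∈ BB a D := by
  obtain ⟨f, p, k⟩ := h
  refine ⟨f, p, fun g s j n => ?_⟩
  have := k g s j n
  simp only [cu] at this ⊢
  rw [e g s, e' j n, this]

theorem tw_in (m : g ∈ kn d) : tw d a g = a g := by
  show (if nu d g = 0 then 1 else -1 : F) • a g = _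
  rw [if_pos (show nu d g = 0 from m), one_smul]

theorem tw_out (m : g ∉ kn d) : tw d a g = (-1 : F) • a g := by
  show (if nu d g = 0 then 1 else -1 : F) • a g = _
  rw [if_neg (show ¬ nu d g = 0 from m)]

theorem sq_kn (d : ℤ) (g : GQ) : g * g ∈ kn d := by
  by_cases m : g ∈ kn d
  exacts [mul_mem m m, out_mul m m]

theorem Iq.tw (u : Iq a pl S q) (r : Rs a S) (r' : Rs (tw d a) S) : Iq (tw d a) pl S q :=
  have := (u.lm r).tw r'.toR0 (r'.inert (pl.ov q u.pr) u.out)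
  ⟨u.pr, u.out, this.sq, this.dt⟩

/-- **the parity input** from classes over the quadratic field -/
theorem pa1 (r : Rs a S) (r' : Rs (tw d a) S') (hS : S ⊆ S') (hΓ : ∀ g, g ∈ Γ ↔ nu d g = 0)
    (n : c ∉ Γ) (k : c * c = 1) (nf : Nf a Γ) (sq : ∀ l ∈ S, dec (pl.P l) ≤ Γ)
    (I : ℕ → Submodule F X) (i : ∀ l ∈ S, I l ≤ Ot a (dec (pl.P l)) (I l))
    {G : ℕ → Prop} {NZ : Finset ℕ → Prop} (hG : ∀ q, G q → Iq a pl S' q) (hσ : ∀ q, G q → pl.σ q ∉ Γ)
    (sp : Sp ![a, tw d a] pl G)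
    (H : ∀ Q : Finset ℕ, (∀ q ∈ Q, G q) → NZ Q → ∃ y ∈ Cl a Γ,
      (∀ g ∈ Γ, g ∈ In ((S ∪ Q : Finset ℕ) : Set ℕ) → y g = 0) ∧
      (∀ l ∈ S, y ∈ I l ∧ cj a c y ∈ I l) ∧
      (∀ q ∈ Q, y (pl.σ q * pl.σ q) = 0) ∧ y ∉ Bl a Γ ∧
      ∀ q ∉ Q, G q → y (pl.σ q * pl.σ q) ≠ 0 → NZ (insert q Q)) (h0 : NZ ∅) :
    Pa a (tw d a) pl S S' := by
  obtain rfl : Γ = kn d := Subgroup.ext hΓ
  have ra : Rs a S' := ⟨r.toR0, r'.pm, r'.pr, fun g m => r.unr g (in_mono hS m)⟩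
  have ik : ∀ g ∈ In (S' : Set ℕ), g ∈ kn d := fun g m => by
    by_contra e
    have := congrFun (congrFun (r'.unr g m) 0) 0
    rw [tw_out e, ra.unr g m] at this
    simp only [Matrix.smul_apply, one_apply_eq, smul_eq_mul, mul_one] at this
    exact two_ne (by linear_combination -this)
  refine pa0 ra r' hS r.pm (fun v h => nf v fun g _ => h g trivial)
    (fun v h => nf v fun g m => tw_in (a := a) m ▸ h g trivial) (fun l m g s => tw_in (sq l m s))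
    (fun l => {x | ∃ x' ∈ I l, ∀ g ∈ dec (pl.P l), x g = x' g})
    (fun l m x ⟨x', p, e⟩ => cl_congr (fun _ _ => rfl) e (i l m p).1)
    (fun l m x ⟨x', p, e⟩ y ⟨y', p', e'⟩ => bb_congr e e' ((i l m p').2 x' p))
    (fun q g => ⟨hG q g, (hG q g).tw ra r'⟩) (sq2_of ra r' sp) (fun Q g nz => ?_) h0
  obtain ⟨y, hy, un, ip, vs, nb, st⟩ := H Q g nz
  have key : ∀ b : GQ →* M2, Rs b S' → (∀ g ∈ kn d, b g = a g) → (∃ s : F, b c = s • a c) →
      (∀ q, G q → Iq b pl S' q) → ex b d c y ∈ Zg b (S' ∪ Q) ∧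
      (∀ l ∈ S, ∃ x' ∈ I l, ∀ g ∈ dec (pl.P l), ex b d c y g = x' g) ∧
      (∀ l ∈ S', l ∉ S → ex b d c y ∈ Ur b (pl.P l)) ∧ ∀ q, G q →
        y (pl.σ q * pl.σ q) = 0 → ex b d c y ∈ Vs b (pl.σ q) := by
    intro b rb e ⟨s, es⟩ u
    have cl := ex_cl n k (cl_congr e (fun _ _ => rfl) hy)
    have z0 : ∀ g ∈ kn d, g ∈ In ((S ∪ Q : Finset ℕ) : Set ℕ) → ex b d c y g = 0 := fun g m i => by
      rw [ex_of m, cj, un g m i, un _ (kcj m c) (in_cj i c), mulVec_zero, add_zero]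
    refine ⟨zg_of rb.opn (fun g m => rb.unr g (in_mono Finset.subset_union_left m)) cl
      fun g m => z0 g (ik g (in_mono Finset.subset_union_left m))
        (in_mono (Finset.union_subset_union_left hS) m), fun l m => ⟨y + s • cj a c y,
      add_mem (ip l m).1 (Submodule.smul_mem _ s (ip l m).2), fun g p => by
        rw [ex_of (sq l m p), Pi.add_apply, Pi.smul_apply, cj, cj, es, smul_mulVec]⟩,
      fun l m x => ?_, fun q m v => ?_⟩
    · have o := pl.ov l (rb.pr l m)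
      have x' : l ∉ Q := fun p => (hG l (g l p)).out m
      exact ⟨cl_mono cl le_top, bl_two (d := d) (cl_mono cl le_top) fun g i m =>
        ⟨(e g m).trans (r.unr g ⟨l, x, _, o, i⟩), z0 g m ⟨l, by simp [x, x'], _, o, i⟩⟩⟩
    · have := cl_cjk hy (sq_kn d (pl.σ q)) (out_mul (mt inv_mem_iff.1 n) (hσ q m))
        ((map_mul a _ _).trans (hG q m).sq)
      rw [show c⁻¹ * pl.σ q * (pl.σ q * pl.σ q) * (c⁻¹ * pl.σ q)⁻¹ = c⁻¹ * (pl.σ q * pl.σ q) * c by
        group, v, mulVec_zero] at this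
      rw [((u q m).lm rb).vs2 (cl_mono cl le_top), ex_of (sq_kn d _), cj, v, this, mulVec_zero,
        add_zero]
  obtain ⟨a1, a2, a3, a4⟩ := key a ra (fun _ _ => rfl) ⟨1, (one_smul _ _).symm⟩ hG
  obtain ⟨b1, b2, b3, b4⟩ := key _ r' (fun _ => tw_in) ⟨_, tw_out n⟩ fun q g => (hG q g).tw ra r'
  refine ⟨_, a1, _, b1, fun l m => ⟨a2 l m, b2 l m⟩, fun l m x => ⟨a3 l m x, b3 l m x⟩,
    fun q m => ⟨a4 q (g q m) (vs q m), b4 q (g q m) (vs q m)⟩, ?_, fun q m p x => ?_⟩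
  · by_contra! h
    obtain ⟨v, hv⟩ := mem_bl.1 h.1
    obtain ⟨w, hw⟩ := mem_bl.1 h.2
    refine nb (mem_bl.2 ⟨(2 : F)⁻¹ • (v + w), fun g m => ?_⟩)
    have : ex a d c y g + ex (tw d a) d c y g = (2 : F) • y g := by
      rw [ex_of m, ex_of m, cj, cj, tw_out n, smul_mulVec]
      module
    rw [hv g trivial, hw g trivial, tw_in m] at this
    rw [mulVec_smul, mulVec_add, ← smul_sub, add_sub_add_comm, this, smul_smul,
      inv_mul_cancel₀ two_ne, one_smul]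
  · exact st q m p fun v => x.elim (· (a4 q p v)) (· (b4 q p v))

end Vale.Agent.P014Y.Kp
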