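import Vale.Agent.P014Y.Kp.St2
import Vale.Agent.P014Y.Kp.Cb1
import Vale.Agent.P014Y.Kp.Pa1

/-! # P014Y, block Kp: the supply of Kolyvagin primes (row CHB2) -/

set_option autoImplicit false
set_option linter.all false

noncomputable section

namespace Vale.Agent.P014Y.Kp

open NumberField Matrix
open Vale.Agent.P022 (Qb GQ)
open Vale.Agent.P022D.W (dec)
open Vale.Agent.P022E.GW (Ov Fb)
open Vale.Agent.P022K.G2 (In)
open Vale.Agent.P004K (Hc Gen)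
open Vale.Agent.P014U
open L2 (M2)
open X4S (Pl)
open P014Y.F (Crv Fld)
open P014Y.Mu
open PadicInt (toZMod)

variable [Pp]

/-- the splitting of the bad primes follows from a condition on the Frobenius element -/
def SPT : Prop := ∀ (e : Crv) (b : Fld e) (m : ℕ), ∃ (V : Subgroup GQ) (k : ℕ) (E : Finset ℕ),
  V.Normal ∧ IsOpen (V : Set GQ) ∧ In E ⊆ V ∧ (∀ g ∈ b.Γ, rb e g = -1 → g ^ pp ^ k ∈ V) ∧
  ∀ l P φ s, ∀ w ∈ b.Γ ⊓ V, Ov l P → Fb l P φ → l ∉ E → l ∉ Sd b → φ = s * (b.c * w) * s⁻¹ →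
    pp ^ m ∣ l + 1 → Sv b m l

namespace C2

theorem sq_one {A : M2} (t : A.trace = 0) (d : A.det = -1) : A * A = 1 := by
  rw [trace_fin_two] at t
  rw [det_fin_two] at d
  ext i j
  fin_cases i <;> fin_cases j <;> simp [mul_apply, Fin.sum_univ_two]
  · linear_combination A 0 0 * t - d
  · linear_combination A 0 1 * t
  · linear_combination A 1 0 * t
  · linear_combination A 1 1 * t - d

theorem iq {e : Crv} {b : Fld e} {pl : Pl} {M m l : ℕ} (hm : 0 < m) (g : Gd b pl M m l) :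
    Iq (rb e) pl (Sd b) l := by
  have S : l ∉ e.S := fun k => g.out (Finset.mem_union_left _ (List.mem_toFinset.2 k))
  have o := pl.ov l g.pr
  have f := pl.fb l g.pr
  have d : (rb e (pl.σ l)).det = -1 := by
    refine (RingHom.map_det toZMod (e.r (pl.σ l))).symm.trans ?_
    rw [e.det_fb o (e.ne_pp S) f, map_natCast, ← add_eq_zero_iff_eq_neg, ← Nat.cast_succ]
    exact (ZMod.natCast_eq_zero_iff _ _).2 ((dvd_pow_self _ hm.ne').trans g.d1)
  refine ⟨g.pr, g.out, sq_one ((AddMonoidHom.map_trace toZMod (e.r (pl.σ l))).symm.trans ?_) d, d⟩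
  rw [show (e.r (pl.σ l)).trace = e.a l from (e.bad l o.1 S).2.2 _ ⟨_, o.2.1, o.2.2, f⟩, map_intCast]
  exact (ZMod.intCast_zmod_eq_zero_iff_dvd _ _).2 ((dvd_pow_self _ hm.ne').trans g.d2)

end C2

theorem chb2_of (spt : SPT) : CHB2 := fun e b pl M m ir ng hM hm => by
  classical
  obtain ⟨V, k, E, nV, oV, iV, hV, H⟩ := spt e b m
  refine ⟨sq2_of (Cb.rs2 b 0) (Cb.rs2 b 1) fun z T hz => ?_, fun l g =>
    ⟨C2.iq hm g, (C2.iq hm g).tw (Cb.rs2 b 0) (Cb.rs2 b 1)⟩⟩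
  obtain ⟨q, qT, ⟨hq, qE, qS, s, w, w1, w2, hs⟩, h⟩ := Cb.chb b ir ng pl m k nV oV hV
    (E := E ∪ M.primeFactors) (fun g ⟨l, n, k⟩ => iV ⟨l, fun c => n (Finset.mem_union_left _ c), k⟩)
    z T hz
  obtain ⟨a, d1, d2, -⟩ := Cb.kol b (pl.ov q hq) (pl.fb q hq) qS w1.1 w2 hs
  exact ⟨q, qT, ⟨⟨hq, qS, fun d => qE (Finset.mem_union_right _
    (Nat.mem_primeFactors.2 ⟨hq, d, hM.ne'⟩)), a, d1, d2⟩, H q _ _ s w w1 (pl.ov q hq) (pl.fb q hq)
      (fun c => qE (Finset.mem_union_left _ c)) qS hs d1⟩, h⟩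

end Vale.Agent.P014Y.Kp
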