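import Vale.Agent.P014Y.Kp.Lm

/-! # P014Y, block Kp: from a class over the quadratic field to two classes over `ℚ` -/

set_option autoImplicit false
set_option linter.all false

noncomputable section

namespace Vale.Agent.P014Y.Kp.Ds

open NumberField Matrix Module
open scoped Classical
open Vale.Agent.P022 (Qb GQ)
open Vale.Agent.P022.H443 (inP)
open Vale.Agent.P022D.W (dec)
open Vale.Agent.P022E.GW (Ov)
open Vale.Agent.P022K.G2 (In Lv Z1 B1 d0)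
open Vale.Agent.P014U
open L2 (W M2 rh)
open Mu Mu.Ul Mu.Tl

variable [Pp]

/-- a subgroup of index two and an element outside -/
structure Ix (Γ : Subgroup GQ) (c : GQ) : Prop where
  out : c ∉ Γ
  two : ∀ g ∉ Γ, ∀ h ∉ Γ, g * h ∈ Γ

/-- the corestriction -/
def co (a : GQ →* M2) (Γ : Subgroup GQ) (c : GQ) (δ : X) : X := fun g =>
  if g ∈ Γ then δ g + a c *ᵥ δ (c⁻¹ * g * c) else δ (g * c) + a c *ᵥ δ (c⁻¹ * g)

variable {a a' : GQ →* M2} {Γ D : Subgroup GQ} {c g h σ : GQ} {δ z : X} {T : Finset ℕ}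

theorem co_in (m : g ∈ Γ) : co a Γ c δ g = δ g + a c *ᵥ δ (c⁻¹ * g * c) := if_pos m

theorem co_out (m : g ∉ Γ) : co a Γ c δ g = δ (g * c) + a c *ᵥ δ (c⁻¹ * g) := if_neg m

theorem mem_Bl : z ∈ Bl a D ↔ ∃ v, ∀ g ∈ D, z g = a g *ᵥ v - v := Iff.rfl

theorem nl (m : g ∈ Γ) (n : h ∉ Γ) : g * h ∉ Γ := fun k => n ((Γ.mul_mem_cancel_left m).1 k)

theorem nr (n : g ∉ Γ) (m : h ∈ Γ) : g * h ∉ Γ := fun k => n ((Γ.mul_mem_cancel_right m).1 k)

theorem Ix.inv (I : Ix Γ c) : c⁻¹ ∉ Γ := fun k => I.out (inv_mem_iff.1 k)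

theorem Ix.cj (I : Ix Γ c) (m : g ∈ Γ) : c⁻¹ * g * c ∈ Γ := I.two _ (nr I.inv m) _ I.out

theorem half (v : W) : (2 : F)⁻¹ • (v + v) = v := by
  rw [← two_smul F, smul_smul, inv_mul_cancel₀ two_ne, one_smul]

section

variable (co1 : ∀ g ∈ Γ, ∀ h ∈ Γ, δ (g * h) = δ g + a g *ᵥ δ h)
include co1

theorem one : δ 1 = 0 := by simpa using co1 1 (one_mem _) 1 (one_mem _)

theorem cnj (m : g ∈ Γ) (n : h ∈ Γ) (e : a h = 1) : δ (g * h * g⁻¹) = a g *ᵥ δ h := by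
  have k := co1 g m _ (inv_mem m)
  rw [mul_inv_cancel, one co1] at k
  rw [co1 _ (mul_mem m n) _ (inv_mem m), co1 g m h n, map_mul, e, mul_one, add_right_comm, ← k, zero_add]

/-- the corestriction is a cocycle -/
theorem coc (I : Ix Γ c) (g h : GQ) : co a Γ c δ (g * h) = co a Γ c δ g + a g *ᵥ co a Γ c δ h := by
  have e : a c * a c⁻¹ = 1 := by rw [← map_mul, mul_inv_cancel, map_one]
  have f : ∀ x : GQ, a c * a (c⁻¹ * x) = a x := fun x => by rw [← map_mul, mul_inv_cancel_left]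
  by_cases m : g ∈ Γ <;> by_cases n : h ∈ Γ
  · rw [co_in m, co_in n, co_in (mul_mem m n), co1 g m h n,
      show c⁻¹ * (g * h) * c = c⁻¹ * g * c * (c⁻¹ * h * c) by group, co1 _ (I.cj m) _ (I.cj n)]
    simp only [mulVec_add, mulVec_mulVec, mul_assoc c⁻¹, f, map_mul a g]
    abel
  · rw [co_in m, co_out n, co_out (nl m n), mul_assoc g, co1 g m _ (I.two h n c I.out),
      show c⁻¹ * (g * h) = c⁻¹ * g * c * (c⁻¹ * h) by group, co1 _ (I.cj m) _ (I.two _ I.inv h n)]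
    simp only [mulVec_add, mulVec_mulVec, mul_assoc c⁻¹, f, map_mul a g]
    abel
  · rw [co_out m, co_in n, co_out (nr m n), show g * h * c = g * c * (c⁻¹ * h * c) by group,
      co1 _ (I.two g m c I.out) _ (I.cj n), ← mul_assoc c⁻¹, co1 _ (I.two _ I.inv g m) h n]
    simp only [mulVec_add, mulVec_mulVec, f, map_mul a g]
    abel
  · rw [co_out m, co_out n, co_in (I.two g m h n), show c⁻¹ * (g * h) * c = c⁻¹ * g * (h * c) by group,
      co1 _ (I.two _ I.inv g m) _ (I.two h n c I.out)]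
    conv_lhs => rw [show g * h = g * c * (c⁻¹ * h) by group,
      co1 _ (I.two g m c I.out) _ (I.two _ I.inv h n)]
    simp only [mulVec_add, mulVec_mulVec, f, map_mul a g]
    abel

/-- the value at the square of an element outside -/
theorem co_sq (I : Ix Γ c) (n : σ ∉ Γ) (s : a σ * a σ = 1) :
    co a Γ c δ (σ * σ) = δ (σ * σ) + a σ *ᵥ δ (σ * σ) := by
  rw [co_in (I.two σ n σ n), show c⁻¹ * (σ * σ) * c = c⁻¹ * σ * (σ * σ) * (c⁻¹ * σ)⁻¹ by group,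
    cnj co1 (I.two _ I.inv σ n) (I.two σ n σ n) (by rw [map_mul, s]), mulVec_mulVec, ← map_mul,
    mul_inv_cancel_left]

theorem vs_iff (I : Ix Γ c) (s : a σ * a σ = 1) : co a Γ c δ ∈ Vs a σ ↔ co a Γ c δ (σ * σ) = 0 := by
  rw [mem_Vs, rng_iff s, coc co1 I, add_comm, add_eq_zero_iff_eq_neg]

end

/-- a cocycle which vanishes on a subgroup of index two -/
theorem bl_of (I : Ix Γ c) (co1 : ∀ g ∈ D, ∀ h ∈ D, z (g * h) = z g + a g *ᵥ z h)
    (k : ∀ g ∈ D, g ∈ Γ → a g = 1 ∧ z g = 0) : z ∈ Bl a D := by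
  by_cases e : ∀ g ∈ D, g ∈ Γ
  · exact ⟨0, fun g m => (k g m (e g m)).2.trans (map_zero (d0 (rh a)) ▸ rfl)⟩
  push Not at e
  obtain ⟨t, m, n⟩ := e
  have q := co1 t m t m
  rw [(k _ (mul_mem m m) (I.two t n t n)).2, eq_comm, add_comm, add_eq_zero_iff_eq_neg] at q
  refine mem_Bl.2 ⟨-((2 : F)⁻¹ • z t), fun g j => ?_⟩
  by_cases i : g ∈ Γ
  · rw [(k g j i).1, (k g j i).2, one_mulVec, sub_self]
  · have u := k _ (mul_mem (inv_mem m) j) (I.two _ (fun x => n (inv_mem_iff.1 x)) g i)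
    have := co1 t m _ (mul_mem (inv_mem m) j)
    rw [mul_inv_cancel_left, u.2, mulVec_zero, add_zero] at this
    rw [this, ← mul_inv_cancel_left t g, map_mul, u.1, mul_one, mulVec_neg, mulVec_smul, q, smul_neg,
      neg_neg, sub_neg_eq_add, ← smul_add, half]

theorem in_cj {S : Set ℕ} (m : g ∈ In S) (c : GQ) : c⁻¹ * g * c ∈ In S := by
  obtain ⟨l, n, P, o, i⟩ := m
  refine ⟨l, n, P.comap (MulSemiringAction.toRingHom GQ (𝓞 Qb) c),
    ⟨o.1, have := o.2.1; Ideal.comap_isPrime _ P, by rw [Ideal.mem_comap, map_natCast]; exact o.2.2⟩,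
    fun x => ?_⟩
  rw [Ideal.mem_comap, map_sub]
  simpa [mul_smul] using i (c • x)

/-- a global cocycle which is locally constant and vanishes on the inertia groups -/
theorem zg_of (r : Rs a T) (cl : z ∈ Cl a ⊤) (un : ∀ g ∈ In (T : Set ℕ), z g = 0) : z ∈ Zg a T := by
  obtain ⟨c1, U, o, c2⟩ := cl
  let V : Subgroup GQ :=
    { carrier := {g | a g = 1 ∧ z g = 0}
      mul_mem' := fun {g h} p q => ⟨by rw [map_mul, p.1, q.1, mul_one], by
        rw [c1 g trivial h trivial, p.2, q.2, mulVec_zero, add_zero]⟩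
      one_mem' := ⟨map_one a, one c1⟩
      inv_mem' := fun {g} p => by
        have e : a g⁻¹ = 1 := a.ker.inv_mem p.1
        have := c1 g trivial g⁻¹ trivial
        rw [mul_inv_cancel, one c1, p.1, p.2, one_mulVec, zero_add] at this
        exact ⟨e, this.symm⟩ }
  have op : IsOpen (V : Set GQ) := Subgroup.isOpen_mono (H₁ := a.ker ⊓ U)
    (fun g m => ⟨m.1, c2 g trivial m.2⟩) (r.opn.inter o.opn)
  have : Finite (GQ ⧸ V) := V.quotient_finite_of_isOpen op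
  exact ⟨c1, fun g m => absurd trivial m, V, ⟨⟨fun n p g => ⟨a.normal_ker.conj_mem n p.1 g, by
    rw [cnj c1 trivial trivial p.1, p.2, mulVec_zero]⟩⟩, op, Subgroup.finiteIndex_of_finite_quotient,
    fun g m => ⟨r.unr g m, un g m⟩⟩, fun w _ m => m.2⟩

theorem co_cl (I : Ix Γ c) (hΓ : IsOpen (Γ : Set GQ)) (cl : δ ∈ Cl a Γ) : co a Γ c δ ∈ Cl a ⊤ := by
  obtain ⟨c1, U, o, c2⟩ := cl
  have : Finite (GQ ⧸ Γ) := Γ.quotient_finite_of_isOpen hΓ
  have n : Γ.Normal := ⟨fun n m g => by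
    by_cases k : g ∈ Γ
    · exact mul_mem (mul_mem k m) (inv_mem k)
    · exact I.two _ (nr k m) _ fun x => k (inv_mem_iff.1 x)⟩
  exact ⟨fun g _ h _ => coc c1 I g h, U ⊓ Γ, o.inf ⟨n, hΓ, Subgroup.finiteIndex_of_finite_quotient,
    Set.empty_subset _⟩, fun w _ m => by
      rw [co_in m.2, c2 w m.2 m.1, c2 _ (I.cj m.2) (o.cj m.1 c), mulVec_zero, add_zero]⟩

theorem cl_mono (h : z ∈ Cl a Γ) (le : D ≤ Γ) : z ∈ Cl a D :=
  let ⟨c1, U, o, c2⟩ := h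
  ⟨fun g m h n => c1 g (le m) h (le n), U, o, fun w m => c2 w (le m)⟩

variable {S : Set ℕ}

theorem co_un (I : Ix Γ c) (un : ∀ g ∈ In S, g ∈ Γ → δ g = 0) (m : g ∈ In S) (n : g ∈ Γ) :
    co a Γ c δ g = 0 := by
  rw [co_in n, un g m n, un _ (in_cj m c) (I.cj n), mulVec_zero, add_zero]

/-- **the global class** -/
theorem co_zg (I : Ix Γ c) (hΓ : IsOpen (Γ : Set GQ)) (r : Rs a T) (le : In (T : Set ℕ) ⊆ Γ)
    (cl : δ ∈ Cl a Γ) (un : ∀ g ∈ In (T : Set ℕ), g ∈ Γ → δ g = 0) : co a Γ c δ ∈ Zg a T :=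
  zg_of r (co_cl I hΓ cl) fun g m => co_un I un m (le m)

/-- **unramified**, also at the primes which ramify in the quadratic field -/
theorem co_ur (I : Ix Γ c) (hΓ : IsOpen (Γ : Set GQ)) (cl : δ ∈ Cl a Γ)
    (ua : ∀ g ∈ In S, g ∈ Γ → a g = 1) (un : ∀ g ∈ In S, g ∈ Γ → δ g = 0) {l : ℕ} {P : Ideal (𝓞 Qb)}
    (o : Ov l P) (n : l ∉ S) : co a Γ c δ ∈ Ur a P :=
  ⟨cl_mono (co_cl I hΓ cl) le_top, bl_of I (fun g _ h _ => coc cl.1 I g h) fun g m k =>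
    ⟨ua g ⟨l, n, P, o, m⟩ k, co_un I un ⟨l, n, P, o, m⟩ k⟩⟩

variable (e1 : ∀ g ∈ Γ, a' g = a g) (e2 : ∀ g ∉ Γ, a' g = -a g)
include e1

theorem cl_tw (cl : δ ∈ Cl a Γ) : δ ∈ Cl a' Γ :=
  ⟨fun g m h n => e1 g m ▸ cl.1 g m h n, cl.2⟩

include e2

omit e1 in
theorem co_tw (I : Ix Γ c) (m : g ∈ Γ) : co a' Γ c δ g = δ g - a c *ᵥ δ (c⁻¹ * g * c) := by
  rw [co_in m, e2 c I.out, neg_mulVec, sub_eq_add_neg]

omit e1 in
theorem co_sum (I : Ix Γ c) (m : g ∈ Γ) : co a Γ c δ g + co a' Γ c δ g = δ g + δ g := by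
  rw [co_in m, co_tw e2 I m]
  abel

/-- **one of the two classes is not trivial** -/
theorem co_bl (I : Ix Γ c) (h : co a Γ c δ ∈ Bl a ⊤) (h' : co a' Γ c δ ∈ Bl a' ⊤) : δ ∈ Bl a Γ := by
  obtain ⟨v, hv⟩ := mem_Bl.1 h
  obtain ⟨v', hv'⟩ := mem_Bl.1 h'
  refine mem_Bl.2 ⟨(2 : F)⁻¹ • (v + v'), fun g m => ?_⟩
  rw [← half (δ g), ← co_sum e2 I m, hv g trivial, hv' g trivial, e1 g m, mulVec_smul, ← smul_sub,
    mulVec_add, add_sub_add_comm]

/-- **the values at a Frobenius element** -/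
theorem co_vs (I : Ix Γ c) (cl : δ ∈ Cl a Γ) (n : σ ∉ Γ) (s : a σ * a σ = 1) :
    co a Γ c δ ∈ Vs a σ ∧ co a' Γ c δ ∈ Vs a' σ ↔ δ (σ * σ) = 0 := by
  have s' : a' σ * a' σ = 1 := by rw [e2 σ n, neg_mul_neg, s]
  rw [vs_iff cl.1 I s, vs_iff (cl_tw e1 cl).1 I s']
  refine ⟨fun k => ?_, fun k => ?_⟩
  · rw [← half (δ _), ← co_sum e2 I (I.two σ n σ n), k.1, k.2, add_zero, smul_zero]
  · rw [co_sq cl.1 I n s, co_sq (cl_tw e1 cl).1 I n s', k]
    simp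

end Vale.Agent.P014Y.Kp.Ds
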