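import Vale.Agent.P014Y.Kp.St2
import Vale.Agent.P014Y.Mu.Rse

/-! # P014Y, block Kp: the glue -/

set_option autoImplicit false
set_option linter.all false

noncomputable section

namespace Vale.Agent.P014Y.Kp

open NumberField Matrix Module
open scoped Classical
open Vale.Agent.P022 (Qb GQ)
open Vale.Agent.P022D.W (dec)
open Vale.Agent.P022E.GW (Ov)
open Vale.Agent.P014U
open P014Y.F (Crv Fld)
open P014Y.Mu

variable [Pp]

theorem es0 : ES0 := fun e b => by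
  obtain ⟨Y, M, M0, h⟩ :=
    Wp.hew b.K b.j b.iq b.upm _ _ _ _ _ _ _ _ _ _ b.I e.rn e.par b.ch.lev.cn
  exact ⟨Y, M, M0, fun c p => (h c p).1, fun c p => (h c p).2.1,
    fun c l n t p a a' g => ((h c p).2.2 l n t a a' g).1⟩

theorem Ch.Iv.nsmul {e : Crv} {b : Fld e} {k : Ch b} {c m : ℕ} {x : k.M} (h : k.Iv c m x) (C : ℕ) :
    k.Iv c m (C • x) := ⟨nsmul_mem h.1 C, fun g hg => (h.2 g hg).elim fun y p =>
  ⟨C • y, nsmul_mem p.1 C, by rw [map_nsmul, ← nsmul_sub, p.2, ← mul_nsmul, ← mul_nsmul, mul_comm]⟩⟩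

theorem Ch.zero_ip {e : Crv} {b : Fld e} (k : Ch b) (D : Subgroup GQ) : (0 : X) ∈ k.Ip D :=
  ⟨zero_mem _, 0, zero_mem _, fun g _ => by rw [Pi.zero_apply, map_zero, map_zero, sub_zero]⟩

theorem pa3_of (fou : FOU) (nt : NT) (chb : CHB2) (nd : ND) (kc3 : KC3) (kc2 : KC2) (lk2 : LK2)
    (cl1 : CL1) (cl2 : CL2) (cl3 : CL3B) (cl4 : CL4) (isi : ISI) : PA3 := by
  intro e b pl ir ng nf
  obtain ⟨Y, M, es⟩ := es0 e b
  obtain ⟨k, T, tv, nt0⟩ := fou e b Y M es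
  have N := nt e b k ir
  obtain ⟨C, C0, lk⟩ := lk2 e b k N
  obtain ⟨P₀, e0, ks0, -⟩ := kc3 e b k pl Y M 0 T es tv
  have m0 := (ks0.iv ∅ (by simp)).1
  rw [Finset.prod_empty, e0] at m0
  obtain ⟨m, mp, nz⟩ := nd e b k _ (nsmul_mem m0 C) fun h => nt0 (h.of_nsmul C0)
  obtain ⟨P, e1, ks, sl⟩ := kc3 e b k pl Y M m T es tv
  obtain ⟨sq, iq⟩ := chb e b pl M m ir ng es.pos mp
  obtain ⟨r0, -, hb⟩ := rse e
  obtain ⟨r, r', hΓ, -, -, spl, -⟩ := hb b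
  have tw1 : ∀ g ∈ b.Γ, tw (-b.δ') (rb e) g = rb e g := fun g h => by
    show (if P004S.nu (-b.δ') g = 0 then 1 else -1 : F) • rb e g = _
    rw [if_pos ((hΓ g).1 h), one_smul]
  have ov := fun l (h : l ∈ e.S.toFinset) => pl.ov l (r0.pr l h)
  have le := fun l (h : l ∈ e.S.toFinset) => spl l (List.mem_toFinset.1 h) _ (ov l h)
  refine pa0 r r' Finset.subset_union_left r0.pm (fun v h => nf v fun g _ => h g trivial)
    (fun v h => nf v fun g m => tw1 g m ▸ h g trivial) (fun l m g h => tw1 g (le l m h))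
    (fun l => k.Ip (dec (pl.P l))) (fun l _ x h => h.1) (fun l m => isi e b k l _ (ov l m) (le l m))
    (fun q g => iq q g.1) sq (NZ := fun Q => k.Nz (∏ q ∈ Q, q) m (C • P Q)) (fun Q g z => ?_)
    (by rwa [Finset.prod_empty, e1])
  have gd := fun q h => (g q h).1
  have c0 : 0 < ∏ q ∈ Q, q := Finset.prod_pos fun q h => (gd q h).pr.pos
  have iv := ks.iv Q gd
  obtain ⟨ν, d, dc⟩ := cl1 e b k _ m _ N c0 (iv.nsmul C) z
  have pf : (∏ q ∈ Q, q).primeFactors = Q := Nat.primeFactors_prod fun q h => (gd q h).pr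
  obtain ⟨a1, a2⟩ := cl2 e b k _ m _ ν d (Sd b ∪ Q) N c0 dc Finset.subset_union_left
    (pf.le.trans Finset.subset_union_right)
  obtain ⟨a3, a4⟩ := kc2 e b k pl M m P C Q N ks gd
  have b1 : ∀ l ∈ e.S.toFinset, d ∈ k.Ip (dec (pl.P l)) := fun l h =>
    cl3 e b k _ m _ ν d C _ N c0 iv dc (le l h)
      (lk l _ _ m _ (ov l h) (le l h) c0 iv (sl Q g l (List.mem_toFinset.1 h)))
  have b2 : ∀ l ∈ Sd b, l ∉ e.S.toFinset → d ∈ Ur (aa b ν) (pl.P l) := fun l h n =>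
    a2 l _ (pl.ov l (r.pr l h)) (mt List.mem_toFinset.2 n) fun t => (gd l (pf ▸
      Nat.mem_primeFactors.2 ⟨r.pr l h, t, c0.ne'⟩)).out h
  have b3 := fun l h t => cl4 e b k pl M _ m _ ν d l N c0 (iv.nsmul C) dc h t
  have b4 : ∀ q ∉ Q, Gs b pl M m q → d ∉ Vs (aa b ν) (pl.σ q) →
      k.Nz (∏ x ∈ insert q Q, x) m (C • P (insert q Q)) := fun q n h t =>
    by_contra fun u => t (b3 q h.1 (a4 q n h.1 u))
  have b5 := fun q h => b3 q (gd q h) (a3 q h)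
  have b6 := dc.nb
  by_cases ev : Even ν
  · simp only [aa, if_pos ev] at a1 b2 b4 b5 b6
    exact ⟨d, a1, 0, zero_mem _, fun l h => ⟨b1 l h, k.zero_ip _⟩,
      fun l h n => ⟨b2 l h n, zero_mem _⟩, fun q h => ⟨b5 q h, zero_mem _⟩, .inl b6,
      fun q n h t => b4 q n h (t.resolve_right fun u => u (zero_mem _))⟩
  · simp only [aa, if_neg ev] at a1 b2 b4 b5 b6
    exact ⟨0, zero_mem _, d, a1, fun l h => ⟨k.zero_ip _, b1 l h⟩,
      fun l h n => ⟨zero_mem _, b2 l h n⟩, fun q h => ⟨zero_mem _, b5 q h⟩, .inr b6,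
      fun q n h t => b4 q n h (t.resolve_left fun u => u (zero_mem _))⟩

end Vale.Agent.P014Y.Kp
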