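import Vale.Agent.P014Y.Kp.St
import Vale.Agent.P014Y.Mu.Kil

/-! # P014Y, block Kp: row IND (after the induction of helper87) -/

set_option autoImplicit false
set_option linter.all false

noncomputable section

namespace Vale.Agent.P014Y.Kp

open Module
open Vale.Agent.P022 (GQ)
open Vale.Agent.P014U
open L2 (M2)
open X4S (Pl)
open Mu

variable [Pp]

namespace Ind

theorem pick (A B : Submodule F X) : ∃ w ∈ A, w ∈ B → A ≤ B := by
  by_cases c : A ≤ B
  · exact ⟨0, zero_mem _, fun _ => c⟩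
  · obtain ⟨w, m, n⟩ := SetLike.not_le_iff_exists.1 c
    exact ⟨w, m, fun x => (n x).elim⟩

/-- the change of the rank -/
theorem chg (stp : STP) {a : GQ →* M2} {pl : Pl} {S S' Q : Finset ℕ} {L : ℕ → Submodule F X}
    {q : ℕ} {z : X} (la : La a pl S S' L) (u : ∀ x ∈ Q, Im a pl S' x) (uq : Im a pl S' q)
    (nq : q ∉ Q) (hz : z ∈ Sel a pl S S' L Q) (h1 : z ∈ Bl a ⊤ → Sel a pl S S' L Q ≤ Bl a ⊤)
    (h2 : z ∉ Bl a ⊤ → z ∉ Vs a (pl.σ q)) :
    z ∈ Bl a ⊤ ∧ finrank F (Sel a pl S S' L Q) = 2 ∧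
      finrank F (Sel a pl S S' L (insert q Q)) = 3 ∨
    z ∉ Bl a ⊤ ∧ 2 < finrank F (Sel a pl S S' L Q) ∧
      finrank F (Sel a pl S S' L (insert q Q)) + 1 = finrank F (Sel a pl S S' L Q) := by
  obtain ⟨fin, b, d, s⟩ := stp a pl S S' L Q la u
  obtain ⟨s1, s2⟩ := s q uq nq
  by_cases c : z ∈ Bl a ⊤
  · have e : finrank F (Sel a pl S S' L Q) = 2 := by rw [le_antisymm (h1 c) b, d]
    exact .inl ⟨c, e, by rw [s2 fun y m => Kil.bl_vs a _ (h1 c m), e]⟩
  · exact .inr ⟨c, d.ge.trans_lt (Submodule.finrank_lt_finrank_of_lt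
      (lt_of_le_of_ne b fun e => c (e.ge hz))), s1 ⟨z, hz, h2 c⟩⟩

theorem emp (a : GQ →* M2) (pl : Pl) (S S' : Finset ℕ) (L : ℕ → Submodule F X) :
    Sel a pl S S' L ∅ = Sf a pl S S' L := by
  simp [Sel, Sf]

end Ind

open Ind in
/-- **the induction** -/
theorem ind (stp : STP) : IND := by
  intro a a' pl S S' L G Z la la' hG sp h0 H
  have key : ∀ (k : ℕ) (Q : Finset ℕ), (∀ q ∈ Q, G q) → Z Q →
      finrank F (Sel a pl S S' L Q) < k → finrank F (Sel a' pl S S' L Q) < k →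
      (finrank F (Sel a pl S S' L Q) + finrank F (Sel a' pl S S' L Q)) % 2 = 1 := by
    intro k
    induction k with
    | zero => intro Q _ _ h; omega
    | succ k ih =>
      intro Q g nz h h'
      obtain ⟨r, hr, d, hd, nd, st⟩ := H Q g nz
      have : ∃ w ∈ Sel a pl S S' L Q, ∃ w' ∈ Sel a' pl S S' L Q,
          (w ∈ Bl a ⊤ → Sel a pl S S' L Q ≤ Bl a ⊤) ∧
          (w' ∈ Bl a' ⊤ → Sel a' pl S S' L Q ≤ Bl a' ⊤) ∧ (w ∉ Bl a ⊤ ∨ w' ∉ Bl a' ⊤) ∧
          ∀ l ∉ Q, G l → (w ∉ Bl a ⊤ → w ∉ Vs a (pl.σ l)) → (w' ∉ Bl a' ⊤ → w' ∉ Vs a' (pl.σ l)) →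
            Z (insert l Q) := by
        rcases hr with rfl | rfl
        · obtain ⟨w, m, p⟩ := pick (Sel a' pl S S' L Q) (Bl a' ⊤)
          exact ⟨d, hd, w, m, fun x => (nd x).elim, p, .inl nd, fun l n gl v _ => st l n gl (v nd)⟩
        · obtain ⟨w, m, p⟩ := pick (Sel a pl S S' L Q) (Bl a ⊤)
          exact ⟨w, m, d, hd, p, fun x => (nd x).elim, .inr nd, fun l n gl _ v => st l n gl (v nd)⟩
      obtain ⟨w, hw, w', hw', w2, w2', ne, st'⟩ := this
      obtain ⟨q, nq, gq, v, v'⟩ := sp (S' ∪ Q) w w' hw.1 hw'.1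
      have nq' : q ∉ Q := fun m => nq (Finset.mem_union_right _ m)
      have c := chg stp la (fun x m => (hG x (g x m)).1) (hG q gq).1 nq' hw w2 v
      have c' := chg stp la' (fun x m => (hG x (g x m)).2) (hG q gq).2 nq' hw' w2' v'
      have i := ih (insert q Q) (Finset.forall_mem_insert _ _ _ |>.2 ⟨gq, g⟩) (st' q nq' gq v v')
      rcases c with c | c <;> rcases c' with c' | c'
      · exact (ne.elim (· c.1) (· c'.1) : False).elim
      all_goals omega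
  rw [← emp, ← emp, Nat.odd_iff]
  exact key _ ∅ (by simp) h0 (Nat.lt_succ_of_le (Nat.le_add_right _ _))
    (Nat.lt_succ_of_le (Nat.le_add_left _ _))

end Vale.Agent.P014Y.Kp
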