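import Vale.Agent.P014Y.Kp.Is1
import Vale.Agent.P014Y.Wp.Iso
import Vale.Agent.P014Y.Wp.Cyc

/-! # P014Y, block KP: the isotropy at a decomposition group, unconditional (helper84) -/

set_option autoImplicit false
set_option linter.all false

noncomputable section

namespace Vale.Agent.P014Y.Kp.Is

open NumberField Matrix Finset
open scoped Classical
open Vale.Agent.P022 (Qb GQ)
open Vale.Agent.P022D.W (dec)
open Vale.Agent.P022E.GW (Ov)
open Vale.Agent.P014U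
open P004M.TE (Pt ga)
open P004F (hq)
open Cp (vv ab)
open Mu (F X Cl Ot)

theorem nm_iff {G : Type} [AddCommGroup G] {q p k : ℕ} (h : q = p ^ (k + 1)) (Q : ZMod q → G) :
    Wp.Cy.nm G p k Q = 0 ↔ ∀ i, nm p (p ^ k) Q i = 0 := by
  have e : ∀ i, nm p (p ^ k) Q i = Wp.Cy.nm G p k Q (i - (p ^ k : ℕ)) := fun i => by
    rw [Wp.Cy.nm_ap, nm, ← sum_range_reflect]
    refine sum_congr rfl fun j m => congrArg Q ?_
    rw [Nat.sub_sub, Nat.cast_sub (by simpa [add_comm] using m), sub_mul,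
      pe0 (h.trans (pow_succ' _ _))]
    push_cast; ring
  exact ⟨fun k i => by rw [e, k, Pi.zero_apply], fun k => funext fun i => by
    rw [← add_sub_cancel_right i _, ← e, k, Pi.zero_apply]⟩

theorem os_of {Y : Type} [MulAction GQ Y] (U : Subgroup GQ) (o : IsOpen (U : Set GQ))
    (h : ∀ u ∈ U, ∀ i : Y, u • i = i) : Wp.Os Y := fun i =>
  (IsLocallyConstant.iff_eventually_eq _).2 fun g =>
    Filter.mem_of_superset ((o.preimage (continuous_const.mul continuous_inv)).mem_nhds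
      (show g * g⁻¹ ∈ U from mul_inv_cancel g ▸ U.one_mem)) fun j (m : g * j⁻¹ ∈ U) =>
        show j⁻¹ • i = g⁻¹ • i by rw [← inv_mul_cancel_left g j⁻¹, mul_smul, h _ m]

variable [Pp] {A B : ℤ} (hD : 4 * A ^ 3 + 27 * B ^ 2 ≠ 0) {q e l : ℕ} [NeZero q]
  {P : Ideal (𝓞 Qb)}

theorem I1.cg {h : 4 * (A : ℚ) ^ 3 + 27 * (B : ℚ) ^ 2 ≠ 0} {D : Subgroup GQ}
    {s s' : GQ → ZMod q → ZMod q} (a : I1 h D s) (k : ∀ g ∈ D, ∀ i, s' g i = s g i) : I1 h D s' :=
  fun Q R b c => X4F.Rc.b2_congr (a Q R (fun g m i => k g m i ▸ b g m i) fun g m i => k g m i ▸ c g m i)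
    fun g m j n => by simp only [k g m, k j n, sub_self, zero_mem]

theorem i1 [MulAction GQ (ZMod q)] (hX : Wp.Os (ZMod q)) (o : Ov l P) :
    I1 (hq hD) (dec P) fun g (i : ZMod q) => g⁻¹ • i := fun Q R a b =>
  have k : ∀ Q : ZMod q → Pt A B, (∀ g ∈ dec P, ∀ i, pp ^ 1 • (ga g (Q (g⁻¹ • i)) - Q i) = 0) →
      pp ^ 1 • Q ∈ Ki.Fx (dec P) Wp.rm := fun Q a g m => funext fun i => by
    rw [map_nsmul, Pi.smul_apply, Pi.smul_apply, ← sub_eq_zero, ← nsmul_sub]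
    exact a g m i
  Wp.isoM hD hX o (k Q a) (k R b)

/-- for the affine action of a dihedral cocycle -/
theorem i1_chi (Γ U : Subgroup GQ) (ix : Γ.index = 2) (op : IsOpen (U : Set GQ)) (ul : U ≤ Γ)
    {χ : GQ → ZMod q} (mul : ∀ g h, χ (g * h) = χ g + if g ∈ Γ then χ h else -χ h)
    (u0 : ∀ g ∈ U, χ g = 0) (o : Ov l P) (le : dec P ≤ Γ) :
    I1 (hq hD) (dec P) fun g i => i - χ g := by
  have c1 : χ 1 = 0 := by simpa [Γ.one_mem] using mul 1 1
  letI : MulAction GQ (ZMod q) :=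
    { smul := fun g i => χ g + if g ∈ Γ then i else -i
      one_smul := fun i => show χ 1 + ite _ _ _ = i by rw [c1, if_pos Γ.one_mem, zero_add]
      mul_smul := fun g h i => show χ _ + ite _ _ _ = χ g + ite _ (χ h + ite _ _ _) (-(χ h + ite _ _ _)) by
        rw [mul]
        by_cases a : g ∈ Γ <;> by_cases b : h ∈ Γ <;>
          simp [Subgroup.mul_mem_iff_of_index_two ix, a, b, add_assoc, add_comm, add_left_comm] }
  refine (i1 hD (os_of U op fun u m i => show χ u + ite _ _ _ = i by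
    rw [u0 u m, if_pos (ul m), zero_add]) o).cg fun g m i => show _ = χ g⁻¹ + ite _ _ _ from ?_
  have k := mul g g⁻¹
  rw [mul_inv_cancel, c1, if_pos (le m)] at k
  rw [if_pos (inv_mem (le m))]
  linear_combination k

/-- **isotropy, for an action which commutes with the shift on the decomposition group** -/
theorem iso [MulAction GQ (ZMod q)] (hX : Wp.Os (ZMod q)) (h : q = pp * e) (o : Ov l P)
    (hs : ∀ g ∈ dec P, ∀ i k : ZMod q, g⁻¹ • (i + k) = g⁻¹ • i + k) :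
    Ip (hq hD) e (dec P) (fun g (i : ZMod q) => g⁻¹ • i) ≤
      Ot (ab (hq hD)) (dec P) (Ip (hq hD) e (dec P) fun g (i : ZMod q) => g⁻¹ • i) :=
  ip_le _ h (P022K.G2.dec_closed P) hs (i1 hD hX o)

/-- **isotropy, for a dihedral cocycle** -/
theorem iso_chi (Γ U : Subgroup GQ) (ix : Γ.index = 2) (op : IsOpen (U : Set GQ)) (ul : U ≤ Γ)
    {χ : GQ → ZMod q} (mul : ∀ g h, χ (g * h) = χ g + if g ∈ Γ then χ h else -χ h)
    (u0 : ∀ g ∈ U, χ g = 0) (h : q = pp * e) (o : Ov l P) (le : dec P ≤ Γ) {d d' : X}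
    {x y : ZMod q → Pt A B} (hx : ∀ i, nm pp e x i = 0) (hy : ∀ i, nm pp e y i = 0)
    (a : ∀ g ∈ dec P, ∀ i, ga g (x (i - χ g)) - x i = vv (hq hD) (d g))
    (b : ∀ g ∈ dec P, ∀ i, ga g (y (i - χ g)) - y i = vv (hq hD) (d' g)) :
    L2.cu (ab (hq hD)) d d' ∈ L2.BB (ab (hq hD)) (dec P) :=
  bb _ h (P022K.G2.dec_closed P) (fun _ _ i k => add_sub_right_comm i k _)
    (i1_chi hD Γ U ix op ul mul u0 o le) hx hy a b

/-- the trivial character -/
theorem iso_one (o : Ov l P) {d d' : X} {x y : Pt A B}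
    (a : ∀ g ∈ dec P, ga g x - x = vv (hq hD) (d g))
    (b : ∀ g ∈ dec P, ga g y - y = vv (hq hD) (d' g)) :
    L2.cu (ab (hq hD)) d d' ∈ L2.BB (ab (hq hD)) (dec P) := by
  have k : ∀ {d : X} {x : Pt A B}, (∀ g ∈ dec P, ga g x - x = vv (hq hD) (d g)) →
      pp ^ 1 • x ∈ Ki.Fx (dec P) ga := fun a g m => by
    rw [map_nsmul, ← sub_eq_zero, ← nsmul_sub, a g m, Cp.vv_two]
  rw [L2.BB, Cp.dt_ab]
  exact (Cp.b2_iff _ (P022K.G2.dec_closed P) (x := fun g _ => d g)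
    (y := fun g j => ab (hq hD) g *ᵥ d' j) fun g m j n => by
      rw [Ki.cu, a g m, b j n, Cp.ga_vv]).1 (Ki.iso hD o (k a) (k b))

end Vale.Agent.P014Y.Kp.Is
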