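import Vale.Agent.P014U.Ki.Abs

/-! # P014Y, block KP: descent of the isotropy from an induced module (helper84) -/

set_option autoImplicit false
set_option linter.all false

noncomputable section

namespace Vale.Agent.P014Y.Kp.Is

open Finset
open Vale.Agent.P022 (GQ)
open Vale.Agent.P014U
open X4S.Ga (K O B2)
open X4S.Aq (cy)
open X4F.Rc (mq mq_eq b2_congr)

section

variable {q p e : ℕ} {T Z : Type} [AddCommGroup T] [AddCommGroup Z]

theorem sum_z [NeZero q] (F : ZMod q → Z) : ∑ i, F i = ∑ k ∈ range q, F k :=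
  sum_nbij' (fun i => i.val) (fun k => (k : ZMod q)) (fun i _ => mem_range.2 (ZMod.val_lt i))
    (fun _ _ => mem_univ _) (fun i _ => ZMod.natCast_zmod_val i)
    (fun _ m => ZMod.val_cast_of_lt (mem_range.1 m)) fun i _ => by rw [ZMod.natCast_zmod_val]

theorem sum_pe (G : ℕ → Z) (p e : ℕ) :
    ∑ k ∈ range (p * e), G k = ∑ i ∈ range e, ∑ j ∈ range p, G (i + j * e) := by
  induction p with
  | zero => simp
  | succ p ih =>
    rw [Nat.succ_mul, sum_range_add, ih, ← sum_add_distrib]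
    simp only [sum_range_succ, add_comm]

theorem per {S : ZMod q → Z} (h : ∀ i, S (i + e) = S i) (j : ℕ) (i : ZMod q) :
    S (i + j * e) = S i := by
  induction j with
  | zero => simp
  | succ j ih => rw [Nat.cast_succ, add_mul, one_mul, ← add_assoc, h, ih]

theorem pe0 (hq : q = p * e) : (p : ZMod q) * e = 0 := by
  rw [← Nat.cast_mul, ← hq, ZMod.natCast_self]

/-- the norm along the subgroup generated by `e` -/
def nm (p e : ℕ) (x : ZMod q → Z) (i : ZMod q) : Z := ∑ j ∈ range p, x (i + j * e)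

/-- the derivative along the subgroup generated by `e` -/
def dr (p e : ℕ) (x : ZMod q → Z) (i : ZMod q) : Z := ∑ j ∈ range p, j • x (i + j * e)

theorem sh (i : ZMod q) (j : ℕ) : i + e + j * e = i + (j + 1 : ℕ) * e := by
  push_cast; ring

theorem nm_per (hq : q = p * e) (x : ZMod q → Z) (i : ZMod q) : nm p e x (i + e) = nm p e x i := by
  have a := sum_range_succ (fun j : ℕ => x (i + j * e)) p
  rw [sum_range_succ', pe0 hq, Nat.cast_zero, zero_mul] at a
  simp only [nm, sh]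
  exact add_right_cancel a

theorem dr_sh (hq : q = p * e) (x : ZMod q → Z) (i : ZMod q) :
    dr p e x (i + e) - dr p e x i = p • x i - nm p e x (i + e) := by
  have a := sum_range_succ (fun j : ℕ => j • x (i + j * e)) p
  rw [sum_range_succ', pe0 hq, zero_smul, add_zero, add_zero] at a
  simp only [succ_nsmul, sum_add_distrib] at a
  simp only [nm, dr, sh]
  rw [sub_eq_sub_iff_add_eq_add, a, add_comm]

/-- the kernel of the norm is divisible -/
theorem dvs [NeZero q] (hq : q = p * e) (d : ∀ y : Z, ∃ z, p • z = y) (x : ZMod q → Z)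
    (hx : ∀ i, nm p e x i = 0) :
    ∃ z : ZMod q → Z, (∀ i, p • z i = x i) ∧ ∀ i, nm p e z i = 0 := by
  choose r hr using d
  have q0 := NeZero.ne q
  obtain ⟨p, rfl⟩ := Nat.exists_eq_succ_of_ne_zero (left_ne_zero_of_mul (hq ▸ q0))
  have e0 : 0 < e := Nat.pos_of_ne_zero (right_ne_zero_of_mul (hq ▸ q0))
  refine ⟨fun i => r (x i) - if i.val < e then nm p.succ e (fun i => r (x i)) i else 0,
    fun i => ?_, fun i => ?_⟩
  · rw [smul_sub, hr, sub_eq_self]
    split_ifs
    · simp only [nm, smul_sum, hr]; exact hx i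
    · exact smul_zero _
  · rw [← ZMod.natCast_zmod_val i, ← Nat.mod_add_div' i.val e, Nat.cast_add, Nat.cast_mul,
      per (nm_per hq _)]
    have l := Nat.mod_lt i.val e0
    generalize i.val % e = k at l
    have v : ∀ j < p + 1, ((k : ZMod q) + j * e).val = k + j * e := fun j m => by
      rw [← Nat.cast_mul, ← Nat.cast_add, ZMod.val_cast_of_lt]
      rw [hq]; nlinarith
    rw [nm, sum_sub_distrib, sub_eq_zero, eq_comm, sum_eq_single 0, v 0 p.succ_pos,
      if_pos (by simpa using l), Nat.cast_zero, zero_mul, add_zero, nm]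
    · intro j m n
      rw [v j (mem_range.1 m), if_neg]
      have := Nat.pos_of_ne_zero n
      nlinarith
    · exact fun m => (m (mem_range.2 p.succ_pos)).elim

/-- summation by parts -/
theorem pt [NeZero q] (β : T →+ T →+ Z) (hq : q = p * e) (u b : ZMod q → T) (s t : T)
    (hu : ∀ i, nm p e u i = -s) (hb : ∀ i, b (i + e) - b i = t) :
    ∑ i, β (u i - u (i - 1)) (b i) = β s t := by
  have k : ∑ i, β (u (i - 1)) (b i) = ∑ i, β (u i) (b (i + 1)) :=
    (Fintype.sum_equiv (Equiv.addRight 1) _ _ fun i => by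
      rw [Equiv.coe_addRight, add_sub_cancel_right]).symm
  have g : ∀ i, b (i + e) - b (i + e + 1) = b i - b (i + 1) := fun i => by
    rw [add_right_comm, sub_eq_sub_iff_sub_eq_sub, hb, hb]
  simp only [map_sub, AddMonoidHom.sub_apply, sum_sub_distrib]
  rw [k, ← sum_sub_distrib]
  simp only [← map_sub]
  rw [sum_z, congrArg range hq, sum_pe (fun k => β (u k) (b k - b (k + 1)))]
  have v : ∀ i : ℕ, ∑ j ∈ range p, β (u (i + j * e : ℕ)) (b (i + j * e : ℕ) - b ((i + j * e : ℕ) + 1)) =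
      β s (b (i + 1 : ℕ) - b i) := fun i => by
    simp only [Nat.cast_add, Nat.cast_mul, per (S := fun i => b i - b (i + 1)) g]
    rw [← AddMonoidHom.finset_sum_apply, ← map_sum, ← nm, hu, map_neg, AddMonoidHom.neg_apply,
      ← map_neg, neg_sub, Nat.cast_one]
  rw [sum_congr rfl fun i _ => v i, ← map_sum, sum_range_sub (fun i : ℕ => b i), ← hb 0, zero_add,
    Nat.cast_zero]

end

variable [Pp] {q e : ℕ} [NeZero q] {Y : Type} [AddCommGroup Y] {ρ : GQ → Y →+ Y}
  {w : ℕ → Y → Y → K}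

/-- the elements of order `pp` -/
def T1 (Y : Type) [AddCommGroup Y] : AddSubgroup Y := (nsmulAddMonoidHom (pp ^ 1) : Y →+ Y).ker

/-- the pairing on the elements of order `pp` -/
def bw (H : Ki.Pr ρ w) : T1 Y →+ T1 Y →+ K ⧸ O := AddMonoidHom.mk'
  (fun x => AddMonoidHom.mk' (fun y => mq (w 1 x y)) fun y y' => H.addr x.2 y.2 y'.2)
  fun x x' => AddMonoidHom.ext fun y => H.addl x.2 x'.2 y.2

theorem pw (H : Ki.Pr ρ w) (hq : q = pp * e) (c b : ZMod q → Y) (s t : Y)
    (h1 : ∀ i, pp • c i = s) (h2 : ∀ i, nm pp e c i = 0) (h3 : ∀ i, pp ^ 1 • b i = 0)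
    (h4 : ∀ i, b (i + e) - b i = t) :
    mq (w 1 s t) = mq (∑ i, w 1 (c i - c (i - 1)) (b i)) := by
  have u : ∀ i, c i - c 0 ∈ T1 Y := fun i => show pp ^ 1 • (c i - c 0) = 0 by
    rw [pow_one, smul_sub, h1, h1, sub_self]
  have k : ∀ i, nm pp e (fun i => c i - c 0) i = -s := fun i => by
    rw [nm, sum_sub_distrib, ← nm, h2, sum_const, card_range, h1, zero_sub]
  have m : s ∈ T1 Y := neg_mem_iff.1 (k 0 ▸ sum_mem fun j _ => u _)
  have n : t ∈ T1 Y := h4 0 ▸ sub_mem (h3 _) (h3 _)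
  refine (pt (bw H) hq (fun i => ⟨_, u i⟩) (fun i => ⟨_, h3 i⟩) ⟨s, m⟩ ⟨t, n⟩
    (fun i => Subtype.ext ((AddSubmonoidClass.coe_finset_sum _ _).trans (k i)))
    fun i => Subtype.ext (h4 i)).symm.trans ?_
  rw [map_sum]
  exact sum_congr rfl fun i _ => congrArg (fun z => mq (w 1 z (b i))) (sub_sub_sub_cancel_right _ _ _)

theorem dr0 {t : Y} (ht : pp • t = 0) : ∑ j ∈ range pp, j • t = 0 := by
  obtain ⟨c, k⟩ : pp ∣ ∑ j ∈ range pp, j :=
    ((Nat.coprime_primes pp_prime Nat.prime_two).2 pp_ne_two).dvd_of_dvd_mul_right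
      (sum_range_id_mul_two pp ▸ dvd_mul_right _ _)
  rw [← sum_smul, k, mul_comm, mul_smul, ht, smul_zero]

/-- **the descent** -/
theorem ds (H : Ki.Pr ρ w) (hq : q = pp * e) {D : Subgroup GQ} {s : GQ → ZMod q → ZMod q}
    (hs : ∀ g ∈ D, ∀ i k, s g (i + k) = s g i + k)
    (iso : ∀ Q R : ZMod q → Y, (∀ g ∈ D, ∀ i, pp ^ 1 • (ρ g (Q (s g i)) - Q i) = 0) →
      (∀ g ∈ D, ∀ i, pp ^ 1 • (ρ g (R (s g i)) - R i) = 0) → B2 cy D fun g h =>
        ∑ i, w 1 (ρ g (Q (s g i)) - Q i) (ρ g (ρ h (R (s h (s g i))) - R (s g i))))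
    {x y : ZMod q → Y} (hx : ∀ i, nm pp e x i = 0) (hy : ∀ i, nm pp e y i = 0) {d d' : GQ → Y}
    (a : ∀ g ∈ D, ∀ i, ρ g (x (s g i)) - x i = d g) (b : ∀ g ∈ D, ∀ i, ρ g (y (s g i)) - y i = d' g) :
    B2 cy D fun g h => w 1 (d g) (ρ g (d' h)) := by
  obtain ⟨z, z1, z2⟩ := dvs hq H.dv x hx
  obtain ⟨r, r1, r2⟩ := dvs hq H.dv y hy
  have n : ∀ {x : ZMod q → Y}, (∀ i, nm pp e x i = 0) → ∀ g ∈ D, ∀ i,
      nm pp e (fun i => ρ g (x (s g i)) - x i) i = 0 := fun h g m i => by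
    simp only [nm, sum_sub_distrib, hs g m, ← map_sum] at h ⊢
    rw [h, h, map_zero, sub_self]
  have t : ∀ g ∈ D, pp • d' g = 0 := fun g m => by
    simpa only [nm, b g m, sum_const, card_range] using n hy g m 0
  have k : ∀ g ∈ D, ∀ i, pp ^ 1 • (ρ g (dr pp e r (s g i)) - dr pp e r i) = 0 := fun g m i => by
    rw [← dr0 (t g m)]
    simp only [pow_one, dr, map_sum, ← sum_sub_distrib, smul_sum, map_nsmul, ← smul_sub,
      smul_comm pp, ← hs g m]
    simp only [smul_sub, ← map_nsmul _ pp, r1, b g m]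
  have v : ∀ g ∈ D, ∀ i, ρ g (z (s g i) - z (s g i - 1)) - (z i - z (i - 1)) =
      ρ g (z (s g i)) - z i - (ρ g (z (s g (i - 1))) - z (i - 1)) := fun g m i => by
    rw [sub_eq_add_neg i, hs g m, ← sub_eq_add_neg, ← sub_eq_add_neg, map_sub]; abel
  have c : ∀ g ∈ D, ∀ i, pp • (ρ g (z (s g i)) - z i) = d g := fun g m i => by
    rw [smul_sub, ← map_nsmul, z1, z1, a g m]
  refine b2_congr (iso (fun i => z i - z (i - 1)) (dr pp e r) (fun g m i => by
    rw [v g m, pow_one, smul_sub, c g m, c g m, sub_self]) k) fun g m h o => mq_eq.1 ?_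
  simp only [v g m]
  refine pw H hq _ _ _ _ (c g m) (n z2 g m) (fun i => Ki.tor_map (k h o _) g) fun i => ?_
  rw [← map_sub, hs g m, hs h o, sub_sub_sub_comm, ← map_sub, dr_sh hq, dr_sh hq, r2, r2, r1, r1,
    sub_zero, sub_zero, b h o]

end Vale.Agent.P014Y.Kp.Is
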