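import Vale.Agent.P014Y.Kp.Is0
import Vale.Agent.P014Y.Mu.St0
import Vale.Agent.P014U.Cp.One

/-! # P014Y, block KP: the isotropy in the residual words (helper84) -/

set_option autoImplicit false
set_option linter.all false

noncomputable section

namespace Vale.Agent.P014Y.Kp.Is

open Matrix
open scoped Classical
open Vale.Agent.P022 (GQ)
open Vale.Agent.P014U
open X4S.Ga (B2)
open X4S.Aq (cy)
open P004M.TE (Pt ga)
open Cp (vv ab)
open Mu (F X Cl Ot)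

variable [Pp] {A B : ℤ} (h : 4 * (A : ℚ) ^ 3 + 27 * (B : ℚ) ^ 2 ≠ 0) {q : ℕ}

/-- isotropy for the induced module at the first level -/
def I1 [NeZero q] (D : Subgroup GQ) (s : GQ → ZMod q → ZMod q) : Prop :=
  ∀ Q R : ZMod q → Pt A B, (∀ g ∈ D, ∀ i, pp ^ 1 • (ga g (Q (s g i)) - Q i) = 0) →
    (∀ g ∈ D, ∀ i, pp ^ 1 • (ga g (R (s g i)) - R i) = 0) → B2 cy D fun g j =>
      ∑ i, Ki.wp h 1 (ga g (Q (s g i)) - Q i) (ga g (ga j (R (s j (s g i))) - R (s g i)))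

/-- the classes which die in the kernel of the norm -/
def Ip (e : ℕ) (D : Subgroup GQ) (s : GQ → ZMod q → ZMod q) : Submodule F X :=
  AddSubgroup.toZModSubmodule pp
    { carrier := {d | d ∈ Cl (ab h) D ∧ ∃ x : ZMod q → Pt A B, (∀ i, nm pp e x i = 0) ∧
        ∀ g ∈ D, ∀ i, ga g (x (s g i)) - x i = vv h (d g)}
      add_mem' := by
        rintro d d' ⟨a, x, a1, a2⟩ ⟨b, y, b1, b2⟩
        refine ⟨add_mem a b, x + y, fun i => ?_, fun g m i => ?_⟩
        · simp only [nm, Pi.add_apply, Finset.sum_add_distrib] at a1 b1 ⊢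
          rw [a1, b1, add_zero]
        · rw [Pi.add_apply, Pi.add_apply, Pi.add_apply, map_add, map_add, add_sub_add_comm,
            a2 g m, b2 g m]
      zero_mem' := ⟨zero_mem _, 0, fun _ => Finset.sum_const_zero, fun _ _ _ => by simp⟩
      neg_mem' := by
        rintro d ⟨a, x, a1, a2⟩
        refine ⟨neg_mem a, -x, fun i => ?_, fun g m i => ?_⟩
        · simp only [nm, Pi.neg_apply, Finset.sum_neg_distrib] at a1 ⊢
          rw [a1, neg_zero]
        · rw [Pi.neg_apply, Pi.neg_apply, Pi.neg_apply, map_neg, map_neg, ← a2 g m i]; abel }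

variable {e : ℕ} {D : Subgroup GQ} {s : GQ → ZMod q → ZMod q} {d d' : X}

theorem mem_Ip : d ∈ Ip h e D s ↔ d ∈ Cl (ab h) D ∧ ∃ x : ZMod q → Pt A B,
    (∀ i, nm pp e x i = 0) ∧ ∀ g ∈ D, ∀ i, ga g (x (s g i)) - x i = vv h (d g) := Iff.rfl

theorem ip_cl : Ip h e D s ≤ Cl (ab h) D := fun _ m => m.1

variable [NeZero q] (hq : q = pp * e) (cl : IsClosed (D : Set GQ))
  (hs : ∀ g ∈ D, ∀ i k, s g (i + k) = s g i + k) (iso : I1 h D s)
include hq cl hs iso

theorem bb {x y : ZMod q → Pt A B} (hx : ∀ i, nm pp e x i = 0) (hy : ∀ i, nm pp e y i = 0)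
    (a : ∀ g ∈ D, ∀ i, ga g (x (s g i)) - x i = vv h (d g))
    (b : ∀ g ∈ D, ∀ i, ga g (y (s g i)) - y i = vv h (d' g)) :
    L2.cu (ab h) d d' ∈ L2.BB (ab h) D := by
  rw [L2.BB, Cp.dt_ab]
  exact (Cp.b2_iff h cl (x := fun g _ => d g) (y := fun g j => ab h g *ᵥ d' j)
    fun g _ j _ => by rw [Cp.ga_vv]).1 (ds (Ki.pr h) hq hs iso hx hy a b)

/-- **isotropy** -/
theorem ip_le : Ip h e D s ≤ Ot (ab h) D (Ip h e D s) :=
  fun _ ⟨m, _, b1, b2⟩ => ⟨m, fun _ ⟨_, _, a1, a2⟩ => bb h hq cl hs iso a1 b1 a2 b2⟩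

end Vale.Agent.P014Y.Kp.Is
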