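import Vale.Agent.P014Y.Kp.St
import Vale.Agent.P014Y.Kp.Is

/-! # P014Y, block KP: rows IS0, IS3, ISD (helper84) -/

set_option autoImplicit false
set_option linter.all false

noncomputable section

namespace Vale.Agent.P014Y.Kp

open NumberField Matrix
open scoped Classical
open Vale.Agent.P022 (Qb GQ)
open Vale.Agent.P022D.W (dec)
open Vale.Agent.P022E.GW (Ov)
open Vale.Agent.P004K (Hc)
open Vale.Agent.P014U
open X4S.Ga (B2)
open X4S.Aq (cy)
open P004M.TE (Pt ga)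
open P004F (sd hq)
open P004S (nu)
open P014T.Ki (Fx)
open P014Y.F (Crv Fld)
open Mu

namespace Isd

theorem sdm (d : ℤ) (g h : GQ) : sd d (g * h) = sd d g * sd d h := by
  rw [sd, sd, sd, P004S.nu_mul]
  rcases P004S.z2 (nu d g) with p | p <;> rcases P004S.z2 (nu d h) with q | q <;> rw [p, q] <;> decide

theorem sdi (d : ℤ) (g : GQ) : sd d g⁻¹ = sd d g := by rw [sd, sd, P004S.nu_inv]

theorem sd1 (d : ℤ) : sd d 1 = 1 := if_pos (P004S.nu_one d)

theorem sdp (d : ℤ) (g : GQ) (n : ℕ) : sd d g ^ n = 1 ∨ sd d g ^ n = -1 := by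
  rw [sd]; split_ifs
  exacts [.inl (one_pow n), neg_one_pow_eq_or ℤ n]

variable [Pp] {e : Crv} {b : Fld e} (k : Ch b)

theorem c1 : k.χ 1 = 0 := by simpa [sd1] using k.mul 1 1

/-- the affine action -/
@[reducible] def ma : MulAction GQ (Zq k.s) where
  smul g i := k.χ g + sd (-b.δ') g * i
  one_smul i := show k.χ 1 + sd _ 1 * i = i by rw [c1, sd1, Int.cast_one, one_mul, zero_add]
  mul_smul g h i := show k.χ _ + sd _ _ * i = k.χ g + sd _ g * (k.χ h + sd _ h * i) by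
    rw [k.mul, sdm, Int.cast_mul]; ring

theorem inv (g : GQ) (i : Zq k.s) :
    k.χ g⁻¹ + sd (-b.δ') g⁻¹ * i = sd (-b.δ') g * (i - k.χ g) := by
  have := k.mul g⁻¹ g
  rw [inv_mul_cancel, c1, sdi] at this
  rw [sdi]
  linear_combination -this

theorem rho (n : ℕ) : k.ρ n = @Wp.ra _ (ma k) _ _ fun g _ => sd (-b.δ') g ^ n :=
  funext fun g => AddMonoidHom.ext fun x => funext fun i =>
    congrArg (fun j => sd (-b.δ') g ^ n • ga g (x j)) (inv k g i).symm

theorem os : @Wp.Os _ (ma k) :=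
  @Is.os_of _ (ma k) (Hc b.j (pp ^ k.t) ⊓ P004S.kn (-b.δ'))
    ((P004K.x_rc1 b.K b.j b.iq _ (pow_pos pp_pos _)).2.1.inter
      ((P004S.nu_lc _).isOpen_fiber 0)) fun u m i => show k.χ u + sd _ u * i = i by
    rw [k.ker u m.1, sd, if_pos (P004S.mem_kn.1 m.2), Int.cast_one, one_mul, zero_add]

theorem sg (n : ℕ) : @Wp.Sg _ (ma k) fun g _ => sd (-b.δ') g ^ n :=
  @Wp.Sg.mk _ (ma k) _ (fun g h _ => by rw [sdm, mul_pow]) (fun g _ => sdp _ g n)
    fun _ => (P004S.nu_lc _).comp fun z => (if z = 0 then 1 else -1 : ℤ) ^ n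

theorem rho0 : k.ρ 0 = @Wp.rm _ (ma k) _ _ := by
  letI := ma k
  rw [rho]; simp only [pow_zero]; exact Wp.ra_one

theorem nm0 {x : k.M} (m : x ∈ k.A) : ∀ i, Is.nm pp (pp ^ k.s) x i = 0 :=
  (Is.nm_iff rfl x).1 (funext fun i => by
    rw [Wp.Cy.nm_ap]
    exact ((congrFun (AddMonoidHom.finset_sum_apply _ _ x) i).trans (Finset.sum_apply ..)).symm.trans
      (congrFun m i))

end Isd

open Isd

variable [Pp] {e : Crv} {b : Fld e} {l : ℕ} {P : Ideal (𝓞 Qb)}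

/-- the pairing and the action -/
theorem prk (k : Ch b) (n : ℕ) : Ki.Pr (k.ρ n) k.w :=
  letI := ma k; rho k n ▸ Wp.pr_ra e.par.disc (os k) (sg k n)

/-- **isotropy on the whole module, at every prime** -/
theorem ism (k : Ch b) (o : Ov l P) {n : ℕ} {x y : k.M} (a : pp ^ n • x ∈ Fx (dec P) (k.ρ 0))
    (c : pp ^ n • y ∈ Fx (dec P) (k.ρ 0)) : B2 cy (dec P) (Ki.cu (k.ρ 0) k.w n x y) := by
  letI := ma k
  rw [rho0] at a c ⊢
  exact Wp.isoM e.par.disc (os k) o a c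

theorem isa (k : Ch b) (o : Ov l P) : k.Is (dec P) := fun _ _ _ _ _ => ism k o

theorem is3 : IS3 := fun _ _ k _ o _ _ => isa k o

theorem is0 : IS0 := fun e _ k _ _ o h ν _ _ _ a c => (prk k ν).iso0 (by
  letI := ma k
  rw [rho]; exact Wp.dvo e.par.disc o h (sg k ν).pm) a c

/-- **the classes of the local points are isotropic** -/
theorem isi (rse : RSE) (k : Ch b) (o : Ov l P) (le : dec P ≤ b.Γ) :
    ∀ x ∈ k.Ip (dec P), ∀ y ∈ k.Ip (dec P), L2.cu (rb e) x y ∈ L2.BB (rb e) (dec P) := by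
  rintro d ⟨-, x, a1, a2⟩ d' ⟨-, y, b1, b2⟩
  have s : ∀ g ∈ dec P, sd (-b.δ') g = 1 := fun g m =>
    if_pos ((((rse e).2.2 b).2.2.1 g).1 (le m))
  have v : ∀ {d : X} {x : k.M}, (∀ g ∈ dec P, k.em (d g) = k.ρ 0 g x - x) → ∀ g ∈ dec P, ∀ i,
      ga g (x (sd (-b.δ') g * (i - k.χ g))) - x i = Cp.vv (hq e.par.disc) (d g) := fun a g m i => by
    refine Eq.trans ?_ (congrFun (a g m) i).symm
    rw [Pi.sub_apply, k.ρ_apply, pow_zero, one_smul]
  letI := ma k
  exact Is.bb _ (pow_succ' _ _) (P022K.G2.dec_closed P)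
    (s := fun g i => (sd (-b.δ') g : Zq k.s) * (i - k.χ g))
    (fun g m i j => by rw [s g m, Int.cast_one]; ring)
    ((Is.i1 e.par.disc (os k) o).cg fun g _ i => (inv k g i).symm)
    (nm0 k a1) (nm0 k b1) (v a2) (v b2)

theorem isd (rse : RSE) : ISD := fun _ _ k _ _ o le _ => isi rse k o le

end Vale.Agent.P014Y.Kp
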