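import Vale.Agent.P004F.Es.Tr

/-! # P014Y, block Kp: the residual class of a point which is invariant modulo `n` -/

set_option autoImplicit false
set_option linter.all false

noncomputable section

namespace Vale.Agent.P014Y.Kp.Kc

open Finset Vale.Agent.P004F.Es

variable {G E O W : Type} [Group G] [AddCommGroup E] [DistribMulAction G E] [CommRing O]
  [Module O E] [AddCommGroup W] [Module O W]

/-- a divisible module `A` on which `n = π ^ s * u`, a stable part `F` without torsion -/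
structure Tw (Γ : Subgroup G) (π u : O) (n s : ℕ) (A F : Submodule O E) : Prop where
  lin : ∀ g ∈ Γ, ∀ (r : O) (x : E), g • r • x = r • g • x
  eq : ∀ x ∈ A, n • x = (π ^ s * u) • x
  dv : ∀ x ∈ A, ∃ y ∈ A, π • y = x
  le : F ≤ A
  stA : ∀ g ∈ Γ, ∀ x ∈ A, g • x ∈ A
  stF : ∀ g ∈ Γ, ∀ x ∈ F, g • x ∈ F
  tf : ∀ x ∈ F, π • x = 0 → x = 0

/-- `X` is not divisible by `π ^ k` -/
def Nz (π : O) (k : ℕ) (F : Submodule O E) (X : E) : Prop := ∀ R ∈ F, π ^ k • R ≠ X

/-- the residual class `d` of `X`: `X = π ^ (j + 1) R`, `s = j + 1 + i` -/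
structure Rc (Γ : Subgroup G) (π u : O) (s k : ℕ) (A F : Submodule O E) (X : E) (j i : ℕ) (R : E)
    (w d : G → E) : Prop where
  lt : j < k
  sum : s = j + 1 + i
  mem : R ∈ A
  memF : π • R ∈ F
  pw : π ^ (j + 1) • R = X
  mx : ∀ R' ∈ F, π • R' ≠ π • R
  wF : ∀ g ∈ Γ, w g ∈ F
  inv : ∀ g ∈ Γ, g • X = X + (π ^ s * u) • w g
  eq : ∀ g, d g = g • R - R - (π ^ i * u) • w g

variable {Γ N D : Subgroup G} {π u : O} {n s k j i : ℕ} {A F : Submodule O E} {X R x y : E}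
  {w d : G → E} {g h : G}

namespace Tw

variable (T : Tw Γ π u n s A F)
include T

theorem tfp (hx : x ∈ F) (k : ℕ) (e : π ^ k • x = 0) : x = 0 := by
  induction k generalizing x with
  | zero => simpa using e
  | succ k ih => exact T.tf x hx (ih (F.smul_mem π hx) (by rwa [← mul_smul, ← pow_succ]))

/-- **the class exists** -/
theorem ex (hk : k ≤ s) (hX : X ∈ F) (inv : ∀ g ∈ Γ, ∃ w ∈ F, g • X = X + n • w)
    (nz : Nz π k F X) : ∃ j i R w d, Rc Γ π u s k A F X j i R w d := by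
  classical
  choose! w w1 w2 using inv
  have ex : ∃ j, Nz π j F X := ⟨k, nz⟩
  obtain ⟨j, e⟩ := Nat.exists_eq_succ_of_ne_zero fun e : Nat.find ex = 0 =>
    Nat.find_spec ex X hX (by rw [e, pow_zero, one_smul])
  have l : j < k := (Nat.lt_succ_self j).trans_le (e.ge.trans (Nat.find_min' ex nz))
  obtain ⟨R₀, r1, r2⟩ : ∃ R ∈ F, π ^ j • R = X := by
    simpa [Nz] using Nat.find_min ex (e ▸ Nat.lt_succ_self j)
  obtain ⟨R, r3, rfl⟩ := T.dv R₀ (T.le r1)
  obtain ⟨i, hi⟩ := Nat.exists_eq_add_of_le (l.trans_le hk)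
  exact ⟨j, i, R, w, _, l, hi, r3, r1, by rw [pow_succ, mul_smul, r2], fun R' m e' =>
    Nat.find_spec ex R' m (by rw [e, pow_succ, mul_smul, e', r2]), w1,
    fun g m => by rw [w2 g m, T.eq _ (T.le (w1 g m))], fun _ => rfl⟩

variable (c : Rc Γ π u s k A F X j i R w d)
include c

theorem dA (hg : g ∈ Γ) : d g ∈ A := c.eq g ▸
  sub_mem (sub_mem (T.stA g hg R c.mem) c.mem) (A.smul_mem _ (T.le (c.wF g hg)))

theorem tor (hg : g ∈ Γ) : π • d g = 0 := by
  have e : π • d g = g • π • R - π • R - (π ^ (i + 1) * u) • w g := by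
    rw [c.eq, T.lin g hg, smul_sub, smul_sub, ← mul_smul, ← mul_assoc, ← pow_succ']
  refine T.tfp (e ▸ sub_mem (sub_mem (T.stF g hg _ c.memF) c.memF) (F.smul_mem _ (c.wF g hg))) j ?_
  have := c.inv g hg
  rw [← c.pw, T.lin g hg, c.sum] at this
  rw [c.eq]
  generalize g • R = r at this ⊢
  linear_combination (norm := module) this

theorem ntor (hx : x ∈ A) (e : π • x = 0) : n • x = 0 := by
  rw [T.eq x hx, c.sum, show π ^ (j + 1 + i) * u = π ^ (j + i) * u * π by ring, mul_smul, e, smul_zero]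

theorem uw (hg : g ∈ Γ) (hh : h ∈ Γ) : u • w (g * h) = u • w g + g • u • w h := by
  have m := mul_mem hg hh
  refine sub_eq_zero.1 (T.tfp (sub_mem (F.smul_mem u (c.wF _ m)) (add_mem (F.smul_mem u (c.wF g hg))
    (T.stF g hg _ (F.smul_mem u (c.wF h hh))))) s ?_)
  have a := c.inv _ m
  rw [mul_smul, c.inv h hh, smul_add, c.inv g hg, T.lin g hg] at a
  rw [T.lin g hg]
  generalize g • w h = r at a ⊢
  linear_combination (norm := module) -a

/-- the cocycle relation -/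
theorem coc (hg : g ∈ Γ) (hh : h ∈ Γ) : d (g * h) = d g + g • d h := by
  rw [c.eq, c.eq, c.eq, mul_smul (π ^ i), mul_smul (π ^ i), mul_smul (π ^ i), T.uw c hg hh, smul_sub,
    smul_sub, T.lin g hg (π ^ i), mul_smul, smul_add]
  abel

theorem fix (hg : g ∈ Γ) (e : g • X = X) : d g = g • R - R := by
  have := c.inv g hg
  rw [e, left_eq_add, mul_smul] at this
  rw [c.eq, mul_smul, T.tfp (F.smul_mem u (c.wF g hg)) s this, smul_zero, sub_zero]

/-- the class is not a coboundary on `N` -/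
theorem nb (hN : N ≤ Γ) (h1 : ∀ g ∈ N, g • X = X) (h2 : ∀ x ∈ A, (∀ g ∈ N, g • x = x) → x ∈ F)
    (hx : x ∈ A) (e : π • x = 0) : ¬ ∀ g ∈ N, d g = g • x - x := fun k =>
  c.mx (R - x) (h2 _ (sub_mem c.mem hx) fun g m => by
    have := (T.fix c (hN m) (h1 g m)).symm.trans (k g m)
    rw [smul_sub, ← sub_eq_zero, ← sub_eq_zero.2 this]
    abel) (by rw [smul_sub, e, sub_zero])

/-- the places of bad reduction -/
theorem loc (hD : D ≤ Γ) {a : ℕ} {v : O} (ha : a + k ≤ s) 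
    (hv : ∃ v' : O, ∀ x ∈ A, π • x = 0 → v' • v • x = x)
    (hx : x ∈ A) (e : ∀ g ∈ D, (π ^ a * v * u) • w g = g • x - x) :
    ∃ y ∈ A, ∀ g ∈ D, d g = g • y - y := by
  obtain ⟨v', hv⟩ := hv
  obtain ⟨b, rfl⟩ := Nat.exists_eq_add_of_le (show a ≤ i by have := c.lt; have := c.sum; omega)
  refine ⟨v' • (v • R - π ^ b • x), A.smul_mem v' (sub_mem (A.smul_mem v c.mem) (A.smul_mem (π ^ b) hx)),
    fun g m => ?_⟩
  have := e g m
  rw [← hv _ (T.dA c (hD m)) (T.tor c (hD m)), c.eq, T.lin g (hD m), smul_sub g, T.lin g (hD m),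
    T.lin g (hD m)]
  generalize g • R = r, g • x = z at this ⊢
  linear_combination (norm := module) (-(v' * π ^ b) : O) • this

variable {rd : E →ₗ[O] W} (inj : ∀ x ∈ A, π • x = 0 → rd x = 0 → x = 0)
include inj

theorem unr (hg : g ∈ Γ) (e : g • X = X) (h : rd (g • R) = rd R) : d g = 0 :=
  inj _ (T.dA c hg) (T.tor c hg) (by rw [T.fix c hg e, map_sub, h, sub_self])

theorem trv (hg : g ∈ Γ) (e : g • X = X) (h : ∀ Q ∈ A, n • rd Q = 0 → rd (g • Q) = rd Q)
    (hy : y ∈ A) (e1 : g • y = y) (e2 : rd X = n • rd y) : d g = 0 := by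
  have m := sub_mem c.mem (A.smul_mem (π ^ i * u) hy)
  have := h _ m (by
    rw [← map_nsmul, T.eq y hy, ← c.pw, c.sum, ← sub_eq_zero, ← map_sub] at e2
    rw [← map_nsmul, T.eq _ m, ← smul_zero (π ^ i * u), ← e2, ← map_smul, c.sum]
    congr 1
    module)
  rw [smul_sub, T.lin g hg, e1, map_sub, map_sub, sub_left_inj] at this
  exact T.unr c inj hg e this

/-- **the finite-singular step** -/
theorem step {Fb : W →ₗ[O] W} {t : G} {X' : E} {a b : ℤ} (ht : t ∈ Γ) (hg : g ∈ Γ) (hy : y ∈ F)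
    (h1 : ∀ Q, rd (t • Q) = rd Q) (h2 : ∀ Q, rd (g • Q) = Fb (Fb (rd Q)))
    (h3 : ∀ q, Fb (Fb q) = (n * a) • Fb q - (n * b - 1) • q) (hk : k ≤ s)
    (e1 : t • X' = X' + n • (b • y - a • X)) (e2 : rd y = Fb (rd X)) (e3 : g • X = X)
    (h : d g ≠ 0) : Nz π k F X' := fun R' m e => h (inj _ (T.dA c hg) (T.tor c hg) (by
  obtain ⟨o, ho⟩ := Nat.exists_eq_add_of_le hk
  obtain ⟨l, hl⟩ := Nat.exists_eq_add_of_le c.lt
  have mX : X ∈ F := c.pw ▸ (pow_succ π j ▸ mul_smul (π ^ j) π R ▸ F.smul_mem _ c.memF)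
  have m1 := sub_mem (zsmul_mem hy b) (zsmul_mem mX a)
  have a1 : t • R' - R' - (π ^ o * u) • (b • y - a • X) = 0 := T.tfp (sub_mem
    (sub_mem (T.stF t ht _ m) m) (F.smul_mem _ m1)) k (by
      rw [T.eq _ (T.le m1), ← e, T.lin t ht, ho] at e1
      generalize t • R' = r at e1 ⊢
      linear_combination (norm := module) e1)
  have a2 := congrArg (fun z => π ^ l • Fb (rd z)) a1
  have a3 := congrArg rd (T.ntor c (T.dA c hg) (T.tor c hg))
  have a4 := congrArg rd (T.eq R c.mem)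
  have a5 := congrArg Fb a4
  have a6 := congrArg Fb a5
  have a7 := h3 (rd R)
  rw [T.fix c hg e3] at a3 ⊢
  simp only [map_sub, map_neg, h1, h2, e2, ← c.pw, map_smul, map_zsmul, map_nsmul, map_zero, sub_self, zero_sub,
    smul_zero] at a2 a3 a5 a6 ⊢
  have hs : π ^ s = π ^ l * π ^ o * π ^ (j + 1) := by
    rw [← pow_add, ← pow_add, ho, hl]; congr 1; omega
  rw [hs] at a5 a6
  linear_combination (norm := module) a2 - b • a6 + a • a5 + a7 + b • a3))

end Tw

/-- a cocycle which is a coboundary on a subgroup of finite index -/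
theorem cob_idx {H : Subgroup G} {U : Finset G} {R : Type} [CommRing R] {ψ : G → R} (f : Fr D H U ψ)
    (co : ∀ g ∈ D, ∀ h ∈ D, w (g * h) = w g + g • w h) (e : ∀ g ∈ H, w g = g • x - x) :
    ∀ g ∈ D, U.card • w g = g • (U.card • x - ∑ v ∈ U, (w v - (v • x - x))) -
      (U.card • x - ∑ v ∈ U, (w v - (v • x - x))) := fun g m => by
  have := f.sum (p := fun v => w v - (v • x - x)) (fun v a h b => by
    rw [co v a h (f.le b), e h b, mul_smul, smul_sub]; abel) m
  rw [sum_congr rfl (g := fun v => w g - (g • x - x) + g • (w v - (v • x - x))) fun v a => by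
    rw [co g m v (f.mem v a), mul_smul, smul_sub, smul_sub]; abel, sum_add_distrib, sum_const,
    ← smul_sum] at this
  rw [smul_sub, smul_comm g]
  generalize g • ∑ v ∈ U, (w v - (v • x - x)) = z, g • x = z' at this ⊢
  linear_combination (norm := module) this

/-! ### the points of Kolyvagin -/

variable {κ : Type} [DecidableEq κ]

/-- the trace of the derivative -/
def Xk (U : Finset G) (t : κ → G) (r : κ → ℕ) (y : Finset κ → E) (m : Finset κ) : E :=
  ∑ v ∈ U, v • Dm E t r m (y m)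

theorem Xk_empty (U : Finset G) (t : κ → G) (r : κ → ℕ) (y : Finset κ → E) :
    Xk U t r y ∅ = ∑ v ∈ U, v • y ∅ := by simp only [Xk, Dm_empty]

section

variable [N.Normal] {M m : Finset κ} {Hm : Finset κ → Subgroup G} {t : κ → G} {r : κ → ℕ}
  {a : κ → ℤ} {y : Finset κ → E} {U : Finset G} {R₀ : Type} [CommRing R₀] {ψ : G → R₀} {l : κ}
  (S : Sy n Γ N M Hm t r a F.toAddSubgroup y) (fr : Fr Γ (Hm ∅) U ψ)
include S fr

theorem X_iv (hm : m ⊆ M) : Iv n Γ Γ F.toAddSubgroup (Xk U t r y m) := (S.iv fr.le hm).tr fr le_rfl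

omit fr in
theorem X_fix (hm : m ⊆ M) (hg : g ∈ Hm m) : g • Xk U t r y m = Xk U t r y m := by
  rw [Xk, smul_sum]
  exact sum_congr rfl fun v _ => S.fx m hm v g hg

variable (T : Tw Γ π u n s A F)
include T

/-- **the class of the point of Kolyvagin** -/
theorem X_ex (hm : m ⊆ M) (hk : k ≤ s) (nz : Nz π k F (Xk U t r y m)) :
    ∃ j i R w d, Rc Γ π u s k A F (Xk U t r y m) j i R w d :=
  T.ex hk (X_iv S fr hm).mem (X_iv S fr hm).inv nz

variable (c : Rc Γ π u s k A F (Xk U t r y m) j i R w d) {rd : E →ₗ[O] W}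
  (inj : ∀ x ∈ A, π • x = 0 → rd x = 0 → x = 0)
include c inj

theorem X_trv (hm : m ⊆ M) (hl : l ∈ m) (hg : g ∈ Γ) (hg' : g ∈ Hm m)
    (h : ∀ Q ∈ A, n • rd Q = 0 → rd (g • Q) = rd Q) (ht : ∀ Q, rd (t l • Q) = rd Q) : d g = 0 := by
  obtain ⟨o, ho⟩ := Dd_rd (rd := rd.toAddMonoidHom) ht (S.dd l)
  refine T.trv c inj hg (X_fix S hm hg') h (y := o • ∑ v ∈ U, v • Dm E t r (m.erase l) (y m))
    (T.le (nsmul_mem (sum_mem fun v hv => S.st v (fr.mem v hv) _ (S.memA _ hm)) o)) ?_ ?_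
  · rw [smul_comm, smul_sum]
    exact congrArg _ (sum_congr rfl fun v _ => S.fx _ hm v g hg')
  · refine Eq.trans (congrArg rd ?_) (ho _)
    rw [map_sum]
    exact sum_congr rfl fun v hv => by
      rw [S.cm.op1 (Dd_op (S.tm l) _) (fr.mem v hv) (fx_op (S.op _) (S.fxN hm)),
        ← S.ins (notMem_erase l m) (S.fxN hm), insert_erase hl]

theorem X_step {Fb : W →ₗ[O] W} (hl : l ∉ m) (hm : insert l m ⊆ M) (hk : k ≤ s) (hg : g ∈ Γ)
    (hg' : g ∈ Hm m) (h1 : ∀ Q, rd (t l • Q) = rd Q) (h2 : ∀ Q, rd (g • Q) = Fb (Fb (rd Q)))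
    (h3 : ∀ q, Fb (Fb q) = a l • Fb q - (r l - 1 : ℤ) • q)
    (h6 : ∀ v ∈ Γ, rd (v • y (insert l m)) = Fb (rd (v • y m))) (h : d g ≠ 0) :
    Nz π k F (Xk U t r y (insert l m)) := by
  obtain ⟨b, e1⟩ := (dvd_mul_left n 2).trans (S.dd l)
  obtain ⟨o, e2⟩ := S.da l
  have hm' := (subset_insert l m).trans hm
  refine T.step c inj (a := o) (b := b) (y := ∑ v ∈ U, v • Dm E t r m (y (insert l m))) (S.tm l) hg
    (sum_mem fun v hv => S.st v (fr.mem v hv) _ (S.memA _ hm)) h1 h2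
    (by rw [← e2]; exact_mod_cast e1 ▸ h3) hk ?_ ?_ (X_fix S hm' hg') h
  · simp only [Xk, smul_sum, ← sum_sub_distrib, ← sum_add_distrib]
    refine sum_congr rfl fun v hv => ?_
    rw [S.cm.smul (S.tm l) (fr.mem v hv) (fx_op (S.op _) (S.fxN hm)), S.tel hl hm, e1, e2, smul_sub,
      smul_add, smul_comm v, smul_comm v, mul_nsmul', mul_smul, natCast_zsmul, natCast_zsmul, smul_sub,
      add_sub_assoc]
  · rw [Xk, map_sum, map_sum, map_sum]
    exact sum_congr rfl fun v hv => S.cm.rel (S.op m) (p := rd.toAddMonoidHom)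
      (q := (Fb.comp rd).toAddMonoidHom) (S.fxN hm) (S.fxN hm') h6 v (fr.mem v hv)

end

end Vale.Agent.P014Y.Kp.Kc
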