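import Vale.Agent.P014Y.Mu.All0

/-! # P014Y, block Kp: primes whose Frobenius element has the eigenvalues `1` and `-1` (helper87) -/

set_option autoImplicit false
set_option linter.all false

noncomputable section

namespace Vale.Agent.P014Y.Kp

open NumberField Matrix Module
open scoped Classical
open Vale.Agent.P022 (Qb GQ)
open Vale.Agent.P022.H443 (inP)
open Vale.Agent.P022D.W (dec inP_le_dec conj_inP phi_mem dec_gen)
open Vale.Agent.P022E.GW (Ov Fb)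
open Vale.Agent.P022K.G2 (Lv Z1 B1 B2 H0 ch om d0 ka oz)
open Vale.Agent.P014U
open L2 (W M2 rh dt cu BB)
open X4S (Pl)
open P004S (wp)
open Mu Mu.Ul Mu.Tl

variable [Pp]

section alg

variable {N : M2} {v : W}

theorem ne_one (d : N.det = -1) : N - 1 ≠ 0 := fun e => two_ne (by
  rw [sub_eq_zero.1 e, Matrix.det_one] at d
  linear_combination d)

theorem ne_neg (d : N.det = -1) : N + 1 ≠ 0 := fun e => two_ne (by
  rw [eq_neg_of_add_eq_zero_left e, det_neg, Matrix.det_one] at d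
  simp at d
  linear_combination d)

theorem rng_iff (s : N * N = 1) : (∃ w, N *ᵥ w - w = v) ↔ N *ᵥ v = -v := by
  refine ⟨fun ⟨w, e⟩ => by rw [← e, mulVec_sub, mulVec_mulVec, s, one_mulVec, neg_sub],
    fun e => ⟨-((2 : F)⁻¹ • v), ?_⟩⟩
  rw [mulVec_neg, mulVec_smul, e, smul_neg, neg_neg, sub_neg_eq_add, ← add_smul, ← two_mul,
    mul_inv_cancel₀ two_ne, one_smul]

theorem rk_ne {A : M2} (n : A ≠ 0) : finrank F (LinearMap.range A.mulVecLin) ≠ 0 := fun e =>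
  n (Matrix.toLin'.injective
    ((LinearMap.range_eq_bot.1 (Submodule.finrank_eq_zero.1 e)).trans (map_zero _).symm))

theorem ker_one (s : N * N = 1) (d : N.det = -1) :
    finrank F (LinearMap.ker (N - 1).mulVecLin) = 1 := by
  have le : LinearMap.range (N + 1).mulVecLin ≤ LinearMap.ker (N - 1).mulVecLin := by
    rintro _ ⟨v, rfl⟩
    rw [LinearMap.mem_ker, mulVecLin_apply, mulVecLin_apply, mulVec_mulVec, sub_mul, mul_add, s,
      mul_one, one_mul, add_comm, sub_self, zero_mulVec]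
  have c : finrank F (LinearMap.range (N - 1).mulVecLin) +
      finrank F (LinearMap.ker (N - 1).mulVecLin) = 2 :=
    (N - 1).mulVecLin.finrank_range_add_finrank_ker.trans (Module.finrank_fin_fun _)
  have c1 : finrank F (LinearMap.range (N + 1).mulVecLin) ≤
      finrank F (LinearMap.ker (N - 1).mulVecLin) := Submodule.finrank_mono le
  have c2 := rk_ne (ne_one d)
  have c3 := rk_ne (ne_neg d)
  omega

end alg

/-- the local data -/
structure Lm (a : GQ →* M2) (q : ℕ) (P : Ideal (𝓞 Qb)) (σ : GQ) : Prop extends R0 a where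
  ov : Ov q P
  fb : Fb q P σ
  np : q ≠ pp
  ur : ∀ s ∈ inP P, a s = 1
  sq : a σ * a σ = 1
  dt : (a σ).det = -1

variable {a : GQ →* M2} {q : ℕ} {P : Ideal (𝓞 Qb)} {σ φ g : GQ} {x y z : X} {v : W}

namespace Lm

variable (h : Lm a q P σ)
include h

theorem mem : σ ∈ dec P := phi_mem h.ov.1 h.ov.2.1 h.fb

theorem vs : z ∈ Vs a σ ↔ a σ *ᵥ z σ = -z σ := (mem_Vs a).trans (rng_iff h.sq)

/-- the value at the square of the Frobenius element -/
theorem vs2 (hz : z ∈ Cl a (dec P)) : z ∈ Vs a σ ↔ z (σ * σ) = 0 := by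
  rw [h.vs, hz.1 σ h.mem σ h.mem, add_comm, add_eq_zero_iff_eq_neg]

theorem oz1 : oz pp σ = -1 := by simpa [om] using (congrFun h.det σ).symm.trans h.dt

theorem fix (hz : z ∈ Cl a (dec P)) {s : GQ} (m : s ∈ inP P) : a σ *ᵥ z s = -z s := by
  obtain ⟨gz, -, t⟩ := P022K.G2.tam pp q P h.ov h.np
  obtain ⟨n, hn⟩ := t F W z (fun g j k k' => by
    rw [hz.1 g (inP_le_dec k) j (inP_le_dec k'), h.ur g k, one_mulVec])
    (hz.2.imp fun U e => ⟨e.1, fun w k k' => e.2 w (inP_le_dec k') k⟩)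
  have c := P022K.G2.ka_conj (p := pp) (b := q) (Nat.cast_ne_zero.2 h.ov.1.ne_zero) σ (gz s m)
    (map_natCast s q)
  rw [map_natCast, h.oz1, neg_one_mul] at c
  rw [← cl_conj hz h.mem (inP_le_dec m) (h.ur s m), hn _ (conj_inP h.mem m), c, hn s m]
  simp

theorem pw (m : g ∈ dec P) : ∃ k : ℕ, a g = a σ ^ k := by
  obtain ⟨k, s, u, hs, hu, rfl⟩ := dec_gen h.ov.1 h.ov.2.1 h.ov.2.2 h.fb m a.ker h.opn
  exact ⟨k, by rw [map_mul, map_mul, h.ur s hs, mul_one, show a u = 1 from hu, one_mul, map_pow]⟩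

theorem neg (e : a σ *ᵥ v = -v) (m : g ∈ dec P) : a σ *ᵥ (a g *ᵥ v) = -(a g *ᵥ v) := by
  obtain ⟨k, hk⟩ := h.pw m
  rw [hk, mulVec_mulVec, ← pow_succ', pow_succ, ← mulVec_mulVec, e, mulVec_neg]

theorem val (hz : z ∈ Cl a (dec P)) (e : z σ = 0) : ∀ g ∈ dec P, a σ *ᵥ z g = -z g := fun g m => by
  obtain ⟨U, lv, w⟩ := hz.2
  obtain ⟨k, s, u, hs, hu, rfl⟩ := dec_gen h.ov.1 h.ov.2.1 h.ov.2.2 h.fb m U lv.opn
  have m1 := pow_mem h.mem k
  have m2 := inP_le_dec hs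
  have m3 : u ∈ dec P := by simpa using mul_mem (mul_mem m (inv_mem m2)) (inv_mem m1)
  rw [hz.1 _ (mul_mem m3 m1) s m2, hz.1 u m3 _ m1, w u m3 hu, cl_pow hz h.mem e, mulVec_zero,
    add_zero, zero_add]
  exact h.neg (h.fix hz hs) (mul_mem m3 m1)

theorem bl : Bl a (dec P) ≤ Rq a P σ := fun z m =>
  ⟨bl_le h.toR0 _ m, (mem_Vs a).2 (m.imp fun v e => (e σ h.mem).symm)⟩

theorem ex (hx : x ∈ Rq a P σ) : ∃ x' ∈ Cl a (dec P), x - x' ∈ Bl a (dec P) ∧ x' σ = 0 := by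
  obtain ⟨v, hv⟩ := (mem_Vs a).1 hx.2
  exact ⟨x - d0 (rh a) v, sub_mem hx.1 (bl_le h.toR0 _ (d0_bl _ v)), by
    rw [sub_sub_cancel]; exact d0_bl _ v, sub_eq_zero.2 hv.symm⟩

theorem iso (hx : x ∈ Rq a P σ) (hy : y ∈ Rq a P σ) : cu a x y ∈ BB a (dec P) := by
  obtain ⟨x', a1, a2, a3⟩ := h.ex hx
  obtain ⟨y', b1, b2, b3⟩ := h.ex hy
  refine cu_of h.toR0 a1 hy.1 a2 b2 (B2.congr (zero_mem _) (fun g m j n => ?_) fun _ _ => rfl)
  rw [cu]
  refine wp_ker (ne_neg h.dt) ?_ ?_ <;> rw [add_mulVec, one_mulVec, add_eq_zero_iff_eq_neg]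
  exacts [h.val a1 a3 g m, h.neg (h.val b1 b3 j n) m]

theorem spl (hz : z ∈ Cl a (dec P)) : ∃ u ∈ Ur a P, z - u ∈ Rq a P σ := by
  obtain ⟨Θ, t⟩ := ex_th h.toR0 h.ov h.fb
  obtain ⟨b1, b2, b3⟩ := t (z σ) fun s m => by rw [h.ur s m, one_mulVec]
  exact ⟨_, ⟨b1, bl_of b2⟩, sub_mem hz b1, h.vs.2 (by
    rw [Pi.sub_apply, b3, sub_self, mulVec_zero, neg_zero])⟩

theorem ot : Ot a (dec P) (Rq a P σ) = Rq a P σ := by
  refine le_antisymm (fun y hy => ?_) fun y hy => ⟨hy.1, fun x hx => h.iso hx hy⟩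
  obtain ⟨u, hu, m⟩ := h.spl hy.1
  have k : u ∈ Bl a (dec P) := nd h.toR0 h.ov hu.1 fun x hx => by
    obtain ⟨w, hw, n⟩ := h.spl hx
    have e : cu a x u = cu a w u + (cu a (x - w) y - cu a (x - w) (y - u)) := by
      funext g j
      simp only [cu, Pi.add_apply, Pi.sub_apply, mulVec_sub, P004S.wp_sub_left, P004S.wp_sub_right]
      ring
    rw [e]
    exact add_mem (ur_iso h.toR0 h.ov hw hu) (sub_mem (hy.2 _ n) (h.iso n m))
  simpa using add_mem m (h.bl k)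

theorem hz1 : hz a (dec P) = 1 := by
  have e : (H0 (dec P) (rh a) fun _ => 1) = LinearMap.ker (a σ - 1).mulVecLin :=
    Submodule.ext fun v => by
      rw [mem_h0, LinearMap.mem_ker, mulVecLin_apply, sub_mulVec, one_mulVec, sub_eq_zero]
      exact ⟨fun e => e σ h.mem,
        fix_dec h.toR0 h.ov h.fb fun s m => by rw [h.ur s m, one_mulVec]⟩
  rw [hz, e, ker_one h.sq h.dt]

theorem inf : Ur a P ⊓ Vs a σ ≤ Bl a (dec P) := fun x hx => by
  obtain ⟨x', a1, a2, a3⟩ := h.ex ⟨hx.1.1, hx.2⟩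
  obtain ⟨v, hv⟩ := sub_mem hx.1.2 (bl_mono inP_le_dec a2)
  rw [sub_sub_cancel] at hv
  simpa using add_mem a2 (bl_of (van h.ov h.fb a1 (fun s m => by
    rw [hv s m, d0_ap, h.ur s m, one_mulVec, sub_self]) a3))

theorem fr (f : Fb q P φ) : a φ = a σ := by
  rw [← mul_inv_cancel_left σ φ, map_mul, h.ur _ (fb_div h.ov h.fb f), mul_one]

theorem chg (f : Fb q P φ) : Lm a q P φ :=
  ⟨h.toR0, h.ov, f, h.np, h.ur, h.fr f ▸ h.sq, h.fr f ▸ h.dt⟩

theorem ind (hz : z ∈ Cl a (dec P)) (f : Fb q P φ) (e : z ∈ Vs a φ) : z ∈ Vs a σ := by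
  have m := fb_div h.ov h.fb f
  have e1 := hz.1 σ h.mem _ (inP_le_dec m)
  have k := (h.chg f).vs.1 e
  rw [mul_inv_cancel_left, h.fix hz m] at e1
  rw [e1, h.fr f, mulVec_add, mulVec_neg, h.fix hz m, neg_add] at k
  exact h.vs.2 (add_right_cancel k)

/-- the twist by a character which is unramified at `q` -/
theorem tw {d : ℤ} (r : R0 (Mu.tw d a)) (u : ∀ s ∈ inP P, Mu.tw d a s = 1) : Lm (Mu.tw d a) q P σ := by
  refine ⟨r, h.ov, h.fb, h.np, u, ?_, (congrFun r.det σ).trans ((congrFun h.det σ).symm.trans h.dt)⟩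
  show ((_ : F) • a σ) * ((_ : F) • a σ) = 1
  rw [smul_mul_smul_comm, h.sq]
  split_ifs <;> simp

end Lm

end Vale.Agent.P014Y.Kp
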