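import Vale.Agent.P014Y.Wp.Cyc
import Vale.Agent.P014Y.Kp.Kc0

/-! # P014Y, block Kp: the model `ker Φ (σ) ⊆ (ZMod q → V)` -/

set_option autoImplicit false
set_option linter.all false

noncomputable section

namespace Vale.Agent.P014Y.Kp.Mo

open Polynomial Finset
open scoped Classical
open Vale.Agent.P014Y.Wp.Cy

variable {G : Type} [Group G] {Γ N : Subgroup G} {q : ℕ}

/-- an affine cocycle -/
structure Af (Γ : Subgroup G) (q : ℕ) where
  χ : G → ZMod q
  mul : ∀ g h, χ (g * h) = χ g + if g ∈ Γ then χ h else -χ h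
  two : ∀ g h, g * h ∈ Γ ↔ (g ∈ Γ ↔ h ∈ Γ)

/-- the index set -/
def Xq (_ : Af Γ q) : Type := ZMod q

/-- the families -/
def Mq (a : Af Γ q) (V : Type) : Type := Xq a → V

variable (a : Af Γ q) {g h : G}

theorem chi_one : a.χ 1 = 0 := by
  have := a.mul 1 1
  rw [mul_one, if_pos Γ.one_mem] at this
  exact left_eq_add.1 this

theorem chi_add (hg : g ∈ Γ) (h : G) : a.χ (g * h) = a.χ g + a.χ h := by rw [a.mul, if_pos hg]

theorem chi_inv (hg : g ∈ Γ) : a.χ g⁻¹ = -a.χ g := by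
  have := chi_add a hg g⁻¹
  rw [mul_inv_cancel, chi_one] at this
  exact eq_neg_of_add_eq_zero_right this.symm

theorem chi_inv' (hg : g ∉ Γ) : a.χ g⁻¹ = a.χ g := by
  have := a.mul g g⁻¹
  rw [mul_inv_cancel, chi_one, if_neg hg] at this
  exact (add_neg_eq_zero.1 this.symm).symm

instance [NeZero q] : Fintype (Xq a) := inferInstanceAs (Fintype (ZMod q))

instance : CommRing (Xq a) := inferInstanceAs (CommRing (ZMod q))

/-- the affine map -/
def af (g : G) (i : ZMod q) : ZMod q := a.χ g + if g ∈ Γ then i else -i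

theorem af_one (i : ZMod q) : af a 1 i = i := by
  rw [af, chi_one, if_pos Γ.one_mem, zero_add]

theorem af_mul (g h : G) (i : ZMod q) : af a (g * h) i = af a g (af a h i) := by
  have := a.two g h
  rw [af, af, af, a.mul]
  by_cases p : g ∈ Γ <;> by_cases p' : h ∈ Γ <;> simp only [p, p', iff_true, iff_false,
    not_true, not_false_iff] at this <;>
    simp only [p, p', this, if_true, if_false] <;> ring

instance : MulAction G (Xq a) where
  smul g i := af a g i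
  one_smul i := by
    exact af_one a i
  mul_smul g h i := by
    exact af_mul a g h i

theorem smul_eq (g : G) (i : Xq a) : g • i = af a g i := rfl

theorem af_in (hg : g ∈ Γ) (i : ZMod q) : af a g⁻¹ i = i - a.χ g := by
  rw [af, if_pos (Γ.inv_mem hg), chi_inv a hg]; ring

theorem af_out (hg : g ∉ Γ) (i : ZMod q) : af a g⁻¹ i = a.χ g - i := by
  rw [af, if_neg (fun m => hg (Γ.inv_mem_iff.1 m)), chi_inv' a hg]; ring

variable {V W : Type} [AddCommGroup V] [AddCommGroup W]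

instance : AddCommGroup (Mq a V) := inferInstanceAs (AddCommGroup (ZMod q → V))

instance : Module ℤ[X] (Mq a V) := Module.compHom (ZMod q → V) (ev V q).toRingHom

/-- the constant family -/
def io : V →+ Mq a V where
  toFun c _ := c
  map_zero' := rfl
  map_add' _ _ := rfl

/-- the family concentrated at `0` -/
def dl : V →+ Mq a V := AddMonoidHom.single (fun _ : ZMod q => V) 0

/-- the component -/
def cp (i : ZMod q) : Mq a V →+ V where
  toFun Q := Q i
  map_zero' := rfl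
  map_add' _ _ := rfl

variable {a}

theorem ev_eq (r : ℤ[X]) (x : Mq a V) : r • x = ev V q r x := rfl

theorem ext {x y : Mq a V} (h : ∀ i : ZMod q, x i = y i) : x = y := funext h

theorem io_ap (c : V) (i : ZMod q) : io a c i = c := rfl

theorem io_inj : Function.Injective (io a : V → Mq a V) := fun _ _ e => congrFun e (0 : ZMod q)

theorem dl_ap (y : V) (i : ZMod q) : dl a y i = if i = 0 then y else 0 :=
  Pi.single_apply (0 : ZMod q) y i

theorem X_pow_ap (n : ℕ) (x : Mq a V) (i : ZMod q) : ((X ^ n : ℤ[X]) • x) i = x (i - (n : ZMod q)) :=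
  congrFun (LinearMap.congr_fun (ev_pow (G := V) (q := q) n) x) i

/-- the shift -/
def sj (j : ZMod q) (x : Mq a V) : Mq a V := sh V j x

theorem sj_ap (j : ZMod q) (x : Mq a V) (i : ZMod q) : sj j x i = x (i - j) := rfl

theorem X_pow_eq (n : ℕ) (x : Mq a V) : (X ^ n : ℤ[X]) • x = sj (n : ZMod q) x := ext (X_pow_ap n x)

theorem X_eq (x : Mq a V) : (X : ℤ[X]) • x = sj 1 x := by
  rw [← pow_one (X : ℤ[X]), X_pow_eq, Nat.cast_one]

theorem X_inv [NeZero q] (x : Mq a V) : (X ^ (q - 1) : ℤ[X]) • x = sj (-1) x := by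
  rw [X_pow_eq, Nat.cast_pred (Nat.pos_of_neZero q), ZMod.natCast_self, zero_sub]

theorem Vp_eq [NeZero q] (x : Mq a V) : Vp q • x = vp V q x :=
  LinearMap.congr_fun (ev_Vp (G := V) (q := q)) x

theorem Vp_pow [NeZero q] (n : ℕ) (x : Mq a V) : Vp q ^ n • x = (vp V q ^ n) x :=
  LinearMap.congr_fun ((map_pow (ev V q) _ n).trans (congrArg (· ^ n) ev_Vp)) x

theorem Ph_eq (p k : ℕ) (x : Mq a V) : Ph p k • x = nm V p k x :=
  LinearMap.congr_fun (ev_Ph (G := V) (q := q) p k) x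

theorem Ph_ap (p k : ℕ) (x : Mq a V) (i : ZMod q) :
    (Ph p k • x) i = ∑ j ∈ range p, x (i - ((j * p ^ k : ℕ) : ZMod q)) :=
  (congrFun (Ph_eq p k x) i).trans (nm_ap p k x i)

theorem smul_io (r : ℤ[X]) (c : V) : r • io a c = io a (r.eval 1 • c) := ev_const r c

theorem X_q (x : Mq a V) : (X ^ q : ℤ[X]) • x = x := by rw [ev_eq, ev_q]; rfl

variable (a) in
/-- the componentwise map -/
def mp (f : V →+ W) : Mq a V →ₗ[ℤ[X]] Mq a W where
  toFun Q i := f (Q i)
  map_add' _ _ := funext fun _ => map_add f _ _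
  map_smul' r Q := ev_map (q := q) (f.compLeft (ZMod q)) (fun _ => rfl) r Q

theorem mp_ap (f : V →+ W) (x : Mq a V) (i : ZMod q) : mp a f x i = f (x i) := rfl

theorem mp_io (f : V →+ W) (c : V) : mp a f (io a c) = io a (f c) := rfl

theorem mp_dl (f : V →+ W) (y : V) : mp a f (dl a y) = dl a (f y) := ext fun i => by
  rw [mp_ap, dl_ap, dl_ap]; split_ifs
  · rfl
  · exact map_zero f

/-! ### the Galois action -/

section act

variable [DistribMulAction G V]

instance : DistribMulAction G (Mq a V) where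
  smul g Q i := g • Q (g⁻¹ • i)
  one_smul Q := funext fun i => by
    show (1 : G) • Q ((1 : G)⁻¹ • i) = Q i
    rw [inv_one, one_smul, one_smul]
  mul_smul g h Q := funext fun i => by
    show (g * h) • Q ((g * h)⁻¹ • i) = g • h • Q (h⁻¹ • g⁻¹ • i)
    rw [mul_inv_rev, mul_smul, mul_smul]
  smul_zero g := funext fun _ => smul_zero g
  smul_add g _ _ := funext fun _ => smul_add g _ _

theorem act_ap (g : G) (Q : Mq a V) (i : Xq a) : (g • Q) i = g • Q (g⁻¹ • i) := rfl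

theorem act_in (hg : g ∈ Γ) (Q : Mq a V) (i : ZMod q) : (g • Q) i = g • Q (i - a.χ g) :=
  congrArg (fun j => g • Q j) (af_in a hg i)

theorem act_out (hg : g ∉ Γ) (Q : Mq a V) (i : ZMod q) : (g • Q) i = g • Q (a.χ g - i) :=
  congrArg (fun j => g • Q j) (af_out a hg i)

theorem act_ker (hg : g ∈ Γ) (z : a.χ g = 0) (Q : Mq a V) (i : ZMod q) : (g • Q) i = g • Q i := by
  rw [act_in hg, z, sub_zero]

theorem act_io (g : G) (c : V) : g • io a c = io a (g • c) := rfl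

theorem act_dl (hg : g ∈ Γ) (y : V) (i : ZMod q) :
    (g • dl a y) i = if a.χ g = i then g • y else 0 := by
  rw [act_in hg, dl_ap]
  by_cases e : a.χ g = i
  · rw [if_pos e, if_pos (by rw [e, sub_self])]
  · rw [if_neg e, if_neg (fun z => e (sub_eq_zero.1 z).symm), smul_zero]

theorem act_dl0 (hg : g ∈ Γ) (z : a.χ g = 0) (y : V) : g • dl a y = dl a (g • y) := ext fun i => by
  rw [act_dl hg, dl_ap, z]; simp only [eq_comm]

theorem in_sj (hg : g ∈ Γ) (j : ZMod q) (x : Mq a V) : g • sj j x = sj j (g • x) := ext fun i => by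
  rw [sj_ap, act_in hg, act_in hg, sj_ap, sub_right_comm]

/-- the action of `Γ` is linear -/
theorem lin (hg : g ∈ Γ) (r : ℤ[X]) (x : Mq a V) : g • r • x = r • g • x :=
  ev_map (q := q) (DistribMulAction.toAddMonoidHom (Mq a V) g) (fun Q => in_sj hg 1 Q) r x

theorem out_sj (hg : g ∉ Γ) (j : ZMod q) (x : Mq a V) : g • sj j x = sj (-j) (g • x) :=
  ext fun i => by
    rw [sj_ap, act_out hg, act_out hg, sj_ap, show a.χ g - i - j = a.χ g - (i - -j) by ring]

/-- outside `Γ` the action is semilinear for `X ↦ X ^ (q - 1)` -/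
theorem out_lin [NeZero q] (hg : g ∉ Γ) (r : ℤ[X]) (x : Mq a V) :
    g • r • x = r.comp (X ^ (q - 1)) • g • x := by
  induction r using Polynomial.induction_on with
  | C c =>
    rw [C_comp, eq_intCast, Int.cast_smul_eq_zsmul, Int.cast_smul_eq_zsmul]
    exact map_zsmul (DistribMulAction.toAddMonoidHom (Mq a V) g) c x
  | add f f' hf hf' => rw [add_comp, add_smul, add_smul, smul_add, hf, hf']
  | monomial n c ih =>
    rw [pow_succ, ← mul_assoc, mul_comm _ X, mul_comp, X_comp, mul_smul X, mul_smul (X ^ (q - 1)),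
      ← ih, X_eq, X_inv, out_sj hg]

theorem mp_act [DistribMulAction G W] {f : V →+ W} (hf : ∀ v, f (g • v) = g • f v) (x : Mq a V) :
    mp a f (g • x) = g • mp a f x := funext fun _ => hf _

/-- the components of a trace -/
theorem tr_ap {T : Finset G} (hT : ∀ g ∈ T, g ∈ Γ) (y : V) (i : ZMod q) :
    (∑ g ∈ T, g • dl a y) i = ∑ g ∈ T with a.χ g = i, g • y := by
  rw [sum_filter]
  exact (map_sum (cp a i) _ T).trans (sum_congr rfl fun g m => act_dl (hT g m) y i)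

/-- an invariant family is determined by one component -/
theorem fix_ap {x : Mq a V} (hg : g ∈ Γ) (e : g • x = x) : x (a.χ g) = g • x (0 : ZMod q) := by
  have := act_in hg x (a.χ g)
  rwa [e, sub_self] at this

end act

/-! ### the prime power case -/

/-- the uniformiser -/
def Pi (p : ℕ) : ℕ → ℤ[X]
  | 0 => p
  | k + 1 => Vp (p ^ (k + 1))

/-- the equation of `A` -/
def Nq (p : ℕ) : ℕ → ℤ[X]
  | 0 => 0
  | k + 1 => Ph p k

/-- the projector to `A` -/
def Pr (p : ℕ) : ℕ → ℤ[X]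
  | 0 => 1
  | k + 1 => X ^ p ^ k - 1

section pw

variable {p k : ℕ} (a : Af Γ (p ^ k)) (V)

/-- the module `A` -/
def Aq : Submodule ℤ[X] (Mq a V) := Submodule.torsionBy _ _ (Nq p k)

/-- the part of `A` which is fixed by `N` -/
def Fq [DistribMulAction G V] (hN : N ≤ Γ) : Submodule ℤ[X] (Mq a V) where
  carrier := {x | x ∈ Aq V a ∧ ∀ g ∈ N, g • x = x}
  add_mem' u v := ⟨add_mem u.1 v.1, fun g m => by rw [smul_add, u.2 g m, v.2 g m]⟩
  zero_mem' := ⟨zero_mem _, fun g _ => smul_zero g⟩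
  smul_mem' r _ u := ⟨Submodule.smul_mem _ r u.1, fun g m => by rw [lin (hN m), u.2 g m]⟩

variable {a V} {x y : Mq a V}

theorem mem_Aq : x ∈ Aq V a ↔ Nq p k • x = 0 := Iff.rfl

theorem mem_Fq [DistribMulAction G V] {hN : N ≤ Γ} :
    x ∈ Fq V a hN ↔ x ∈ Aq V a ∧ ∀ g ∈ N, g • x = x := Iff.rfl

theorem pr_mem (x : Mq a V) : Pr p k • x ∈ Aq V a := by
  rw [mem_Aq, ← mul_smul]
  cases k with
  | zero => rw [Nq, zero_mul, zero_smul]
  | succ k => rw [Nq, Pr, mul_comm, mul_Ph, sub_smul, X_q, one_smul, sub_self]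

theorem io_mem {c : V} (hc : p • c = 0) : io a c ∈ Aq V a := by
  rw [mem_Aq, smul_io]
  cases k with
  | zero => rw [Nq, eval_zero, zero_smul, map_zero]
  | succ k => rw [Nq, Ph_one, natCast_zsmul, hc, map_zero]

theorem cst (a : Af Γ (p ^ 0)) (x : Mq a V) : x = io a (x (0 : ZMod (p ^ 0))) := by
  haveI : Subsingleton (ZMod (p ^ 0)) := by rw [pow_zero]; infer_instance
  exact ext fun i => congrArg x (Subsingleton.elim (α := ZMod (p ^ 0)) _ _)

/-- `A[π] = V[p]` -/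
theorem ker (o : Odd p) (hx : x ∈ Aq V a) : Pi p k • x = 0 ↔ ∃ c : V, p • c = 0 ∧ x = io a c := by
  cases k with
  | zero =>
    rw [Pi, Nat.cast_smul_eq_nsmul]
    refine ⟨fun z => ⟨_, (map_nsmul (cp a 0) p x).symm.trans (by rw [z, map_zero]), cst a x⟩, ?_⟩
    rintro ⟨c, hc, rfl⟩
    rw [← map_nsmul, hc, map_zero]
  | succ k =>
    haveI : NeZero (p ^ (k + 1)) := ⟨pow_ne_zero _ o.pos.ne'⟩
    rw [mem_Aq, Nq, Ph_eq] at hx
    rw [Pi, Vp_eq]
    exact vp_ker o.pow hx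

/-- `π` maps `A` onto `A` -/
theorem dv (o : Odd p) (hV : ∀ v : V, ∃ w, p • w = v) (hx : x ∈ Aq V a) :
    ∃ y ∈ Aq V a, Pi p k • y = x := by
  cases k with
  | zero =>
    obtain ⟨w, hw⟩ := hV (x (0 : ZMod (p ^ 0)))
    refine ⟨io a w, by rw [mem_Aq, Nq, zero_smul], ?_⟩
    rw [Pi, Nat.cast_smul_eq_nsmul, ← map_nsmul, hw, ← cst]
  | succ k =>
    haveI : NeZero (p ^ (k + 1)) := ⟨pow_ne_zero _ o.pos.ne'⟩
    rw [mem_Aq, Nq, Ph_eq] at hx
    obtain ⟨R, r1, r2⟩ := vp_surj o hV hx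
    exact ⟨R, (Ph_eq (a := a) p k R).trans r1, (Vp_eq (a := a) R).trans r2⟩

theorem dv_pow (o : Odd p) (hV : ∀ v : V, ∃ w, p • w = v) (m : ℕ) (hx : x ∈ Aq V a) :
    ∃ y ∈ Aq V a, Pi p k ^ m • y = x := by
  induction m with
  | zero => exact ⟨x, hx, by rw [pow_zero, one_smul]⟩
  | succ m ih =>
    obtain ⟨y, hy, rfl⟩ := ih
    obtain ⟨z, hz, rfl⟩ := dv o hV hy
    exact ⟨z, hz, by rw [pow_succ, mul_smul]⟩

variable (a V) in
/-- on `A`, `p = π u` -/
theorem p_eq (o : Odd p) : ∃ u : ℤ[X], ∀ m, ∀ x ∈ Aq V a, p ^ m • x = (Pi p k ^ m * u ^ m) • x := by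
  obtain ⟨u, hu⟩ : ∃ u : ℤ[X], ∀ x ∈ Aq V a, p • x = (Pi p k * u) • x := by
    cases k with
    | zero => exact ⟨1, fun x _ => by rw [Pi, mul_one, Nat.cast_smul_eq_nsmul]⟩
    | succ k =>
      haveI : NeZero (p ^ (k + 1)) := ⟨pow_ne_zero _ o.pos.ne'⟩
      obtain ⟨f, hf⟩ := p_vp (G := V) (o.pow (n := k + 1)) p k
      refine ⟨f, fun x hx => ?_⟩
      rw [mem_Aq, Nq, Ph_eq] at hx
      rw [Pi, mul_smul, Vp_eq]
      exact hf x hx
  refine ⟨u, fun m x hx => ?_⟩
  induction m with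
  | zero => simp
  | succ m ih =>
    rw [pow_succ', mul_smul, ih, hu _ (Submodule.smul_mem _ _ hx), ← mul_smul]
    congr 1; ring

theorem tor (o : Odd p) (m : ℕ) (hx : x ∈ Aq V a) (z : Pi p k ^ m • x = 0) : p ^ m • x = 0 := by
  obtain ⟨u, hu⟩ := p_eq V a o
  rw [hu m x hx, mul_comm, mul_smul, z, smul_zero]

variable (a V) in
/-- `π ^ (q m)` is a multiple of `p ^ m` -/
theorem pi_qm (hp : p.Prime) (m : ℕ) :
    ∃ r : ℤ[X], ∀ x : Mq a V, Pi p k ^ (p ^ k * m) • x = p ^ m • r • x := by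
  cases k with
  | zero => exact ⟨1, fun x => by
      rw [Pi, show p ^ 0 * m = m by simp, one_smul, ← Nat.cast_pow, Nat.cast_smul_eq_nsmul]⟩
  | succ k =>
    haveI : NeZero (p ^ (k + 1)) := ⟨pow_ne_zero _ hp.ne_zero⟩
    obtain ⟨r, hr⟩ := vp_qm (G := V) hp (k + 1) m
    exact ⟨r, fun x => by rw [Pi, Vp_pow]; exact hr x⟩

/-- on `p`-torsion `π ^ (q - 1)` is the full norm -/
theorem top (hp : p.Prime) (o : Odd p) [NeZero (p ^ k)] (z : p • x = 0) :
    Pi p k ^ (p ^ k - 1) • x = io a (∑ i, x i) := by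
  cases k with
  | zero =>
    haveI : Subsingleton (Xq a) := by rw [Xq, pow_zero]; infer_instance
    rw [show p ^ 0 - 1 = 0 by simp, pow_zero (Pi p 0), one_smul]
    exact (cst a x).trans (congrArg (io a) (Fintype.sum_subsingleton (fun i : Xq a => x i) _).symm)
  | succ k => rw [Pi, Vp_pow]; exact vp_top hp o (k + 1) z

/-- the sign of the adjoint of `π` -/
def sg : ℕ → ℤ
  | 0 => 1
  | _ + 1 => -1

theorem sg_sq (k : ℕ) : sg k * sg k = 1 := by cases k <;> rfl

/-- the adjoint of `π` -/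
theorem adj [NeZero (p ^ k)] {H : Type} [AddCommGroup H] (w : V →+ W →+ H) (x : Mq a V)
    (y : Mq a W) : ∑ i, w ((Pi p k • x) i) (y i) = sg k • ∑ i, w (x i) ((Pi p k • y) i) := by
  cases k with
  | zero =>
    rw [Pi, Nat.cast_smul_eq_nsmul, Nat.cast_smul_eq_nsmul, sg, one_smul]
    refine sum_congr rfl fun i _ => ?_
    show w (p • x i) (y i) = w (x i) (p • y i)
    rw [map_nsmul, map_nsmul]; rfl
  | succ k =>
    rw [Pi, sg, neg_one_smul, Vp_eq, Vp_eq]
    exact adj_vp w x y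

variable [DistribMulAction G V]

theorem out_pi (hg : g ∉ Γ) (x : Mq a V) (hp : p ≠ 0) : g • Pi p k • x = sg k • Pi p k • g • x := by
  cases k with
  | zero =>
    rw [Pi, Nat.cast_smul_eq_nsmul, Nat.cast_smul_eq_nsmul, sg, one_smul, smul_comm]
  | succ k =>
    haveI : NeZero (p ^ (k + 1)) := ⟨pow_ne_zero _ hp⟩
    rw [Pi, sg, neg_one_smul, Vp, sub_smul, sub_smul, X_eq, X_eq, X_inv, X_inv, smul_sub, out_sj hg,
      out_sj hg, neg_neg, neg_sub]

/-- `A` is stable under all of `G` -/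
theorem stA (hp : p ≠ 0) (g : G) (hx : x ∈ Aq V a) : g • x ∈ Aq V a := by
  rw [mem_Aq] at hx ⊢
  by_cases hg : g ∈ Γ
  · rw [← lin hg, hx, smul_zero]
  cases k with
  | zero => rw [Nq, zero_smul]
  | succ k =>
    rw [Nq] at hx ⊢
    have e := fl_nm hp ((Ph_eq p k x).symm.trans hx)
    refine ext fun i => ?_
    have := (nm_ap p k _ _).symm.trans (congrFun e (i - a.χ g))
    rw [Ph_ap]
    refine Eq.trans ?_ ((congrArg (g • ·) this).trans (smul_zero g))
    rw [smul_sum]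
    refine sum_congr rfl fun j _ => (act_out hg x _).trans ?_
    exact congrArg (fun t : ZMod (p ^ (k + 1)) => g • x t)
      (show a.χ g - (i - (j * p ^ k : ℕ)) = -(i - a.χ g - (j * p ^ k : ℕ)) by ring)

theorem stF (hp : p ≠ 0) {hN : N ≤ Γ} (nm : ∀ h ∈ N, g⁻¹ * h * g ∈ N) (hx : x ∈ Fq V a hN) :
    g • x ∈ Fq V a hN := ⟨stA hp g hx.1, fun h m => by
  conv_rhs => rw [← hx.2 _ (nm h m)]
  rw [← mul_smul, ← mul_smul, ← mul_assoc, ← mul_assoc, mul_inv_cancel, one_mul]⟩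

theorem tf (o : Odd p) {hN : N ≤ Γ} (h0 : ∀ c : V, p • c = 0 → (∀ g ∈ N, g • c = c) → c = 0)
    (hx : x ∈ Fq V a hN) (z : Pi p k • x = 0) : x = 0 := by
  obtain ⟨c, hc, rfl⟩ := (ker o hx.1).1 z
  rw [h0 c hc fun g m => io_inj (hx.2 g m), map_zero]

variable (a) in
/-- **the model satisfies the axioms of the class construction** -/
theorem tw (o : Odd p) (hV : ∀ v : V, ∃ w, p • w = v) (hN : N ≤ Γ)
    (nm : ∀ g ∈ Γ, ∀ h ∈ N, g⁻¹ * h * g ∈ N)
    (h0 : ∀ c : V, p • c = 0 → (∀ g ∈ N, g • c = c) → c = 0) :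
    ∃ u : ℤ[X], ∀ m, Kc.Tw Γ (Pi p k) (u ^ m) (p ^ m) m (Aq V a) (Fq V a hN) := by
  obtain ⟨u, hu⟩ := p_eq V a o
  exact ⟨u, fun m => ⟨fun _ hg => lin hg, hu m, fun _ hx => dv o hV hx, fun _ hx => hx.1,
    fun g _ _ hx => stA o.pos.ne' g hx, fun g hg _ hx => stF o.pos.ne' (nm g hg) hx,
    fun _ hx => tf o h0 hx⟩⟩

/-- an integer prime to `p` is invertible on `A[π]` -/
theorem inv_of (o : Odd p) {v : ℕ} (hv : v.Coprime p) :
    ∃ v' : ℤ[X], ∀ x ∈ Aq V a, Pi p k • x = 0 → v' • (v : ℤ[X]) • x = x := by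
  obtain ⟨s, t, e⟩ := Nat.isCoprime_iff_coprime.2 hv
  refine ⟨s, fun x hx z => ?_⟩
  have := tor o 1 hx (by rwa [pow_one])
  rw [pow_one] at this
  rw [Int.cast_smul_eq_zsmul, Nat.cast_smul_eq_nsmul, ← natCast_zsmul, ← mul_smul,
    eq_sub_of_add_eq e, sub_smul, one_smul, mul_smul, natCast_zsmul, this, smul_zero, sub_zero]

/-- **the primitive component is not torsion** -/
theorem nt (su : ∀ i, ∃ g ∈ Γ, a.χ g = i) (hp : 1 < p) (fx : ∀ g ∈ Γ, g • x = x)
    (h1 : ¬ IsOfFinAddOrder (x (0 : ZMod (p ^ k))))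
    (h2 : ∀ γ ∈ Γ, a.χ γ ≠ 0 → ¬ IsOfFinAddOrder (x (0 : ZMod (p ^ k)) - γ • x (0 : ZMod (p ^ k)))) :
    ¬ IsOfFinAddOrder (Pr p k • x) := fun t => by
  cases k with
  | zero => rw [Pr, one_smul] at t; exact h1 ((cp a 0).isOfFinAddOrder t)
  | succ k =>
    obtain ⟨γ, m, e⟩ := su ((p ^ k : ℕ) : ZMod (p ^ (k + 1)))
    refine h2 γ m (e ▸ fun z => ?_) ?_
    · exact absurd (Nat.le_of_dvd (by positivity) ((ZMod.natCast_eq_zero_iff _ _).1 z))
        (not_le.2 (Nat.pow_lt_pow_right hp k.lt_succ_self))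
    · have := (cp a (a.χ γ)).isOfFinAddOrder t
      rw [Pr, sub_smul, one_smul, map_sub] at this
      rw [← fix_ap m (fx γ m)]
      have z : cp a (a.χ γ) ((X ^ p ^ k : ℤ[X]) • x) = x (0 : ZMod (p ^ (k + 1))) :=
        (X_pow_ap _ x _).trans (by rw [e, sub_self])
      rwa [z] at this

end pw

end Vale.Agent.P014Y.Kp.Mo
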