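import Vale.Agent.P014Y.Kp.Kc0
import Vale.Agent.P014T.Ht.Wmw

/-! # P014Y, block KP: a point of infinite order is not infinitely divisible (helper84) -/

set_option autoImplicit false
set_option linter.all false

noncomputable section

namespace Vale.Agent.P014Y.Kp.Nz

open scoped Classical
open Vale.Agent.P022 (GQ)
open P004M.TE (Pt ga)
open P014T.Wm (Fx)

theorem krull {M : Type} [AddCommGroup M] [Module.Finite ℤ M] {p : ℕ} (hp : 1 < p) {x : M}
    (h : ∀ m : ℕ, ∃ R, p ^ m • R = x) : IsOfFinAddOrder x := by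
  obtain ⟨⟨r, m⟩, e⟩ := (Ideal.mem_iInf_smul_pow_eq_bot_iff (Ideal.span {(p : ℤ)}) x).1
    ((Submodule.mem_iInf _).2 fun m => (h m).elim fun R e => by
      rw [← e, ← natCast_zsmul, Nat.cast_pow]
      exact Submodule.smul_mem_smul (Ideal.pow_mem_pow (Ideal.mem_span_singleton_self _) m) trivial)
  refine isOfFinAddOrder_iff_zsmul_eq_zero.2 ⟨r - 1, fun c => ?_, by rw [sub_smul, one_smul, e, sub_self]⟩
  rw [sub_eq_zero.1 c, Ideal.mem_span_singleton, Int.natCast_dvd_ofNat, Nat.dvd_one] at m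
  omega

variable {A B : ℤ} (hD : 4 * A ^ 3 + 27 * B ^ 2 ≠ 0) {H : Subgroup GQ} (op : IsOpen (H : Set GQ))
  {p : ℕ} (hp : 1 < p)
include hD op hp

theorem dv_tor {y : Pt A B} (h : ∀ m : ℕ, ∃ R, (∀ g ∈ H, ga g R = R) ∧ p ^ m • R = y) :
    IsOfFinAddOrder y := by
  have := P014T.Wm.finite hD op
  obtain ⟨R, r, e⟩ := h 0
  rw [pow_zero, one_smul] at e
  subst e
  exact (Fx A B H).subtype.isOfFinAddOrder (krull (M := Fx A B H) hp (x := ⟨R, r⟩) fun m =>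
    (h m).elim fun Q q => ⟨⟨Q, q.1⟩, Subtype.ext q.2⟩)

theorem dv_pi {ι : Type} [Finite ι] {y : ι → Pt A B}
    (h : ∀ m : ℕ, ∃ R : ι → Pt A B, (∀ g ∈ H, ∀ i, ga g (R i) = R i) ∧ p ^ m • R = y) :
    IsOfFinAddOrder y := by
  have := P014T.Wm.finite hD op
  obtain ⟨R, r, e⟩ := h 0
  rw [pow_zero, one_smul] at e
  subst e
  exact ((Fx A B H).subtype.compLeft ι).isOfFinAddOrder (krull (M := ι → Fx A B H) hp
    (x := fun i => ⟨R i, fun g m => r g m i⟩) fun m => (h m).elim fun Q q =>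
      ⟨fun i => ⟨Q i, fun g m => q.1 g m i⟩, funext fun i => Subtype.ext (congrFun q.2 i)⟩)

omit hD op hp

/-- the abstract step -/
theorem nz {G E O : Type} [Group G] [AddCommGroup E] [DistribMulAction G E] [CommRing O]
    [Module O E] {Γ H : Subgroup G} {π u : O} {n s : ℕ} {A F : Submodule O E} {X : E}
    (T : Kc.Tw Γ π u n s A F) (le : H ≤ Γ) (fx : ∀ g ∈ H, g • X = X) {p : ℕ}
    (pw : ∀ m : ℕ, ∃ (k : ℕ) (v : O), ∀ x ∈ A, π ^ k • x = p ^ m • v • x)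
    (dv : (∀ m : ℕ, ∃ R : E, (∀ g ∈ H, g • R = R) ∧ p ^ m • R = X) → IsOfFinAddOrder X)
    (nt : ¬ IsOfFinAddOrder X) : ∃ k, Kc.Nz π k F X := by
  by_contra! c
  refine nt (dv fun m => ?_)
  obtain ⟨k, v, e⟩ := pw m
  obtain ⟨R, r, rfl⟩ : ∃ R ∈ F, π ^ k • R = X := by simpa [Kc.Nz] using c k
  refine ⟨v • R, fun g j => ?_, (e R (T.le r)).symm⟩
  rw [T.lin g (le j), sub_eq_zero.1 (T.tfp (sub_mem (T.stF g (le j) R r) r) k (by
    rw [smul_sub, ← T.lin g (le j), fx g j, sub_self]))]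

end Vale.Agent.P014Y.Kp.Nz
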