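import Vale.Agent.P014Y.Kp.Ind0

/-! # P014Y, block Kp: the parity input from one class at each level (helper87) -/

set_option autoImplicit false
set_option linter.all false

noncomputable section

namespace Vale.Agent.P014Y.Kp

open Vale.Agent.P022 (GQ)
open Vale.Agent.P022D.W (dec)
open Vale.Agent.P014U
open L2 (M2 cu BB)
open X4S (Pl)
open Mu

/-- **the parity input** from one class at each level -/
theorem pa2 [Pp] {a a' : GQ →* M2} {pl : Pl} {S S' : Finset ℕ} (r : Rs a S') (r' : Rs a' S')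
    (hS : S ⊆ S') (pm : pp ∈ S) (n : Nf a ⊤) (n' : Nf a' ⊤)
    (e : ∀ l ∈ S, ∀ g ∈ dec (pl.P l), a' g = a g) (I : ℕ → Set X) (i0 : ∀ l ∈ S, 0 ∈ I l)
    (c : ∀ l ∈ S, ∀ x ∈ I l, x ∈ Cl a (dec (pl.P l)))
    (i : ∀ l ∈ S, ∀ x ∈ I l, ∀ y ∈ I l, cu a x y ∈ BB a (dec (pl.P l)))
    {G : ℕ → Prop} {NZ : Finset ℕ → Prop}
    (hG : ∀ q, G q → Iq a pl S' q ∧ Iq a' pl S' q) (sp : Sp ![a, a'] pl G)
    (H : ∀ Q : Finset ℕ, (∀ q ∈ Q, G q) → NZ Q → ∃ b, (b = a ∨ b = a') ∧ ∃ d ∈ Zg b (S' ∪ Q),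
      (∀ l ∈ S, d ∈ I l) ∧ (∀ l ∈ S', l ∉ S → d ∈ Ur b (pl.P l)) ∧
      (∀ q ∈ Q, d ∈ Vs b (pl.σ q)) ∧ d ∉ Bl b ⊤ ∧
      ∀ q ∉ Q, G q → d ∉ Vs b (pl.σ q) → NZ (insert q Q)) (h0 : NZ ∅) : Pa a a' pl S S' := by
  refine pa0 r r' hS pm n n' e I c i hG (sq2_of r r' sp) (fun Q g nz => ?_) h0
  obtain ⟨b, rfl | rfl, d, h1, h2, h3, h4, h5, h6⟩ := H Q g nz
  · exact ⟨d, h1, 0, zero_mem _, fun l m => ⟨h2 l m, i0 l m⟩, fun l m x => ⟨h3 l m x, zero_mem _⟩,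
      fun q m => ⟨h4 q m, zero_mem _⟩, .inl h5,
      fun q m p x => h6 q m p (x.resolve_right (· (zero_mem _)))⟩
  · exact ⟨0, zero_mem _, d, h1, fun l m => ⟨i0 l m, h2 l m⟩, fun l m x => ⟨zero_mem _, h3 l m x⟩,
      fun q m => ⟨zero_mem _, h4 q m⟩, .inr h5,
      fun q m p x => h6 q m p (x.resolve_left (· (zero_mem _)))⟩

end Vale.Agent.P014Y.Kp
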