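import Vale.Agent.P014Y.Kp.St0
import Vale.Agent.P014Y.Mu.St1
import Vale.Agent.P014Y.Nv.St
import Vale.Agent.P014Y.Wp.Hew
import Vale.Agent.P014U.Ki.Wp

/-! # P014Y, block Kp: parity from Heegner points of conductor `pp ^ t` (words and rows) -/

set_option autoImplicit false
set_option linter.all false

noncomputable section

namespace Vale.Agent.P014Y.Kp

open NumberField Matrix Module
open scoped Classical
open Vale.Agent.P022 (Qb GQ)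
open Vale.Agent.P022.H443 (inP)
open Vale.Agent.P022D.W (dec)
open Vale.Agent.P022E.GW (Ov Fb)
open Vale.Agent.P004K (Hc Gen K1)
open Vale.Agent.P014U
open L2 (W M2 BB)
open X4S (Pl)
open X4S.Ga (K B2)
open X4S.Aq (cy)
open X4F.Rc (mq)
open P004M.TE (Pt ga)
open P004F (sd hq)
open P014T.Ki (Fx)
open P014Y.F (Crv Fld)
open Top (Sur)
open Mu

variable [Pp]

/-! ### the residual side -/

section

variable (a : GQ →* M2) (pl : Pl)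

/-- primes with a Frobenius element of eigenvalues `1`, `-1` -/
structure Im (S : Finset ℕ) (q : ℕ) : Prop where
  pr : q.Prime
  out : q ∉ S
  md : pp ∣ q + 1
  tr : (a (pl.σ q)).trace = 0

/-- transverse at `Q`, the conditions `L` at `S`, unramified elsewhere -/
def Sel (S S' : Finset ℕ) (L : ℕ → Submodule F X) (Q : Finset ℕ) : Submodule F X :=
  sl (Zg a (S' ∪ Q)) (S' ∪ Q) fun l =>
    if l ∈ Q then Rq a (pl.P l) (pl.σ l) else if l ∈ S then L l else Ur a (pl.P l)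

/-- Lagrangian conditions -/
structure La (S S' : Finset ℕ) (L : ℕ → Submodule F X) : Prop where
  rs : Rs a S'
  le : S ⊆ S'
  pm : pp ∈ S
  nf : Nf a ⊤
  la : ∀ l ∈ S, Ot a (dec (pl.P l)) (L l) = L l

end

/-- an isotropic set lies in a Lagrangian subspace -/
def LAG : Prop := ∀ a l P (L₀ : Submodule F X) (I : Set X), R0 a → Ov l P →
  Ot a (dec P) L₀ = L₀ → (∀ x ∈ I, x ∈ Cl a (dec P)) →
  (∀ x ∈ I, ∀ y ∈ I, L2.cu a x y ∈ BB a (dec P)) →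
  ∃ L : Submodule F X, I ⊆ L ∧ Ot a (dec P) L = L

/-- **one more prime** -/
def STP : Prop := ∀ a pl S S' L (Q : Finset ℕ), La a pl S S' L → (∀ x ∈ Q, Im a pl S' x) →
  Module.Finite F (Sel a pl S S' L Q) ∧ Bl a ⊤ ≤ Sel a pl S S' L Q ∧ finrank F (Bl a ⊤) = 2 ∧
  ∀ q, Im a pl S' q → q ∉ Q →
    ((∃ z ∈ Sel a pl S S' L Q, z ∉ Vs a (pl.σ q)) →
      finrank F (Sel a pl S S' L (insert q Q)) + 1 = finrank F (Sel a pl S S' L Q)) ∧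
    ((∀ z ∈ Sel a pl S S' L Q, z ∈ Vs a (pl.σ q)) →
      finrank F (Sel a pl S S' L (insert q Q)) = finrank F (Sel a pl S S' L Q) + 1)

/-- enough primes with the property `G` -/
def Sp2 (a a' : GQ →* M2) (pl : Pl) (G : ℕ → Prop) : Prop := ∀ (T : Finset ℕ) (z z' : X),
  z ∈ Zg a T → z' ∈ Zg a' T → ∃ l ∉ T, G l ∧ (z ∉ Bl a ⊤ → z ∉ Vs a (pl.σ l)) ∧
    (z' ∉ Bl a' ⊤ → z' ∉ Vs a' (pl.σ l))

/-- **the induction** -/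
def IND : Prop := ∀ a a' pl S S' L (G : ℕ → Prop) (Z : Finset ℕ → Prop), La a pl S S' L →
  La a' pl S S' L → (∀ q, G q → Im a pl S' q ∧ Im a' pl S' q) → Sp2 a a' pl G → Z ∅ →
  (∀ Q : Finset ℕ, (∀ q ∈ Q, G q) → Z Q → ∃ r, (r = a ∨ r = a') ∧ ∃ d ∈ Sel r pl S S' L Q,
    d ∉ Bl r ⊤ ∧ ∀ l ∉ Q, G l → d ∉ Vs r (pl.σ l) → Z (insert l Q)) →
  Odd (finrank F (Sf a pl S S' L) + finrank F (Sf a' pl S S' L))

/-! ### points -/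

/-- points over an open subgroup are not infinitely divisible -/
def ND0 : Prop := ∀ (A B : ℤ), 4 * A ^ 3 + 27 * B ^ 2 ≠ 0 → ∀ U : Subgroup GQ,
  IsOpen (U : Set GQ) → ∀ y ∈ Fx U (ga : GQ → Pt A B →+ Pt A B), ¬ IsOfFinAddOrder y →
  ∃ n : ℕ, ∀ z ∈ Fx U (ga : GQ → Pt A B →+ Pt A B), pp ^ n • z ≠ y

/-- **points of trace zero in unramified extensions** -/
def UCL : Prop := ∀ (A B : ℤ), 4 * A ^ 3 + 27 * B ^ 2 ≠ 0 → ∀ l P, Ov l P → ∀ U : Subgroup GQ,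
  IsOpen (U : Set GQ) → U.Normal → ∀ (φ : GQ) (f : ℕ), 0 < f → φ ∈ U → Fb (l ^ f) P φ →
  ∃ C : ℕ, C ≠ 0 ∧ ∀ r : ℕ, 0 < r → ∀ x ∈ Fx (inP P ⊓ U) (ga : GQ → Pt A B →+ Pt A B),
    ga (φ ^ r) x = x → ∑ i ∈ Finset.range r, ga (φ ^ i) x = 0 →
    ∃ u : ℕ, ¬ pp ∣ u ∧ ∃ y ∈ Fx (inP P ⊓ U) (ga : GQ → Pt A B →+ Pt A B),
      (u * C) • x = ga φ y - y

/-- an anticyclotomic character of order and conductor powers of `pp` -/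
structure Ch {e : Crv} (b : Fld e) where
  s : ℕ
  t : ℕ
  χ : GQ → Zq s
  mul : ∀ g h, χ (g * h) = χ g + sd (-b.δ') g * χ h
  ker : ∀ g ∈ Hc b.j (pp ^ t), χ g = 0

variable {e : Crv} {b : Fld e}

/-- the residual representation and its twist -/
def aa (b : Fld e) (n : ℕ) : GQ →* M2 := if Even n then rb e else tw (-b.δ') (rb e)

/-- the Euler system at inert primes -/
structure Es (b : Fld e) (Y : ℕ → Pt e.A e.B) (M : ℕ) : Prop where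
  pos : 0 < M
  hg : ∀ c, 0 < c → F.Hg e b.j b.I c (Y c)
  fx : ∀ c, 0 < c → ∀ g ∈ Hc b.j c, ga g (Y c) = Y c
  ine : ∀ c l n t, 0 < c → l.Prime → ¬ l ∣ c * e.N → Gen b.j c l n t →
    (Ideal.span {(l : 𝓞 b.K)}).IsPrime →
    ∑ i ∈ Finset.range n, ga (t ^ i) (Y (c * l)) = e.a l • Y c ∧
    (¬ l ∣ M → ∀ P : Ideal (𝓞 Qb), P.IsPrime → (l : 𝓞 Qb) ∈ P → ∀ φ : GQ,
      (∀ x : 𝓞 Qb, φ • x - x ^ l ∈ P) → K1 P (Y (c * l) - ga φ (Y c)))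

/-- Kolyvagin primes -/
structure Gd (b : Fld e) (pl : Pl) (M m l : ℕ) : Prop where
  pr : l.Prime
  out : l ∉ Sd b
  mo : ¬ l ∣ M
  ine : pl.σ l ∉ b.Γ
  d1 : pp ^ m ∣ l + 1
  d2 : (pp : ℤ) ^ m ∣ e.a l

namespace Ch

variable (k : Ch b)

abbrev M : Type := Mq k.s (Pt e.A e.B)

/-- the primitive part -/
abbrev A : AddSubgroup k.M := Aq

/-- the uniformiser -/
abbrev v : AddMonoid.End k.M := vp

/-- the action, twisted by the `n`-th power of the quadratic character -/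
def ρ (n : ℕ) (g : GQ) : k.M →+ k.M := AddMonoidHom.mk'
  (fun x i => sd (-b.δ') g ^ n • ga g (x (sd (-b.δ') g * (i - k.χ g)))) fun x y => by
    funext i
    simp only [Pi.add_apply, map_add]
    exact zsmul_add _ _ _

theorem ρ_apply (n : ℕ) (g : GQ) (x : k.M) (i : Zq k.s) :
    k.ρ n g x i = sd (-b.δ') g ^ n • ga g (x (sd (-b.δ') g * (i - k.χ g))) := rfl

/-- the pairing -/
def w (n : ℕ) (x y : k.M) : K := ∑ i, Ki.wp (hq e.par.disc) n (x i) (y i)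

/-- the points of order `pp` -/
def em : W →+ k.M := cs.comp (Cp.vv (hq e.par.disc))

/-- the points over the ring class field of conductor `pp ^ t * c` -/
def AH (c : ℕ) : AddSubgroup k.M := k.A ⊓ Fx (Hc b.j (pp ^ k.t * c)) (k.ρ 0)

/-- no torsion -/
def Nt : Prop := ∀ c, 0 < c → ∀ x ∈ k.AH c, k.v x = 0 → x = 0

/-- invariant modulo `pp ^ m` -/
def Iv (c m : ℕ) (x : k.M) : Prop :=
  x ∈ k.AH c ∧ ∀ g ∈ b.Γ, ∃ y ∈ k.AH c, k.ρ 0 g x - x = pp ^ m • y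

/-- not divisible by the `n`-th power of the uniformiser -/
def Nz (c n : ℕ) (x : k.M) : Prop := ∀ y ∈ k.AH c, (k.v ^ n) y ≠ x

/-- a local point modulo `pp ^ m` -/
def Lt (D : Subgroup GQ) (c m : ℕ) (x : k.M) : Prop := ∃ z ∈ k.A, ∀ g ∈ D, ∀ y ∈ k.AH c,
  k.ρ 0 g x - x = pp ^ m • y → y = k.ρ 0 g z - z

/-- in the kernel of the reduction -/
def Kr (P : Ideal (𝓞 Qb)) (x : k.M) : Prop := ∀ i, K1 P (x i)

/-- the reduction is divisible over the field with `l ^ 2` elements -/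
def Dv (pl : Pl) (l n : ℕ) (x : k.M) : Prop := ∃ z ∈ k.A,
  k.Kr (pl.P l) (k.ρ 0 (pl.σ l ^ 2) z - z) ∧ k.Kr (pl.P l) (x - (k.v ^ n) z)

/-- the classes which come from local points -/
def Ip (D : Subgroup GQ) : Set X :=
  {d | d ∈ Cl (rb e) D ∧ ∃ x ∈ k.A, ∀ g ∈ D, k.em (d g) = k.ρ 0 g x - x}

/-- isotropy of the local points -/
def Is (D : Subgroup GQ) : Prop := ∀ n, ∀ x ∈ k.A, ∀ y ∈ k.A, pp ^ n • x ∈ Fx D (k.ρ 0) →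
  pp ^ n • y ∈ Fx D (k.ρ 0) → B2 cy D (Ki.cu (k.ρ 0) k.w n x y)

/-- the twisted trace -/
def tp (T : Finset GQ) (y : Pt e.A e.B) : k.M := ∑ u ∈ T, k.ρ 0 u (eb y)

/-- a Kolyvagin system of points -/
structure Ks (pl : Pl) (G : ℕ → Prop) (m : ℕ) (P : Finset ℕ → k.M) : Prop where
  iv : ∀ Q : Finset ℕ, (∀ q ∈ Q, G q) → k.Iv (∏ q ∈ Q, q) m (P Q)
  trv : ∀ Q : Finset ℕ, (∀ q ∈ Q, G q) → ∀ l ∈ Q, ∃ z ∈ k.AH (∏ q ∈ Q, q),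
    k.Kr (pl.P l) (P Q - pp ^ m • z)
  stp : ∀ (Q : Finset ℕ) (l : ℕ), (∀ q ∈ Q, G q) → G l → l ∉ Q →
    ∃ τ ∈ inP (pl.P l), τ ∈ Hc b.j (pp ^ k.t) ∧ ∃ z ∈ k.AH (∏ q ∈ insert l Q, q),
      k.ρ 0 τ (P (insert l Q)) - P (insert l Q) = (l + 1) • z - e.a l • P Q ∧
      k.Kr (pl.P l) (z - fun i => ga (pl.σ l) (P Q i))

/-- `d` is the residual class of `x` -/
structure Dc (c n : ℕ) (x : k.M) (ν : ℕ) (d : X) : Prop where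
  cl : d ∈ Cl (aa b ν) ⊤
  nb : d ∉ Bl (aa b ν) ⊤
  ex : ∃ (i j : ℕ) (R : k.M), ν = i + j + 1 ∧ j < n ∧ R ∈ k.A ∧ k.v R ∈ k.AH c ∧
    (k.v ^ (j + 1)) R = x + k.ρ i b.c x ∧ ∀ g, k.ρ ν g R - R - k.em (d g) ∈ k.AH c

end Ch

/-- **the action** -/
def ACT : Prop := ∀ (e : Crv) (b : Fld e) (k : Ch b),
  (∀ n, Ki.Pr (k.ρ n) k.w ∧ ∀ x, k.ρ n 1 x = x) ∧
  (∀ n g x, k.ρ (n + 1) g x = sd (-b.δ') g • k.ρ n g x) ∧
  (∀ n g x, k.v (k.ρ (n + 1) g x) = k.ρ n g (k.v x)) ∧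
  (∀ n g, ∀ x ∈ k.A, k.ρ n g x ∈ k.A) ∧
  (∀ n, ∀ g ∈ b.Γ, ∀ x, k.ρ n g x = k.ρ 0 g x ∧ (∀ i, k.ρ n g (sh i x) = sh i (k.ρ n g x)) ∧
    ∀ c, k.ρ n g (op c x) = op c (k.ρ n g x)) ∧
  (∀ n, ∀ g ∉ b.Γ, ∀ x i, k.ρ n g (sh i x) = sh (-i) (k.ρ n g x)) ∧
  (∀ n c, 0 < c → ∀ g ∈ Hc b.j (pp ^ k.t * c), ∀ x i, k.ρ n g x i = ga g (x i)) ∧
  (∀ n c g, 0 < c → ∀ x ∈ k.AH c, k.ρ n g x ∈ k.AH c ∧ k.v x ∈ k.AH c ∧ ∀ r, op r x ∈ k.AH c) ∧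
  (∀ n g v, k.ρ n g (k.em v) = k.em (aa b n g *ᵥ v)) ∧ Function.Injective k.em ∧
  (∀ x, (x ∈ k.A ∧ k.v x = 0) ↔ ∃ v, k.em v = x) ∧
  ∀ n i x y, k.w n (sh i x) y = k.w n x (sh (-i) y)

/-- the Euler system exists -/
def ES0 : Prop := ∀ (e : Crv) (b : Fld e), ∃ Y M, Es b Y M

/-- **a character with a twisted trace of infinite order** -/
def FOU : Prop := ∀ (e : Crv) (b : Fld e) Y M, Es b Y M → ∃ (k : Ch b) (T : Finset GQ),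
  b.Tv (pp ^ k.t) T ∧ ¬ IsOfFinAddOrder (k.tp T (Y (pp ^ k.t)))

/-- `-1` is in the image of the groups of the ring class fields -/
def NEG : Prop := pp = 3 → ∀ (e : Crv) (b : Fld e), Sur e.par.disc →
  (∀ c, 0 < c → ∃ g ∈ Hc b.j c, rb e g = -1) ∧ ∀ k : Ch b, k.Nt

/-- **Kolyvagin primes** -/
def CHB : Prop := pp = 3 → ∀ (e : Crv) (b : Fld e) (pl : Pl) (M m : ℕ), Sur e.par.disc → 0 < M →
  0 < m → Sp2 (aa b 0) (aa b 1) pl (Gd b pl M m) ∧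
    ∀ l n, Gd b pl M m l → Im (aa b n) pl (Sd b) l

def ND : Prop := ∀ (e : Crv) (b : Fld e) (k : Ch b), ∀ x ∈ k.AH 1, ¬ IsOfFinAddOrder x →
  ∃ n, 0 < n ∧ k.Nz 1 n x

/-- **rank one at `pp`** -/
def RK : Prop := ∀ (e : Crv) (b : Fld e) (k : Ch b) P, Ov pp P → dec P ≤ b.Γ →
  ∀ p ∈ k.A, p ∈ Fx (dec P) (k.ρ 0) → ¬ IsOfFinAddOrder p → ∀ x ∈ k.A, x ∈ Fx (dec P) (k.ρ 0) →
  ∃ c : ℕ, ∀ m : ℕ, ∃ (u : ℕ) (r : Zq k.s → ℤ), ∃ R ∈ Fx (dec P) (k.ρ 0), ¬ pp ∣ u ∧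
    u • pp ^ c • x = op r p + pp ^ m • R

/-- isotropy away from `pp` -/
def IS0 : Prop := ∀ (e : Crv) (b : Fld e) (k : Ch b) l P, Ov l P → l ≠ pp → ∀ ν n (x y : k.M),
  pp ^ n • x ∈ Fx (dec P) (k.ρ ν) → pp ^ n • y ∈ Fx (dec P) (k.ρ ν) →
  B2 cy (dec P) (Ki.cu (k.ρ ν) k.w n x y)

/-- **isotropy at `pp`** -/
def IS3 : Prop := ∀ (e : Crv) (b : Fld e) (k : Ch b) P, Ov pp P → dec P ≤ b.Γ →
  (∃ p ∈ k.A, p ∈ Fx b.Γ (k.ρ 0) ∧ ¬ IsOfFinAddOrder p) → k.Is (dec P)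

/-- descent of the isotropy -/
def ISD : Prop := ∀ (e : Crv) (b : Fld e) (k : Ch b) l P, Ov l P → dec P ≤ b.Γ → k.Is (dec P) →
  ∀ x ∈ k.Ip (dec P), ∀ y ∈ k.Ip (dec P), L2.cu (rb e) x y ∈ BB (rb e) (dec P)

/-- **the local condition at the bad primes** -/
def LK : Prop := ∀ (e : Crv) (b : Fld e) (k : Ch b) l P, k.Nt → Ov l P → dec P ≤ b.Γ →
  ∃ C : ℕ, C ≠ 0 ∧ ∀ c m x, 0 < c → ¬ l ∣ c → ¬ pp ∣ c → k.Iv c m x → k.Lt (dec P) c m (C • x)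

/-- **the Kolyvagin points** -/
def KC1 : Prop := ∀ (e : Crv) (b : Fld e) (k : Ch b) (pl : Pl) Y M m T, Es b Y M →
  b.Tv (pp ^ k.t) T → ∃ P, P ∅ = k.tp T (Y (pp ^ k.t)) ∧ P ∅ ∈ Fx b.Γ (k.ρ 0) ∧
    k.Ks pl (Gd b pl M m) m P

/-- **the relation of Kolyvagin** -/
def KC2 : Prop := ∀ (e : Crv) (b : Fld e) (k : Ch b) (pl : Pl) M m P (C : ℕ) (Q : Finset ℕ), k.Nt →
  k.Ks pl (Gd b pl M m) m P → (∀ q ∈ Q, Gd b pl M m q) →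
  (∀ l ∈ Q, k.Dv pl l m (C • P Q)) ∧ ∀ l ∉ Q, Gd b pl M m l →
    ¬ k.Nz (∏ q ∈ insert l Q, q) m (C • P (insert l Q)) → k.Dv pl l m (C • P Q)

/-- the class -/
def CL1 : Prop := ∀ (e : Crv) (b : Fld e) (k : Ch b) c n x, k.Nt → 0 < c → k.Iv c n x →
  k.Nz c n x → ∃ ν d, k.Dc c n x ν d

/-- it is unramified -/
def CL2 : Prop := ∀ (e : Crv) (b : Fld e) (k : Ch b) c n x ν d (T : Finset ℕ), k.Nt → 0 < c →
  k.Dc c n x ν d → Sd b ⊆ T → c.primeFactors ⊆ T → d ∈ Zg (aa b ν) T ∧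
    ∀ l P, Ov l P → l ∉ e.S → ¬ l ∣ c → d ∈ Ur (aa b ν) P

/-- it comes from a local point -/
def CL3 : Prop := ∀ (e : Crv) (b : Fld e) (k : Ch b) c n x ν d (C : ℕ) (D : Subgroup GQ), k.Nt →
  0 < c → k.Iv c n x → k.Dc c n (C • x) ν d → D ≤ b.Γ →
  (∀ y, k.Iv c n y → k.Lt D c n (C • y)) → d ∈ k.Ip D

/-- it is transverse -/
def CL4 : Prop := ∀ (e : Crv) (b : Fld e) (k : Ch b) (pl : Pl) M c n x ν d l, k.Nt → 0 < c →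
  k.Iv c n x → k.Dc c n x ν d → Gd b pl M n l → k.Dv pl l n x → d ∈ Vs (aa b ν) (pl.σ l)

/-- **the export** -/
def PA2 : Prop := ∀ (e : Crv) (b : Fld e) (pl : Pl), (∀ p ∈ e.S, pl.P p = e.P p) →
  Sur e.par.disc → Pa (rb e) (tw (-b.δ') (rb e)) pl e.S.toFinset (Sd b)

end Vale.Agent.P014Y.Kp
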