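import Vale.Agent.P014U.Base

/-! # P014Y, block Kp: functions on a cyclic group of order a power of `pp` (words and rows) -/

set_option autoImplicit false
set_option linter.all false

noncomputable section

namespace Vale.Agent.P014Y.Kp

open Vale.Agent.P014U

variable [Pp]

instance nzq (s : ℕ) : NeZero (pp ^ (s + 1)) := ⟨pow_ne_zero _ pp_ne⟩

abbrev Zq (s : ℕ) : Type := ZMod (pp ^ (s + 1))

abbrev Mq (s : ℕ) (G : Type) : Type := Zq s → G

section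

variable {s : ℕ} {G : Type} [AddCommGroup G]

/-- the shift -/
def sh (k : Zq s) : AddMonoid.End (Mq s G) :=
  AddMonoidHom.mk' (fun x i => x (i - k)) fun _ _ => rfl

theorem sh_apply (k : Zq s) (x : Mq s G) (i : Zq s) : sh k x i = x (i - k) := rfl

/-- the uniformiser `ζ - ζ⁻¹` -/
def vp : AddMonoid.End (Mq s G) := sh 1 - sh (-1)

/-- an element of the group ring -/
def op (c : Zq s → ℤ) : AddMonoid.End (Mq s G) := ∑ k, c k • sh k

/-- the cyclotomic polynomial of the shift -/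
def Nm : AddMonoid.End (Mq s G) := ∑ j ∈ Finset.range pp, sh ((j * pp ^ s : ℕ) : Zq s)

/-- the primitive part `ℤ[ζ] ⊗ G` -/
def Aq : AddSubgroup (Mq s G) := AddMonoidHom.ker (Nm : AddMonoid.End (Mq s G))

/-- constant functions -/
def cs : G →+ Mq s G := AddMonoidHom.mk' (fun y _ => y) fun _ _ => rfl

/-- the element `1 ⊗ y` -/
def eb : G →+ Mq s G := AddMonoidHom.mk'
  (fun y => Pi.single 0 y - Pi.single ((pp ^ s : ℕ) : Zq s) y) fun x y => by
    rw [Pi.single_add, Pi.single_add]; abel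

end

/-- **the primitive part** -/
def CYC : Prop := ∀ s : ℕ,
  (∀ (G : Type) [AddCommGroup G], (∀ y : G, eb y ∈ (Aq : AddSubgroup (Mq s G))) ∧
    (∀ c, ∀ x ∈ (Aq : AddSubgroup (Mq s G)), op c x ∈ (Aq : AddSubgroup (Mq s G))) ∧
    (∀ x : Mq s G, pp • x - Nm x ∈ (Aq : AddSubgroup (Mq s G))) ∧
    (∀ x : Mq s G, (x ∈ (Aq : AddSubgroup (Mq s G)) ∧ vp x = 0) ↔ ∃ y, pp • y = 0 ∧ x = cs y) ∧
    ((∀ y : G, ∃ z, pp • z = y) → ∀ x ∈ (Aq : AddSubgroup (Mq s G)),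
      ∃ y ∈ (Aq : AddSubgroup (Mq s G)), vp y = x)) ∧
  (∃ c : Zq s → ℤ, ∀ (G : Type) [AddCommGroup G], ∀ x ∈ (Aq : AddSubgroup (Mq s G)),
    pp • x = vp (op c x)) ∧
  ∃ c : Zq s → ℤ, ∀ (G : Type) [AddCommGroup G], ∀ x ∈ (Aq : AddSubgroup (Mq s G)),
    ((vp : AddMonoid.End (Mq s G)) ^ ((pp - 1) * pp ^ s)) x = pp • op c x

/-- **the pairing on the kernel of the uniformiser** -/
def PAI : Prop := ∀ (s : ℕ) (G R : Type) [AddCommGroup G] [AddCommGroup R] (w : G → G → R),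
  (∀ y : G, ∃ z, pp • z = y) →
  (∀ x x' y, pp • x = 0 → pp • x' = 0 → pp • y = 0 →
    w (x + x') y = w x y + w x' y ∧ w y (x + x') = w y x + w y x') →
  ∀ a ∈ (Aq : AddSubgroup (Mq s G)), ∀ b ∈ (Aq : AddSubgroup (Mq s G)), ∀ v v' : G,
  pp • v = 0 → pp • v' = 0 → ((vp : AddMonoid.End (Mq s G)) ^ pp ^ s) a = cs v →
  ((vp : AddMonoid.End (Mq s G)) ^ ((pp - 1) * pp ^ s - 1)) b = cs v' →
  pp • a = 0 ∧ pp • b = 0 ∧ ∑ i, w (a i) (b i) = -w v v'

end Vale.Agent.P014Y.Kp
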