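import Vale.Agent.P014Y.Kp.Lm

/-! # P014Y, block Kp: one more prime, and Lagrangian conditions (helper87) -/

set_option autoImplicit false
set_option linter.all false

noncomputable section

namespace Vale.Agent.P014Y.Kp

open NumberField Matrix Module
open scoped Classical
open Vale.Agent.P022 (Qb GQ)
open Vale.Agent.P022D.W (dec)
open Vale.Agent.P022E.GW (Ov Fb)
open Vale.Agent.P022K.G2 (B1)
open Vale.Agent.P014U
open L2 (W M2 cu BB)
open X4S (Pl)
open Mu Mu.Li Mu.Lg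

namespace Sa

variable {k X : Type} [Field k] [AddCommGroup X] [Module k X]

/-- an isotropic space lies in a Lagrangian one -/
theorem lag {C B L I : Submodule k X} {β : Bf k X} (q : Lq C B β) (hL : ot C β L = L) (hB : B ≤ I)
    (hI : I ≤ ot C β I) : ot C β (L ⊓ ot C β I ⊔ I) = L ⊓ ot C β I ⊔ I := by
  obtain ⟨n, π, γ, p⟩ := pres q
  have c : I ≤ C := hI.trans ot_le
  obtain ⟨-, l2, l3⟩ := p.lag hL
  refine p.of_lag (le_sup_of_le_right hB) (sup_le (inf_le_left.trans l2) c) ?_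
  rw [Submodule.map_sup, p.map_inf l2 (p.le_ot c) ot_le, p.map_ot c]
  exact red p.sn l3 (p.map_ot c ▸ Submodule.map_mono hI)

variable {T : Finset ℕ} {C B L : ℕ → Submodule k X} {β : ℕ → Bf k X} {Z U R : Submodule k X} {p : ℕ}

theorem sl_up (m : p ∈ T) (U : Submodule k X) :
    sl Z T (Function.update L p U) = sl Z (T.erase p) L ⊓ U := by
  ext z
  simp only [mem_sl, Submodule.mem_inf, Finset.mem_erase]
  refine ⟨fun ⟨a, b⟩ => ⟨⟨a, fun l n => by simpa [n.1] using b l n.2⟩, by simpa using b p m⟩,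
    fun ⟨⟨a, b⟩, c⟩ => ⟨a, fun l n => ?_⟩⟩
  by_cases e : l = p
  · simpa [e] using c
  · simpa [e] using b l ⟨e, n⟩

/-- the change of the condition at one place of dimension two -/
theorem stp (h2 : (2 : k) ≠ 0) (q : Qs T C B β Z) (m : p ∈ T)
    (hL : ∀ l ∈ T.erase p, ot (C l) (β l) (L l) = L l) (hU : ot (C p) (β p) U = U)
    (hR : ot (C p) (β p) R = R) (i : U ⊓ R ≤ B p) (d : dq (C p) (B p) = 2) :
    (¬ sl Z (T.erase p) L ⊓ U ≤ R → sl Z (T.erase p) L ⊓ R = sl Z (T.erase p) L ⊓ U ⊓ R ∧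
      finrank k ↥(sl Z (T.erase p) L ⊓ R) + 1 = finrank k ↥(sl Z (T.erase p) L ⊓ U)) ∧
    (sl Z (T.erase p) L ⊓ U ≤ R →
      finrank k ↥(sl Z (T.erase p) L ⊓ R) = finrank k ↥(sl Z (T.erase p) L ⊓ U) + 1) := by
  have lq := q.lq p m
  obtain ⟨n, π, γ, ps⟩ := pres lq
  obtain ⟨u1, u2, -⟩ := ps.lag hU
  obtain ⟨r1, r2, -⟩ := ps.lag hR
  have oc : ot (C p) (β p) (B p) = C p := by
    have := (laga _ _ _ _ _ _ lq ps.bc le_rfl).1
    rwa [lq.rad] at this
  have g := (gwa _ _ T C B L β Z (B p) p q m hL le_rfl (ps.bc.trans oc.ge)).2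
  have du := (laga _ _ _ _ _ _ lq u1 u2).2.1
  have lg : ∀ V, ot (C p) (β p) V = V → ∀ l ∈ T,
      ot (C l) (β l) (Function.update L p V l) = Function.update L p V l := fun V hV l n => by
    by_cases e : l = p
    · simpa [e] using hV
    · simpa [e] using hL l (Finset.mem_erase.2 ⟨e, n⟩)
  have pa := para _ _ T C B _ _ β Z h2 q (lg U hU) (lg R hR)
  have e1 : dq U R = dq U (B p) := fr_map _ _ _ fun x hx => by
    simp only [Submodule.mkQ_apply, Submodule.Quotient.mk_eq_zero]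
    exact ⟨fun y => i ⟨hx, y⟩, fun y => r1 y⟩
  rw [sl_up m, sl_up m, Finset.sum_eq_single_of_mem p m fun l _ n => by
    rw [Function.update_of_ne n, Function.update_of_ne n, dq, Submodule.mkQ_map_self, finrank_bot],
    Function.update_self, Function.update_self, e1, Nat.even_iff] at pa
  rw [oc, d] at g
  rw [hU, d] at du
  have fz := q.zf
  have fA : Module.Finite k (sl Z (T.erase p) L) := Submodule.finiteDimensional_of_le inf_le_left
  generalize sl Z (T.erase p) L = A at *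
  have fi : ∀ V, Module.Finite k ↥(A ⊓ V) := fun V => Submodule.finiteDimensional_of_le inf_le_left
  have mo : ∀ V V', V ≤ V' → finrank k ↥(A ⊓ V) ≤ finrank k ↥(A ⊓ V') := fun V V' e =>
    Submodule.finrank_mono (inf_le_inf_left _ e)
  have a1 := mo _ _ u1
  have a2 := mo _ _ u2
  have a3 := mo _ _ r1
  have a4 := mo _ _ r2
  refine ⟨fun n => ?_, fun n => ?_⟩
  · have a5 := Submodule.finrank_lt_finrank_of_lt (lt_of_le_of_ne (inf_le_inf_left A u1) fun e =>
      n (e.ge.trans (inf_le_right.trans r1)))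
    have e := Submodule.eq_of_le_of_finrank_le (inf_le_inf_left A r1) (by omega)
    exact ⟨le_antisymm (le_inf (e.ge.trans (inf_le_inf_left A u1)) inf_le_right)
      (inf_le_inf_right R inf_le_left), by omega⟩
  · have a5 : finrank k ↥(A ⊓ U) ≤ finrank k ↥(A ⊓ B p) :=
      Submodule.finrank_mono (le_inf inf_le_left ((le_inf inf_le_right n).trans i))
    omega

end Sa

variable [Pp]

/-- primes whose Frobenius element has the eigenvalues `1` and `-1` -/
structure Iq (a : GQ →* M2) (pl : Pl) (S : Finset ℕ) (q : ℕ) : Prop where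
  pr : q.Prime
  out : q ∉ S
  sq : a (pl.σ q) * a (pl.σ q) = 1
  dt : (a (pl.σ q)).det = -1

/-- the conditions `L` at `S`, transverse at `Q`, unramified at the other primes -/
def Se (a : GQ →* M2) (pl : Pl) (S S' Q : Finset ℕ) (L : ℕ → Submodule F X) : Submodule F X :=
  sl (Zg a (S' ∪ Q)) (S' ∪ Q) fun l => if l ∈ S then L l else Lc a pl Q l

variable {a : GQ →* M2} {pl : Pl} {S S' Q : Finset ℕ} {q l : ℕ} {L : ℕ → Submodule F X}
  {P : Ideal (𝓞 Qb)} {z : X}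

theorem Iq.lm (u : Iq a pl S q) (r : Rs a S) : Lm a q (pl.P q) (pl.σ q) :=
  ⟨r.toR0, pl.ov q u.pr, pl.fb q u.pr, fun e => u.out (e ▸ r.pm), r.inert (pl.ov q u.pr) u.out,
    u.sq, u.dt⟩

theorem se_empty : Se a pl S S' ∅ L = Sf a pl S S' L := by
  simp only [Se, Sf, Finset.union_empty, Lc, Finset.notMem_empty, if_false]

theorem se_zg : Se a pl S S' Q L ≤ Zg a (S' ∪ Q) := inf_le_left

theorem mem_se (hS : S ⊆ S') (o : ∀ q ∈ Q, q ∉ S') : z ∈ Se a pl S S' Q L ↔ z ∈ Zg a (S' ∪ Q) ∧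
    (∀ l ∈ S, z ∈ L l) ∧ (∀ l ∈ S', l ∉ S → z ∈ Ur a (pl.P l)) ∧
      ∀ q ∈ Q, z ∈ Vs a (pl.σ q) := by
  rw [Se, mem_sl]
  refine and_congr_right fun hz => ⟨fun c => ⟨fun l m => ?_, fun l m n => ?_, fun q m => ?_⟩,
    fun ⟨c1, c2, c3⟩ l m => ?_⟩
  · simpa [m] using c l (Finset.mem_union_left _ (hS m))
  · simpa [n, Lc, mt (o l) (not_not.2 m)] using c l (Finset.mem_union_left _ m)
  · have := c q (Finset.mem_union_right _ m)
    rw [if_neg fun x => o q m (hS x), Lc, if_pos m] at this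
    exact this.2
  · rw [Lc]
    split_ifs with e e'
    exacts [c1 l e, ⟨zg_cl _ hz, c3 l e'⟩, c2 l ((Finset.mem_union.1 m).resolve_right e') e]

/-- there is a Lagrangian condition at every place -/
theorem ex_lag (r : Rs a S) (hl : l.Prime) : ∃ L, Ot a (dec (pl.P l)) L = L := by
  by_cases e : l = pp
  · subst e
    exact ⟨_, (gwl0 a pl S ∅ r (by simp)).2.2.2.2⟩
  · exact ⟨_, Gw.ur_lag dim url r.toR0 (pl.ov l hl) e⟩

/-- **an isotropic set lies in a Lagrangian condition** -/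
theorem lag0 (r : Rs a S) (hl : l.Prime) (I : Set X) (c : ∀ x ∈ I, x ∈ Cl a (dec (pl.P l)))
    (i : ∀ x ∈ I, ∀ y ∈ I, cu a x y ∈ BB a (dec (pl.P l))) :
    ∃ L, (∀ x ∈ I, x ∈ L) ∧ Ot a (dec (pl.P l)) L = L := by
  obtain ⟨L, hL⟩ := ex_lag (pl := pl) r hl
  obtain ⟨f, v⟩ := inv pl
  obtain ⟨lq, e⟩ := locq a l _ _ r.toR0 (pl.ov l hl) (v.loc l hl)
  have b := Lo.b_le (D := dec (pl.P l)) r.toR0
  have sc : Submodule.span F I ≤ Cl a (dec (pl.P l)) := Submodule.span_le.2 c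
  have jc := sup_le b sc
  have o1 : Submodule.span F I ≤ Ot a (dec (pl.P l)) (Submodule.span F I) :=
    Submodule.span_le.2 fun y hy => e _ sc ▸ ⟨c y hy, fun x hx => Submodule.span_le
      (p := LinearMap.ker ((bt a (f l)).flip y)) |>.2 (fun x hx => (Lo.bt_iff r.toR0 (v.loc l hl)
        (c x hx) (c y hy)).2 (i x hx y hy)) hx⟩
  have k := Sa.lag lq ((e L (hL.ge.trans (Fin0.ot_cl L))).trans hL) le_sup_left
    (I := Bl a (dec (pl.P l)) ⊔ Submodule.span F I) fun y hy => ⟨jc hy, fun x hx => by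
      obtain ⟨x1, a1, x2, a2, rfl⟩ := Submodule.mem_sup.1 hx
      obtain ⟨y1, b1, y2, b2, rfl⟩ := Submodule.mem_sup.1 hy
      have t := fun x y p q => (Lo.bt_iff (x := x) (y := y) r.toR0 (v.loc l hl) p q).2
      rw [map_add, map_add, LinearMap.add_apply, LinearMap.add_apply,
        t _ _ (b a1) (b b1) (Lo.b_cu a1 (b b1)), t _ _ (b a1) (sc b2) (Lo.b_cu a1 (sc b2)),
        t _ _ (sc a2) (b b1) (Lo.cu_b (sc a2) b1 r.toR0), t _ _ (sc a2) (sc b2) ((o1 b2).2 _ a2)]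
      simp⟩
  exact ⟨_, fun x hx => Submodule.mem_sup_right (Submodule.mem_sup_right
    (Submodule.subset_span hx)), (e _ (k.ge.trans ot_le)).symm.trans k⟩

theorem bl_se (r : Rs a S') (hL : ∀ l ∈ S, Ot a (dec (pl.P l)) (L l) = L l)
    (u : ∀ x ∈ Q, Iq a pl S' x) : Bl a ⊤ ≤ Se a pl S S' Q L := fun x hx => by
  have r' := Fin0.rs_un r fun q m => (u q m).pr
  refine mem_sl.2 ⟨Gw.b_zg r' hx, fun l m => ?_⟩
  have b : x ∈ Bl a (dec (pl.P l)) := B1.mono hx le_top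
  rw [Lc]
  split_ifs with e e'
  · exact (hL l e).le ⟨Lo.b_le r.toR0 b, fun y hy =>
      Lo.cu_b (Fin0.ot_cl _ ((hL l e).ge hy)) b r.toR0⟩
  · exact ((u l e').lm r).bl b
  · exact Ul.bl_ur r.toR0 _ b

theorem se_fin (r : Rs a S') (u : ∀ x ∈ Q, x.Prime) : Module.Finite F (Se a pl S S' Q L) :=
  have := Lo.zg_fin (Fin0.rs_un r u)
  Submodule.finiteDimensional_of_le se_zg

/-- **one more prime** -/
theorem stp0 (r : Rs a S') (hS : S ⊆ S') (pm : pp ∈ S)
    (hL : ∀ l ∈ S, Ot a (dec (pl.P l)) (L l) = L l) (u : ∀ x ∈ Q, Iq a pl S' x)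
    (uq : Iq a pl S' q) (nq : q ∉ Q) :
    (¬ Se a pl S S' Q L ≤ Vs a (pl.σ q) →
      Se a pl S S' (insert q Q) L = Se a pl S S' Q L ⊓ Vs a (pl.σ q) ∧
      finrank F (Se a pl S S' (insert q Q) L) + 1 = finrank F (Se a pl S S' Q L)) ∧
    (Se a pl S S' Q L ≤ Vs a (pl.σ q) → Se a pl S S' Q L ≤ Se a pl S S' (insert q Q) L ∧
      finrank F (Se a pl S S' (insert q Q) L) = finrank F (Se a pl S S' Q L) + 1) := by
  obtain ⟨f, i⟩ := inv pl
  have u' : ∀ x ∈ insert q Q, Iq a pl S' x := Finset.forall_mem_insert _ _ _ |>.2 ⟨uq, u⟩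
  have r0 := Fin0.rs_un r fun q m => (u q m).pr
  have r' := Fin0.rs_un r fun q m => (u' q m).pr
  have lm := uq.lm r
  have mq : q ∈ S' ∪ insert q Q := by simp
  have er : (S' ∪ insert q Q).erase q = S' ∪ Q := by
    rw [Finset.union_insert, Finset.erase_insert (by simp [uq.out, nq])]
  have lo : ∀ l ∈ S' ∪ insert q Q, ∀ N, Ot a (dec (pl.P l)) N = N →
      ot (Cl a (dec (pl.P l))) (bt a (f l)) N = N := fun l m N e => by
    rw [(locq a l _ _ r.toR0 (pl.ov l (r'.pr l m)) (i.loc l (r'.pr l m))).2 N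
      (e.ge.trans (Fin0.ot_cl N)), e]
  have k := Sa.stp (L := fun l => if l ∈ S then L l else Lc a pl Q l) two_ne (qs0 a pl _ f r' i) mq
    (fun l m => lo l (Finset.mem_of_mem_erase m) _ (by
      rw [Lc]
      split_ifs with e e'
      exacts [hL l e, ((u l e').lm r).ot, Gw.ur_lag dim url r.toR0
        (pl.ov l (r'.pr l (Finset.mem_of_mem_erase m))) fun x => e (x ▸ pm)]))
    (lo q mq _ (Gw.ur_lag dim url r.toR0 lm.ov lm.np)) (lo q mq _ lm.ot)
    ((inf_le_inf_left _ inf_le_right).trans lm.inf)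
    (by rw [dim a q _ r.toR0 lm.ov, lm.hz1, if_neg lm.np])
  have e0 : sl (Zg a (S' ∪ insert q Q)) (S' ∪ Q) (fun l => if l ∈ S then L l else Lc a pl Q l) ⊓
      Ur a (pl.P q) = Se a pl S S' Q L := by
    rw [Se, ← unq a pl (S' ∪ Q) _ r0 (er ▸ Finset.erase_subset _ _) r'.pr, ← er,
      Finset.sdiff_erase_self mq]
    ext z
    simp only [mem_sl, Submodule.mem_inf, Finset.mem_singleton, forall_eq]
    tauto
  have e1 : sl (Zg a (S' ∪ insert q Q)) (S' ∪ Q) (fun l => if l ∈ S then L l else Lc a pl Q l) ⊓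
      Rq a (pl.P q) (pl.σ q) = Se a pl S S' (insert q Q) L := by
    rw [Se, ← er, ← Sa.sl_up mq]
    congr 1
    funext l
    by_cases e : l = q
    · simp [e, Lc, mt (@hS q) uq.out]
    · simp [e, Lc]
  have e2 : Se a pl S S' Q L ⊓ Rq a (pl.P q) (pl.σ q) = Se a pl S S' Q L ⊓ Vs a (pl.σ q) := by
    rw [Rq, ← inf_assoc, inf_eq_left.2 (se_zg.trans (zg_cl _))]
  have e3 : Se a pl S S' Q L ≤ Rq a (pl.P q) (pl.σ q) ↔ Se a pl S S' Q L ≤ Vs a (pl.σ q) := by
    rw [← inf_eq_left, e2, inf_eq_left]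
  rw [er, e0, e1, e2, e3] at k
  exact ⟨k.1, fun n => ⟨e1 ▸ le_inf (e0.ge.trans inf_le_left) (e3.2 n), k.2 n⟩⟩

end Vale.Agent.P014Y.Kp
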